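import Claimed.Agent.R296.Defs
import Claimed.Agent.R296.MTree

/-!
# Row 296, P1: the interface between Sections 6+7 (replica side) and Section 8 (scanner side)

`ReplicaStmt` packages `prop:transport` (Section 6) and `prop:comparators` (Section 7) in a form in
which **no k-copy object is visible**.  For fixed one-copy data and every `ζ > 0` the producer picks
one large replica number `k` and hands over two real functions of weighted trees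

* `F T  = - (1/k) log ‖M(T)^(-1/4) pre_k‖²`   (normalised negative logarithm of the norm),
* `Ed T = (⟨v, H̄ v⟩ - E0) / gap`              (defect energy of the normalised vector),

all `o_k(1)` and `O(log k)/k` remainders being `≤ ζ`.

The transported states at the old leaves enter only through two families of real numbers per old
leaf (an *annotation* of the old tree):

* `e1 g s x = 2 ∫ m_s(u) ∫ η(θ) dμ_{σ_{h,u}}(θ) du`,  `η` the entropy of the move of `x` to the side `s`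
  (`true` = near) in band `g` at the status of that leaf,
* `e8 g s x = 2 ∫ m_s(u) ∫ η(θ)^(1/8) dμ_{σ_{h,u}}(θ) du`.

The same annotation occurs in the entropy gain and in the energy estimate: this is the heart of
Section 8.
-/

set_option autoImplicit false

namespace Claimed.Agent.R296

namespace Scan

open Finset Matrix
open scoped ComplexOrder

/-- indicator of a proposition -/
noncomputable def ind (P : Prop) : ℝ := by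
  classical exact if P then 1 else 0

section Spec

variable {n : Type} [Fintype n] [DecidableEq n]

/-- the spectrum with multiplicity (real parts of the roots of the characteristic polynomial) -/
noncomputable def specM (M : Matrix n n ℂ) : Multiset ℝ := M.charpoly.roots.map Complex.re

/-- `∑_{p > 0} p ^ s` over the spectrum -/
noncomputable def renyiTr (M : Matrix n n ℂ) (s : ℝ) : ℝ :=
  ((specM M).map fun p => if 0 < p then p ^ s else 0).sum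

/-- the typical part of the spectrum: `exp (-S - w) ≤ p ≤ exp (-S + w)` -/
noncomputable def typM (M : Matrix n n ℂ) (w : ℝ) : Multiset ℝ := by
  classical
  exact (specM M).filter fun p => Real.exp (-vnEnt M - w) ≤ p ∧ p ≤ Real.exp (-vnEnt M + w)

/-- the mass `z` of the typical part -/
noncomputable def typZ (M : Matrix n n ℂ) (w : ℝ) : ℝ := (typM M w).sum

/-- `log d_*` -/
noncomputable def typLd (M : Matrix n n ℂ) (w : ℝ) : ℝ := Real.log (Multiset.card (typM M w))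

/-- the entropy `S'` of the normalised typical part -/
noncomputable def typS (M : Matrix n n ℂ) (w : ℝ) : ℝ :=
  ((typM M w).map fun p => Real.negMulLog (p / typZ M w)).sum

end Spec

variable {Λ ι α : Type} [Fintype Λ] [DecidableEq Λ] [Fintype ι]

/-- logarithm of the dimension of the subsystem `x` -/
noncomputable def ldim (io : Λ → Type) [∀ x, Fintype (io x)] (x : Finset Λ) : ℝ :=
  ∑ y ∈ x, Real.log (Fintype.card (io y))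

/-- `D` lies in one of the three parts of the partition `(s.1, rest, s.2)` -/
def Ins (D : Finset Λ) (s : Finset Λ × Finset Λ) : Prop :=
  D ⊆ s.1 ∨ D ⊆ s.2 ∨ (Disjoint D s.1 ∧ Disjoint D s.2)

/-- `D` is split between the near part `s.1` and the middle part -/
def SpN (D : Finset Λ) (s : Finset Λ × Finset Λ) : Prop :=
  (D ∩ s.1).Nonempty ∧ ¬ D ⊆ s.1 ∧ Disjoint D s.2

/-- `D` is split between the far part `s.2` and the middle part -/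
def SpF (D : Finset Λ) (s : Finset Λ × Finset Λ) : Prop :=
  (D ∩ s.2).Nonempty ∧ ¬ D ⊆ s.2 ∧ Disjoint D s.1

/-- a legal transition of one band: nothing, or a subsystem of logarithmic dimension `≤ ell - 1`
moves from the middle to one of the two sides -/
def LegalMove (io : Λ → Type) [∀ x, Fintype (io x)] (ell : ℝ) (s s' : Finset Λ × Finset Λ) : Prop :=
  s' = s ∨ (s'.2 = s.2 ∧ s.1 ⊆ s'.1 ∧ 1 + ldim io (s'.1 \ s.1) ≤ ell) ∨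
    (s'.1 = s.1 ∧ s.2 ⊆ s'.2 ∧ 1 + ldim io (s'.2 \ s.2) ≤ ell)

variable (Λ ι) in
/-- a one-copy system: unit vector, positive contractions with designated supports -/
structure Sys (io : Λ → Type) [∀ x, Fintype (io x)] [∀ x, DecidableEq (io x)] where
  /-- the ground vector -/
  Om : Cfg io → ℂ
  /-- the terms -/
  h : ι → Matrix (Cfg io) (Cfg io) ℂ
  /-- the designated supports -/
  sup : ι → Finset Λ
  /-- the ground energy -/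
  E0 : ℝ
  /-- the gap -/
  gap : ℝ

variable {io : Λ → Type} [∀ x, Fintype (io x)] [∀ x, DecidableEq (io x)]

/-- hypotheses on a one-copy system -/
structure Sys.WF (S : Sys Λ ι io) : Prop where
  unit : star S.Om ⬝ᵥ S.Om = 1
  pos : ∀ i, (S.h i).PosSemidef
  le_one : ∀ i, (1 - S.h i).PosSemidef
  supp : ∀ i, SuppIn (S.sup i) (S.h i)
  eig : (∑ i, S.h i) *ᵥ S.Om = (S.E0 : ℂ) • S.Om
  gap_pos : 0 < S.gap
  gapped : ((∑ i, S.h i) - (S.E0 : ℂ) • (1 : Matrix (Cfg io) (Cfg io) ℂ) -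
    (S.gap : ℂ) • (1 - pureOp S.Om)).PosSemidef

/-- the state of a one-copy system -/
def Sys.rho (S : Sys Λ ι io) : Matrix (Cfg io) (Cfg io) ℂ := pureOp S.Om

/-- annotation of an old leaf: the numbers `e1 g s x` and `e8 g s x` -/
abbrev Ann (Λ : Type) (K : ℕ) : Type :=
  (Fin K → Bool → Finset Λ → ℝ) × (Fin K → Bool → Finset Λ → ℝ)

/-- the properties of an annotation used in Section 8 -/
def AnnOK (io : Λ → Type) [∀ x, Fintype (io x)] {K : ℕ} (e : Ann Λ K) : Prop :=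
  ∀ g s x, 0 ≤ e.1 g s x ∧ e.1 g s x ≤ 2 * ldim io x ∧ 0 ≤ e.2 g s x ∧
    e.2 g s x ≤ (e.1 g s x) ^ ((1 : ℝ) / 8)

variable (Λ ι α) in
/-- all data which are fixed before the replica limit -/
structure RepData (io : Λ → Type) [∀ x, Fintype (io x)] [∀ x, DecidableEq (io x)] where
  /-- the one-copy system -/
  S : Sys Λ ι io
  /-- the target -/
  X : Finset Λ
  /-- width of the typical set -/
  w : ℝ
  /-- number of bands -/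
  K : ℕ
  /-- metric weight per band -/
  a : ℝ
  /-- the parameter of the lower comparisons -/
  τ : ℝ
  /-- bound for `log (e dim)` of all moved sets and all split supports -/
  ell : ℝ
  /-- status of a label: for every band the physical near part `X ∪ U` and the far part `V` -/
  st : α → Fin K → Finset Λ × Finset Λ
  /-- allowed labels -/
  Al : α → Prop
  /-- number of rounds -/
  R : ℕ
  /-- old history tree of every round -/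
  Hs : Fin R → MTree α
  /-- conditional choice trees of every round -/
  Ch : Fin R → α → MTree α
  /-- the nested comparison prefixes -/
  Rc : Finset (Finset Λ)
  /-- entropy bound for the prefixes -/
  Bsh : ℝ
  /-- mismatch bound -/
  Bexc : ℝ
  /-- the marginal moment parameter -/
  BB : ℝ

namespace RepData

variable (𝔇 : RepData Λ ι α io)

/-- term `i` is split at the label `l` -/
def SplitAt (i : ι) (l : α) : Prop :=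
  ∃ g, SpN (𝔇.S.sup i) (𝔇.st l g) ∨ SpF (𝔇.S.sup i) (𝔇.st l g)

/-- the terminal tree of round `r` at the interpolation parameter `p` -/
def tree (r : Fin 𝔇.R) (p : ℝ) : MTree α := MTree.interp p (𝔇.Hs r) (𝔇.Ch r)

/-- hypotheses on the fixed data (`a0` is the universal smallness constant) -/
structure WF (a0 : ℝ) : Prop where
  sys : 𝔇.S.WF
  w_nonneg : 0 ≤ 𝔇.w
  typ_pos : 0 < typZ (ptr 𝔇.X 𝔇.S.rho) 𝔇.w
  K_pos : 0 < 𝔇.K
  a_pos : 0 < 𝔇.a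
  a_le : 𝔇.a ≤ a0
  ell_ge : 1 ≤ 𝔇.ell
  a_ell : 𝔇.a * 𝔇.ell ≤ a0
  tau_pos : 0 < 𝔇.τ
  tau_lt : 𝔇.τ < 1 / 2
  st_X : ∀ l, 𝔇.Al l → ∀ g, 𝔇.X ⊆ (𝔇.st l g).1
  st_disj : ∀ l, 𝔇.Al l → ∀ g, Disjoint (𝔇.st l g).1 (𝔇.st l g).2
  nest : ∀ l l', 𝔇.Al l → 𝔇.Al l' → ∀ g g', g < g' → ((𝔇.st l g).2)ᶜ ⊆ (𝔇.st l' g').1
  split : ∀ l, 𝔇.Al l → ∀ i, (∀ g, Ins (𝔇.S.sup i) (𝔇.st l g)) ∨
    ∃ g0, (SpN (𝔇.S.sup i) (𝔇.st l g0) ∨ SpF (𝔇.S.sup i) (𝔇.st l g0)) ∧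
      1 + ldim io (𝔇.S.sup i) ≤ 𝔇.ell ∧ ∀ g, g ≠ g0 → Ins (𝔇.S.sup i) (𝔇.st l g)
  hs_valid : ∀ r, (𝔇.Hs r).SValid
  hs_al : ∀ r, (𝔇.Hs r).All 𝔇.Al
  ch_ok : ∀ r, (𝔇.Hs r).All fun l => (𝔇.Ch r l).SValid ∧ (𝔇.Ch r l).All 𝔇.Al ∧
    (𝔇.Ch r l).All fun l' => ∀ g, LegalMove io 𝔇.ell (𝔇.st l g) (𝔇.st l' g)

/-- `comparator:prefix-data` -/
structure PrefixData : Prop where
  chain : ∀ B ∈ 𝔇.Rc, ∀ B' ∈ 𝔇.Rc, B ⊆ B' ∨ B' ⊆ B
  disj : ∀ B ∈ 𝔇.Rc, Disjoint B 𝔇.X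
  ent_le : ∀ B ∈ 𝔇.Rc, ent 𝔇.S.rho B ≤ 𝔇.Bsh
  matchU : ∀ l, 𝔇.Al l → ∀ g, ∃ B ∈ 𝔇.Rc, (B ⊆ (𝔇.st l g).1 \ 𝔇.X ∨ (𝔇.st l g).1 \ 𝔇.X ⊆ B) ∧
    1 + ldim io (symmDiff B ((𝔇.st l g).1 \ 𝔇.X)) ≤ 𝔇.Bexc
  matchUY : ∀ l, 𝔇.Al l → ∀ g, ∃ B ∈ 𝔇.Rc,
    (B ⊆ ((𝔇.st l g).2)ᶜ \ 𝔇.X ∨ ((𝔇.st l g).2)ᶜ \ 𝔇.X ⊆ B) ∧
    1 + ldim io (symmDiff B (((𝔇.st l g).2)ᶜ \ 𝔇.X)) ≤ 𝔇.Bexc

/-- the moment bound of `comparator:mgf-data` for one subsystem -/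
def MgfAt (C0 c0 : ℝ) (Q : Finset Λ) : Prop :=
  ∀ u : ℝ, |u| ≤ c0 / Real.sqrt 𝔇.BB →
    Real.log (renyiTr (ptr Q 𝔇.S.rho) (1 - u)) ≤ u * ent 𝔇.S.rho Q + C0 * 𝔇.BB * u ^ 2

/-- `comparator:mgf-data` -/
structure MgfData (C0 c0 : ℝ) : Prop where
  BB_ge : 1 ≤ 𝔇.BB
  mgf : ∀ l, 𝔇.Al l → ∀ g, 𝔇.MgfAt C0 c0 (𝔇.st l g).1 ∧ 𝔇.MgfAt C0 c0 (𝔇.st l g).2 ∧
    𝔇.MgfAt C0 c0 ((𝔇.st l g).1 ∪ (𝔇.st l g).2)ᶜ ∧ 𝔇.MgfAt C0 c0 ((𝔇.st l g).1 \ 𝔇.X) ∧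
    𝔇.MgfAt C0 c0 (((𝔇.st l g).2)ᶜ \ 𝔇.X)

/-- `g^pre = S(XU) + S(V) - S(Y)` -/
noncomputable def gpre (s : Finset Λ × Finset Λ) : ℝ :=
  ent 𝔇.S.rho s.1 + ent 𝔇.S.rho s.2 - ent 𝔇.S.rho (s.1 ∪ s.2)ᶜ

/-- `g^post = S(U) + S(UY) - S(Y)` -/
noncomputable def gpost (s : Finset Λ × Finset Λ) : ℝ :=
  ent 𝔇.S.rho (s.1 \ 𝔇.X) + ent 𝔇.S.rho (s.2ᶜ \ 𝔇.X) - ent 𝔇.S.rho (s.1 ∪ s.2)ᶜ

/-- terminal path and band average -/
noncomputable def av (f : Finset Λ × Finset Λ → ℝ) (T : MTree α) : ℝ :=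
  (𝔇.K : ℝ)⁻¹ * ∑ g, T.E fun l => f (𝔇.st l g)

/-- `log d_*` -/
noncomputable def ld : ℝ := typLd (ptr 𝔇.X 𝔇.S.rho) 𝔇.w

/-- `z` -/
noncomputable def z : ℝ := typZ (ptr 𝔇.X 𝔇.S.rho) 𝔇.w

/-- `S'` -/
noncomputable def S' : ℝ := typS (ptr 𝔇.X 𝔇.S.rho) 𝔇.w

/-- total metric weight `W = a K` -/
noncomputable def W : ℝ := 𝔇.a * 𝔇.K

/-- the average entropy gain of round `r` seen from an annotated old leaf -/
noncomputable def gainAt (r : Fin 𝔇.R) (y : α × Ann Λ 𝔇.K) : ℝ :=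
  ∑ g, (𝔇.Ch r y.1).E fun l' =>
    y.2.1 g true ((𝔇.st l' g).1 \ (𝔇.st y.1 g).1) + y.2.1 g false ((𝔇.st l' g).2 \ (𝔇.st y.1 g).2)

/-- the `1/8`-cost of the split of term `i` at an annotated old leaf -/
noncomputable def costAt (i : ι) (y : α × Ann Λ 𝔇.K) : ℝ :=
  ∑ g, (ind (SpN (𝔇.S.sup i) (𝔇.st y.1 g)) * y.2.2 g true (𝔇.S.sup i \ (𝔇.st y.1 g).1) +
    ind (SpF (𝔇.S.sup i) (𝔇.st y.1 g)) * y.2.2 g false (𝔇.S.sup i \ (𝔇.st y.1 g).2))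

/-- what Sections 6 and 7 deliver for the fixed data, the constants `C0 c0` of the moment bound, the
universal constants `C a0` and the tolerance `ζ` -/
structure Out (C0 c0 C a0 ζ : ℝ) (F Ed : MTree α → ℝ) : Prop where
  end0 : ∀ r, F (𝔇.tree r 0) = F (𝔇.Hs r)
  end1 : ∀ r, F (𝔇.tree r 1) = F ((𝔇.Hs r).bind (𝔇.Ch r))
  cont : ∀ r, ContinuousOn (fun p => F (𝔇.tree r p)) (Set.Icc 0 1)
  floor : ∀ r, -ζ ≤ F (𝔇.Hs r)
  transport : ∀ r, ∀ p ∈ Set.Ioo (0 : ℝ) 1, ∃ (An : MTree (α × Ann Λ 𝔇.K)) (F' : ℝ),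
    An.map Prod.fst = 𝔇.Hs r ∧ An.All (fun y => AnnOK io y.2) ∧
    HasDerivAt (fun p => F (𝔇.tree r p)) F' p ∧
    𝔇.a / 2 * An.E (𝔇.gainAt r) - C * 𝔇.a * 𝔇.K * 𝔇.a ^ ((1 : ℝ) / 4) * 𝔇.ell ^ C - ζ ≤ F' ∧
    𝔇.S.gap * Ed (𝔇.tree r p) ≤ 𝔇.S.E0 + C * 𝔇.a ^ 2 * 𝔇.ell ^ C *
      ∑ i, (𝔇.tree r p).E (fun l => ind (𝔇.SplitAt i l)) *
        ((1 - p) * An.E (𝔇.costAt i) +
          p * ((𝔇.Hs r).bind (𝔇.Ch r)).E (fun l => ind (𝔇.SplitAt i l)) *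
            (2 * 𝔇.ell) ^ ((1 : ℝ) / 8)) + ζ
  rough_upper : 𝔇.PrefixData → ∀ r, ∀ p ∈ Set.Icc (0 : ℝ) 1,
    F (𝔇.tree r p) ≤ 2 * 𝔇.ld - Real.log 𝔇.z +
      𝔇.W / 2 * (2 * 𝔇.Bsh / 𝔇.z + 2 * 𝔇.Bexc) + ζ
  rough_lower : ∀ r, ∀ p ∈ Set.Icc (0 : ℝ) 1,
    𝔇.W / 2 * (2 * 𝔇.S' - C * (𝔇.τ * 𝔇.ld + Real.binEntropy 𝔇.τ / 𝔇.a) -
      C * (Ed (𝔇.tree r p) / 𝔇.τ) * 𝔇.S') - ζ ≤ F (𝔇.tree r p)
  sharp_upper : 𝔇.MgfData C0 c0 → 𝔇.a * Real.sqrt 𝔇.BB ≤ a0 → ∀ r, ∀ p ∈ Set.Icc (0 : ℝ) 1,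
    F (𝔇.tree r p) ≤ 2 * 𝔇.ld - Real.log 𝔇.z +
      𝔇.W / 2 * (𝔇.av 𝔇.gpost (𝔇.tree r p) + C * (𝔇.a * 𝔇.BB + |Real.log 𝔇.z| / 𝔇.a)) + ζ
  sharp_lower : 𝔇.MgfData C0 c0 → 𝔇.a * Real.sqrt 𝔇.BB ≤ a0 → ∀ gmax : ℝ,
    (∀ l, 𝔇.Al l → ∀ g, 𝔇.gpre (𝔇.st l g) ≤ gmax) → ∀ r, ∀ p ∈ Set.Icc (0 : ℝ) 1,
    𝔇.W / 2 * (2 * 𝔇.S' + (1 - 𝔇.τ) * 𝔇.av 𝔇.gpre (𝔇.tree r p) -
      C * (𝔇.τ * 𝔇.ld + Real.binEntropy 𝔇.τ / 𝔇.a + 𝔇.a * 𝔇.BB) -
      C * (Ed (𝔇.tree r p) / 𝔇.τ) * (𝔇.S' + gmax)) - ζ ≤ F (𝔇.tree r p)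

end RepData

/-- **The interface.**  `prop:transport` + `prop:comparators` of paper 1. -/
def ReplicaStmt : Prop :=
  ∀ C0 c0 : ℝ, 0 < C0 → 0 < c0 → ∃ C a0 : ℝ, 1 ≤ C ∧ 0 < a0 ∧
    ∀ (Λ ι α : Type) [Fintype Λ] [DecidableEq Λ] [Fintype ι] (io : Λ → Type)
      [∀ x, Fintype (io x)] [∀ x, DecidableEq (io x)] [∀ x, Nonempty (io x)]
      (𝔇 : RepData Λ ι α io), 𝔇.WF a0 → ∀ ζ : ℝ, 0 < ζ →
        ∃ F Ed : MTree α → ℝ, 𝔇.Out C0 c0 C a0 ζ F Ed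

end Scan

end Claimed.Agent.R296
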