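import Claimed.Agent.R296.Scan.Api
import Claimed.Agent.R296.TailSites
import Claimed.Agent.R296.EntSite

/-!
# Row 296, P1 Sections 7/8: the typical part of the spectrum of a density matrix (package S8-T)

`comparator:typical-entropies`, the link with the tail mass and the Renyi sums of Section 2, and the
entropy calculus `EntOK`-style facts in the vocabulary of `Scan/Api.lean`.
-/

set_option autoImplicit false
set_option linter.unusedSectionVars false

namespace Claimed.Agent.R296.Scan

open Finset Matrix

section Spec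

variable {n : Type} [Fintype n] [DecidableEq n]

theorem renyiTr_eq_tlRenyi (M : Matrix n n ℂ) (s : ℝ) : renyiTr M s = tlRenyi M s := by
  unfold renyiTr tlRenyi specM
  rw [Multiset.map_map]
  rfl

theorem typ_mem {M : Matrix n n ℂ} {w p : ℝ} (h : p ∈ typM M w) :
    Real.exp (-vnEnt M - w) ≤ p ∧ p ≤ Real.exp (-vnEnt M + w) := by
  classical
  unfold typM at h
  exact (Multiset.mem_filter.1 h).2

theorem typ_pos {M : Matrix n n ℂ} {w p : ℝ} (h : p ∈ typM M w) : 0 < p :=
  (Real.exp_pos _).trans_le (typ_mem h).1

theorem typ_log {M : Matrix n n ℂ} {w p : ℝ} (h : p ∈ typM M w) :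
    -vnEnt M - w ≤ Real.log p ∧ Real.log p ≤ -vnEnt M + w := by
  obtain ⟨h1, h2⟩ := typ_mem h
  have hp := typ_pos h
  exact ⟨(Real.le_log_iff_exp_le hp).2 h1, (Real.log_le_iff_le_exp hp).2 h2⟩

theorem typ_sum_filter {α : Type*} (T : Multiset α) (P : α → Prop) [DecidablePred P] (f : α → ℝ) :
    ((T.filter P).map f).sum = (T.map fun z => if P z then f z else 0).sum := by
  induction T using Multiset.induction_on with
  | empty => simp
  | cons a T ih =>
    by_cases h : P a
    · simp [h, ih]
    · simp [h, ih]

/-- the typical mass as a spectral sum -/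
theorem typZ_eq_sum (M : Matrix n n ℂ) (w : ℝ) :
    typZ M w = ((M.charpoly.roots).map fun z =>
      if Real.exp (-vnEnt M - w) ≤ z.re ∧ z.re ≤ Real.exp (-vnEnt M + w) then z.re else 0).sum := by
  classical
  unfold typZ typM specM
  rw [Multiset.filter_map, typ_sum_filter]
  rfl

/-- the typical mass is the complement of the tail mass -/
theorem typZ_eq (M : Matrix n n ℂ) (hM : IsDensity M) (w : ℝ) :
    typZ M w = 1 - tlTailMass M w := by
  have hH : M.IsHermitian := hM.1.1
  rw [typZ_eq_sum, tlTailMass_eq hH,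
    tl_specSum_eq hH fun x => if Real.exp (-vnEnt M - w) ≤ x ∧ x ≤ Real.exp (-vnEnt M + w)
      then x else 0]
  have h1 : ∑ i, hH.eigenvalues i = 1 := by
    have h2 := hH.trace_eq_sum_eigenvalues
    rw [hM.2] at h2
    have h3 : ((∑ i, hH.eigenvalues i : ℝ) : ℂ) = 1 := by
      rw [h2]; push_cast; rfl
    exact_mod_cast h3
  rw [eq_sub_iff_add_eq, ← h1, ← Finset.sum_add_distrib]
  refine Finset.sum_congr rfl fun i _ => ?_
  have h0 : 0 ≤ hH.eigenvalues i := hM.1.eigenvalues_nonneg i
  set x := hH.eigenvalues i with hx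
  rcases h0.eq_or_lt with h0 | hpos
  · have : ¬ (Real.exp (-vnEnt M - w) ≤ x) := by
      rw [← h0]; exact not_le.2 (Real.exp_pos _)
    simp [← h0]
  · have hiff : (Real.exp (-vnEnt M - w) ≤ x ∧ x ≤ Real.exp (-vnEnt M + w)) ↔
        ¬ (0 < x ∧ w < |(-Real.log x) - vnEnt M|) := by
      rw [← Real.le_log_iff_exp_le hpos, ← Real.log_le_iff_le_exp hpos, not_and, not_lt, abs_le]
      constructor
      · rintro ⟨a, b⟩ _
        constructor <;> linarith
      · intro h
        obtain ⟨a, b⟩ := h hpos
        constructor <;> linarith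
    by_cases h : Real.exp (-vnEnt M - w) ≤ x ∧ x ≤ Real.exp (-vnEnt M + w)
    · rw [if_pos h, if_neg (hiff.1 h), add_zero]
    · rw [if_neg h, if_pos (not_not.1 (fun h' => h (hiff.2 h'))), zero_add]

theorem tlTailMass_nonneg' (M : Matrix n n ℂ) (w : ℝ) : 0 ≤ tlTailMass M w := by
  unfold tlTailMass
  refine Multiset.sum_nonneg ?_
  intro x hx
  obtain ⟨z, -, rfl⟩ := Multiset.mem_map.1 hx
  split_ifs with h
  · exact h.1.le
  · exact le_rfl

theorem typZ_le_one (M : Matrix n n ℂ) (hM : IsDensity M) (w : ℝ) : typZ M w ≤ 1 := by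
  rw [typZ_eq M hM]
  have := tlTailMass_nonneg' M w
  linarith

theorem typLd_nonneg (M : Matrix n n ℂ) (w : ℝ) : 0 ≤ typLd M w :=
  Real.log_natCast_nonneg _

theorem typ_le_typZ {M : Matrix n n ℂ} {w p : ℝ} (h : p ∈ typM M w) : p ≤ typZ M w :=
  Multiset.single_le_sum (fun _ hx => (typ_pos hx).le) p h

theorem typS_nonneg (M : Matrix n n ℂ) (w : ℝ) : 0 ≤ typS M w := by
  unfold typS
  refine Multiset.sum_nonneg ?_
  intro x hx
  obtain ⟨p, hp, rfl⟩ := Multiset.mem_map.1 hx
  have h0 := typ_pos hp
  have h1 := typ_le_typZ hp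
  exact Real.negMulLog_nonneg (div_nonneg h0.le (h0.le.trans h1))
    (div_le_one_of_le₀ h1 (h0.le.trans h1))

/-- `comparator:typical-entropies`, first half -/
theorem abs_typLd_sub_le (M : Matrix n n ℂ) {w : ℝ} (hz : 0 < typZ M w) :
    |typLd M w - vnEnt M| ≤ w + |Real.log (typZ M w)| := by
  set T := typM M w with hT
  have hcard : 0 < Multiset.card T := by
    rw [Multiset.card_pos]
    intro h0
    unfold typZ at hz
    rw [← hT, h0] at hz
    simp at hz
  have hd : (0 : ℝ) < Multiset.card T := by exact_mod_cast hcard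
  have h1 : (Multiset.card T) • Real.exp (-vnEnt M - w) ≤ typZ M w :=
    Multiset.card_nsmul_le_sum fun x hx => (typ_mem hx).1
  have h2 : typZ M w ≤ (Multiset.card T) • Real.exp (-vnEnt M + w) :=
    Multiset.sum_le_card_nsmul _ _ fun x hx => (typ_mem hx).2
  rw [nsmul_eq_mul] at h1 h2
  have l1 : Real.log (Multiset.card T) + (-vnEnt M - w) ≤ Real.log (typZ M w) := by
    have := Real.log_le_log (by positivity) h1
    rwa [Real.log_mul hd.ne' (Real.exp_pos _).ne', Real.log_exp] at this
  have l2 : Real.log (typZ M w) ≤ Real.log (Multiset.card T) + (-vnEnt M + w) := by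
    have := Real.log_le_log hz h2
    rwa [Real.log_mul hd.ne' (Real.exp_pos _).ne', Real.log_exp] at this
  have a1 := le_abs_self (Real.log (typZ M w))
  have a2 := neg_abs_le (Real.log (typZ M w))
  unfold typLd
  rw [← hT, abs_le]
  constructor <;> linarith

/-- `comparator:typical-entropies`, second half -/
theorem abs_typS_sub_le (M : Matrix n n ℂ) {w : ℝ} (hz : 0 < typZ M w) :
    |typS M w - vnEnt M| ≤ w + |Real.log (typZ M w)| := by
  set T := typM M w with hT
  set z := typZ M w with hzdef
  -- `S' = ∑ (p/z) (-log p) + log z`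
  have e1 : typS M w = (T.map fun p => p / z * (-Real.log p)).sum + Real.log z := by
    have e2 : (T.map fun p => p / z * Real.log z).sum = Real.log z := by
      have : (T.map fun p => p / z * Real.log z).sum = (T.map fun p => p * (Real.log z / z)).sum := by
        congr 1
        refine Multiset.map_congr rfl fun p _ => ?_
        ring
      rw [this, Multiset.sum_map_mul_right]
      simp only [Multiset.map_id']
      change z * _ = _
      field_simp
    unfold typS
    rw [← hT, ← hzdef]
    rw [← e2, ← Multiset.sum_map_add]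
    congr 1
    refine Multiset.map_congr rfl fun p hp => ?_
    have hp0 := typ_pos hp
    rw [Real.negMulLog, Real.log_div hp0.ne' hz.ne']
    ring
  have hsum : (T.map fun p => p / z).sum = 1 := by
    have : (T.map fun p => p / z).sum = (T.map fun p => p * z⁻¹).sum := by
      congr 1
    rw [this, Multiset.sum_map_mul_right]
    simp only [Multiset.map_id']
    change z * _ = _
    field_simp
  have u1 : (T.map fun p => p / z * (-Real.log p)).sum ≤ vnEnt M + w := by
    have : (T.map fun p => p / z * (-Real.log p)).sum ≤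
        (T.map fun p => p / z * (vnEnt M + w)).sum := by
      refine Multiset.sum_map_le_sum_map _ _ fun p hp => ?_
      have := (typ_log hp).1
      exact mul_le_mul_of_nonneg_left (by linarith) (div_nonneg (typ_pos hp).le hz.le)
    rw [Multiset.sum_map_mul_right, hsum, one_mul] at this
    exact this
  have u2 : vnEnt M - w ≤ (T.map fun p => p / z * (-Real.log p)).sum := by
    have : (T.map fun p => p / z * (vnEnt M - w)).sum ≤
        (T.map fun p => p / z * (-Real.log p)).sum := by
      refine Multiset.sum_map_le_sum_map _ _ fun p hp => ?_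
      have := (typ_log hp).2
      exact mul_le_mul_of_nonneg_left (by linarith) (div_nonneg (typ_pos hp).le hz.le)
    rw [Multiset.sum_map_mul_right, hsum, one_mul] at this
    exact this
  have a1 := le_abs_self (Real.log z)
  have a2 := neg_abs_le (Real.log z)
  rw [e1, abs_le]
  constructor <;> linarith

end Spec

variable {Λ : Type} [Fintype Λ] [DecidableEq Λ] {io : Λ → Type} [∀ x, Fintype (io x)]

theorem ldim_eq_logDim (x : Finset Λ) : ldim io x = logDim io x := rfl

theorem ldim_nonneg (x : Finset Λ) : 0 ≤ ldim io x :=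
  Finset.sum_nonneg fun _ _ => Real.log_natCast_nonneg _

theorem ldim_mono {x y : Finset Λ} (h : x ⊆ y) : ldim io x ≤ ldim io y :=
  Finset.sum_le_sum_of_subset_of_nonneg h fun _ _ _ => Real.log_natCast_nonneg _

theorem ldim_le_card_mul {lq : ℝ} (hq : ∀ x, Real.log (Fintype.card (io x)) ≤ lq) (x : Finset Λ) :
    ldim io x ≤ x.card * lq := by
  unfold ldim
  calc ∑ y ∈ x, Real.log (Fintype.card (io y)) ≤ ∑ _y ∈ x, lq := Finset.sum_le_sum fun y _ => hq y
    _ = x.card * lq := by simp

end Claimed.Agent.R296.Scan
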