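import Claimed.Agent.R296.Scan.Main
import Claimed.Agent.R296.Scan.Typ

/-!
# Row 296, P1 Section 8, level B: the hypotheses of `ReplicaStmt` hold for the scan (package S8-B1)
-/

set_option autoImplicit false

namespace Claimed.Agent.R296.Scan

open Finset

variable {Λ ι : Type} [Fintype Λ] [DecidableEq Λ] [Fintype ι]
variable {io : Λ → Type} [∀ x, Fintype (io x)] [∀ x, DecidableEq (io x)]
variable {S : Sys Λ ι io} {G : Geom Λ ι} {P : Par} {a0 : ℝ}

/-- logarithmic dimension of a set with at most `v` sites -/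
theorem Compat.ma_ldim_le (h : Compat S G P a0) {x : Finset Λ} {v : ℕ} (hx : x.card ≤ v) :
    ldim io x ≤ (v : ℝ) * P.lq :=
  (ldim_le_card_mul h.lq x).trans
    (mul_le_mul_of_nonneg_right (by exact_mod_cast hx) h.lq_nonneg)

theorem Compat.ma_one_le_ell (h : Compat S G P a0) : 1 ≤ P.ell := by
  have h1 := h.ell_ge
  have h2 : 0 ≤ ((G.V0 : ℝ) + 1) * P.lq := mul_nonneg (by positivity) h.lq_nonneg
  linarith

/-- sets with at most `V0 + 1` sites are admissible moves -/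
theorem Compat.ma_move_le (h : Compat S G P a0) {x : Finset Λ} (hx : x.card ≤ G.V0 + 1) :
    1 + ldim io x ≤ P.ell := by
  have h1 := h.ma_ldim_le hx
  have h2 := h.ell_ge
  push_cast at h1
  linarith

/-- sets with at most `n (D + r0 + 1)` sites are admissible mismatches -/
theorem Compat.ma_exc_le (h : Compat S G P a0) {x : Finset Λ}
    (hx : x.card ≤ G.n * (G.D + G.r0 + 1)) : 1 + ldim io x ≤ P.Bexc := by
  have h1 := h.ma_ldim_le hx
  have h2 := h.Bexc_ge
  push_cast at h1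
  linarith

theorem ma_all_and {α : Type} {p q : α → Prop} :
    ∀ {t : MTree α}, t.All p → t.All q → t.All fun a => p a ∧ q a
  | MTree.leaf _, h1, h2 => ⟨h1, h2⟩
  | MTree.node _ _ _, h1, h2 => ⟨ma_all_and h1.1 h2.1, ma_all_and h1.2 h2.2⟩

theorem Compat.ma_legal (h : Compat S G P a0) {s s' : Finset Λ × Finset Λ}
    (hl : Geom.LegalG (G.V0 + 1) s s') : LegalMove io P.ell s s' := by
  rcases hl with h0 | ⟨h1, h2, h3⟩ | ⟨h1, h2, h3⟩
  · exact Or.inl h0
  · exact Or.inr (Or.inl ⟨h1, h2, h.ma_move_le h3⟩)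
  · exact Or.inr (Or.inr ⟨h1, h2, h.ma_move_le h3⟩)

/-- (B1) the hypotheses of `ReplicaStmt` hold for the scan -/
theorem scanData_wf [∀ x, Nonempty (io x)] (h : Compat S G P a0) (d : G.Lab) :
    (scanData S G d P).WF a0 := by
  have hW := h.geo
  refine ⟨h.sys, h.w_nonneg, h.typ_pos, hW.K_pos, h.a_pos, h.a_le, h.ma_one_le_ell, h.a_ell,
    h.tau_pos, h.tau_lt, ?_, ?_, ?_, ?_, ?_, ?_, ?_⟩
  · intro l hl g
    exact Geom.X_subset_near hW hl g
  · intro l hl g
    exact Geom.disjoint_near_far hW hl g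
  · intro l l' hl hl' g g' hg
    exact Geom.nest hW hl hl' hg
  · intro l hl i
    show (∀ g, Ins (S.sup i) (G.st l g)) ∨
      ∃ g0, (SpN (S.sup i) (G.st l g0) ∨ SpF (S.sup i) (G.st l g0)) ∧
        1 + ldim io (S.sup i) ≤ P.ell ∧ ∀ g, g ≠ g0 → Ins (S.sup i) (G.st l g)
    rw [h.sup_eq i]
    rcases Geom.split_structure hW hl i with h1 | ⟨g0, h1, h2, h3⟩
    · exact Or.inl h1
    · exact Or.inr ⟨g0, h1, h.ma_move_le ((hW.ball_card i h2).trans (Nat.le_succ _)), h3⟩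
  · intro r
    exact Geom.svalid_HT d r
  · intro r
    exact Geom.all_reach_HT hW d (le_of_lt r.2)
  · intro r
    have h1 := Geom.all_time_HT hW d r
    have h2 := Geom.all_reach_HT hW d (le_of_lt r.2)
    refine MTree.All.imp ?_ (ma_all_and h1 h2)
    rintro l ⟨ht, hl⟩
    refine ⟨Geom.svalid_Ch l, Geom.reach_Ch ?_, MTree.All.imp ?_ (Geom.legal hW hl)⟩
    · have hr : (r : ℕ) < 2 * (G.n * G.m) := r.2
      unfold Geom.time at ht
      omega
    · intro l' hleg g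
      exact h.ma_legal (hleg g)

omit [DecidableEq Λ] [Fintype ι] in
theorem ma_Pre_mono (G : Geom Λ ι) {j j' : ℕ} (h : j ≤ j') : G.Pre j ⊆ G.Pre j' := by
  intro x hx
  unfold Geom.Pre at hx ⊢
  rw [mem_filter] at hx ⊢
  exact ⟨hx.1, hx.2.1, hx.2.2.trans h⟩

/-- (B2) the prefix data of the rough upper comparison -/
theorem scanData_prefix [∀ x, Nonempty (io x)] (h : Compat S G P a0) (d : G.Lab) :
    (scanData S G d P).PrefixData := by
  have hW := h.geo
  have hRc : ∀ B, B ∈ (scanData S G d P).Rc ↔ ∃ j, j ≤ G.L ∧ G.Pre j = B := by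
    intro B
    show B ∈ (range (G.L + 1)).image G.Pre ↔ _
    rw [mem_image]
    constructor
    · rintro ⟨j, hj, rfl⟩
      exact ⟨j, by rw [mem_range] at hj; omega, rfl⟩
    · rintro ⟨j, hj, rfl⟩
      exact ⟨j, by rw [mem_range]; omega, rfl⟩
  refine ⟨?_, ?_, ?_, ?_, ?_⟩
  · intro B hB B' hB'
    obtain ⟨j, _, rfl⟩ := (hRc B).mp hB
    obtain ⟨j', _, rfl⟩ := (hRc B').mp hB'
    rcases le_total j j' with hjj | hjj
    · exact Or.inl (ma_Pre_mono G hjj)
    · exact Or.inr (ma_Pre_mono G hjj)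
  · intro B hB
    obtain ⟨j, _, rfl⟩ := (hRc B).mp hB
    show Disjoint (G.Pre j) G.X
    rw [disjoint_left]
    intro x hx hx'
    unfold Geom.Pre at hx
    unfold Geom.X at hx'
    rw [mem_filter] at hx hx'
    omega
  · intro B hB
    obtain ⟨j, hj, rfl⟩ := (hRc B).mp hB
    exact h.Bsh_ge j hj
  · intro l hl g
    obtain ⟨j, hj, hsub, hcard⟩ := Geom.prefix_near hW hl g
    refine ⟨G.Pre j, (hRc _).mpr ⟨j, hj, rfl⟩, Or.inl hsub, ?_⟩
    show 1 + ldim io (symmDiff (G.Pre j) (G.near l g \ G.X)) ≤ P.Bexc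
    have e : symmDiff (G.Pre j) (G.near l g \ G.X) = (G.near l g \ G.X) \ G.Pre j := by
      rw [symmDiff_def, sdiff_eq_empty_iff_subset.mpr hsub]
      simp
    rw [e]
    exact h.ma_exc_le hcard
  · intro l hl g
    obtain ⟨j, hj, hsub, hcard⟩ := Geom.prefix_far hW hl g
    refine ⟨G.Pre j, (hRc _).mpr ⟨j, hj, rfl⟩, Or.inr hsub, ?_⟩
    show 1 + ldim io (symmDiff (G.Pre j) ((G.far l g)ᶜ \ G.X)) ≤ P.Bexc
    have e : symmDiff (G.Pre j) ((G.far l g)ᶜ \ G.X) = G.Pre j \ ((G.far l g)ᶜ \ G.X) := by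
      rw [symmDiff_def, sdiff_eq_empty_iff_subset.mpr hsub]
      simp
    rw [e]
    exact h.ma_exc_le hcard

end Claimed.Agent.R296.Scan
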