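import Claimed.Agent.R296.Scan.Main
import Claimed.Agent.R296.Scan.Typ
import Claimed.Agent.R296.Scan.MainA

/-!
# Row 296, P1 Section 8, level B: cut parameters of the statuses, moment data, `g_max` (package S8-C)

Still on an abstract scan geometry.  The terms crossing one of the five status sets
`XU, V, Y, U, UY` are split terms of that band or terms crossing the target `X`.
-/

set_option autoImplicit false

namespace Claimed.Agent.R296.Scan

open Finset
open scoped ComplexOrder MatrixOrder Matrix.Norms.L2Operator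

variable {Λ ι : Type} [Fintype Λ] [DecidableEq Λ] [Fintype ι]
variable {io : Λ → Type} [∀ x, Fintype (io x)] [∀ x, DecidableEq (io x)]
variable {S : Sys Λ ι io} {G : Geom Λ ι} {P : Par} {a0 : ℝ}

theorem cut_isDensity (Om : Cfg io → ℂ) (h : star Om ⬝ᵥ Om = 1) : IsDensity (pureOp Om) := by
  have hn : ∑ i, ‖Om i‖ ^ 2 = 1 := by
    rw [star_dotProduct_self_eq] at h
    exact_mod_cast h
  exact pureOp_isDensity hn

/-- the entropy calculus for a pure state -/
theorem entOK_pure (Om : Cfg io → ℂ) (h : star Om ⬝ᵥ Om = 1) : EntOK (io := io) (pureOp Om) := by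
  have hd := cut_isDensity Om h
  exact ⟨ent_empty hd, ent_nonneg hd, ent_compl_pureOp Om, ent_submod hd,
    fun B => (ent_le_logDim hd B).trans (ldim_eq_logDim B).ge⟩

/-- the five status sets of a partition `(s.1, rest, s.2)` with target `X` -/
def fiveSets (X : Finset Λ) (s : Finset Λ × Finset Λ) : Finset (Finset Λ) :=
  {s.1, s.2, (s.1 ∪ s.2)ᶜ, s.1 \ X, s.2ᶜ \ X}

/-- a term crossing a status set is split in that band or crosses the target -/
theorem cut_cases (l : G.Lab) (g : Fin G.K) {Q : Finset Λ} (hQ : Q ∈ fiveSets G.X (G.st l g))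
    {i : ι} (hi : i ∈ tlCrossing G.ball Q) :
    G.SplitN l g i ∨ G.SplitF l g i ∨ i ∈ tlCrossing G.ball G.X := by
  simp only [tlCrossing, mem_filter, mem_univ, true_and] at hi ⊢
  obtain ⟨h1, h2⟩ := hi
  rw [not_subset] at h1
  rw [not_disjoint_iff] at h2
  obtain ⟨x, hxb, hxQ⟩ := h1
  obtain ⟨y, hyb, hyQ⟩ := h2
  have mkN : ∀ u v : Λ, u ∈ G.ball i → u ∈ G.near l g → v ∈ G.ball i → v ∉ G.near l g →
      G.SplitN l g i := fun u v hu hu' hv hv' =>
    ⟨⟨u, mem_inter.mpr ⟨hu, hu'⟩⟩, fun hs => hv' (hs hv)⟩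
  have mkF : ∀ u v : Λ, u ∈ G.ball i → u ∈ G.far l g → v ∈ G.ball i → v ∉ G.far l g →
      G.SplitF l g i := fun u v hu hu' hv hv' =>
    ⟨⟨u, mem_inter.mpr ⟨hu, hu'⟩⟩, fun hs => hv' (hs hv)⟩
  have mkX : ∀ u v : Λ, u ∈ G.ball i → u ∈ G.X → v ∈ G.ball i → v ∉ G.X →
      ¬ G.ball i ⊆ G.X ∧ ¬ Disjoint (G.ball i) G.X := fun u v hu hu' hv hv' =>
    ⟨fun hs => hv' (hs hv), fun hd => disjoint_left.mp hd hu hu'⟩
  simp only [fiveSets, Geom.st, mem_insert, mem_singleton] at hQ
  rcases hQ with rfl | rfl | rfl | rfl | rfl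
  · exact Or.inl (mkN y x hyb hyQ hxb hxQ)
  · exact Or.inr (Or.inl (mkF y x hyb hyQ hxb hxQ))
  · simp only [mem_compl, mem_union, not_or, not_and, not_not] at hxQ hyQ
    by_cases hxN : x ∈ G.near l g
    · exact Or.inl (mkN x y hxb hxN hyb hyQ.1)
    · exact Or.inr (Or.inl (mkF x y hxb (hxQ hxN) hyb hyQ.2))
  · simp only [mem_sdiff, not_and, not_not] at hxQ hyQ
    by_cases hxN : x ∈ G.near l g
    · exact Or.inr (Or.inr (mkX x y hxb (hxQ hxN) hyb hyQ.2))
    · exact Or.inl (mkN y x hyb hyQ.1 hxb hxN)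
  · simp only [mem_sdiff, mem_compl, not_and, not_not] at hxQ hyQ
    by_cases hxF : x ∈ G.far l g
    · exact Or.inr (Or.inl (mkF x y hxb hxF hyb hyQ.1))
    · exact Or.inr (Or.inr (mkX x y hxb (hxQ hxF) hyb hyQ.2))

/-- the weight of a split term in the cut parameter -/
theorem Compat.cut_weight_le (h : Compat S G P a0) {l : G.Lab} (hl : G.Reach l) (g : Fin G.K)
    {i : ι} (hi : G.SplitN l g i ∨ G.SplitF l g i) : (1 + ldim io (G.ball i)) ^ 2 ≤ P.ell ^ 2 := by
  have hW := h.geo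
  have h1 := (Geom.j2_core hW hl g hi).2
  have h2 := Geom.band_le hW g
  have h3 := hW.sep
  have h4 : G.dp (G.anc i) ≤ G.L := by omega
  have h5 := h.ma_move_le ((hW.ball_card i h4).trans (Nat.le_succ _))
  have h6 := ldim_nonneg (io := io) (G.ball i)
  exact pow_le_pow_left₀ (by linarith) h5 2

theorem cut_ind_nonneg (p : Prop) : 0 ≤ ind p := by
  unfold ind
  split_ifs <;> norm_num

theorem cut_ind_pos {p : Prop} (h : p) : ind p = 1 := by
  unfold ind
  rw [if_pos h]

/-- cut parameter of the status sets -/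
theorem cut_status [∀ x, Nonempty (io x)] (h : Compat S G P a0) {l : G.Lab} (hl : G.Reach l)
    (g : Fin G.K) {Q : Finset Λ} (hQ : Q ∈ fiveSets G.X (G.st l g)) :
    tlCutParam io S.sup Q ≤ 6 * (G.Mn : ℝ) * P.ell ^ 2 + tlCutParam io S.sup G.X := by
  classical
  have hW := h.geo
  have hsup : S.sup = G.ball := funext h.sup_eq
  rw [hsup]
  unfold tlCutParam
  set c : ι → ℝ := fun i => (1 + ldim io (G.ball i)) ^ 2 with hc
  have hc0 : ∀ i, 0 ≤ c i := fun i => sq_nonneg _
  have hell : 0 ≤ P.ell ^ 2 := sq_nonneg _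
  have hpt : ∀ i ∈ tlCrossing G.ball Q, c i ≤ ind (G.SplitN l g i) * P.ell ^ 2 +
      ind (G.SplitF l g i) * P.ell ^ 2 + (if i ∈ tlCrossing G.ball G.X then c i else 0) := by
    intro i hi
    have n1 := mul_nonneg (cut_ind_nonneg (G.SplitN l g i)) hell
    have n2 := mul_nonneg (cut_ind_nonneg (G.SplitF l g i)) hell
    have n3 : 0 ≤ (if i ∈ tlCrossing G.ball G.X then c i else 0) := by
      split_ifs
      · exact hc0 i
      · exact le_rfl
    rcases cut_cases l g hQ hi with h1 | h1 | h1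
    · have := h.cut_weight_le hl g (Or.inl h1)
      rw [cut_ind_pos h1, one_mul]
      linarith
    · have := h.cut_weight_le hl g (Or.inr h1)
      rw [cut_ind_pos h1, one_mul]
      linarith
    · rw [if_pos h1]
      linarith
  have hsum : ∑ i ∈ tlCrossing G.ball Q, c i ≤ ∑ i, (ind (G.SplitN l g i) * P.ell ^ 2 +
      ind (G.SplitF l g i) * P.ell ^ 2 + (if i ∈ tlCrossing G.ball G.X then c i else 0)) := by
    refine (sum_le_sum hpt).trans ?_
    apply sum_le_sum_of_subset_of_nonneg (subset_univ _)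
    intro i _ _
    have n1 := mul_nonneg (cut_ind_nonneg (G.SplitN l g i)) hell
    have n2 := mul_nonneg (cut_ind_nonneg (G.SplitF l g i)) hell
    have n3 : 0 ≤ (if i ∈ tlCrossing G.ball G.X then c i else 0) := by
      split_ifs
      · exact hc0 i
      · exact le_rfl
    linarith
  rw [sum_add_distrib, sum_add_distrib, ← sum_mul, ← sum_mul, sum_ite_mem, univ_inter] at hsum
  have s1 := mul_le_mul_of_nonneg_right (Geom.sum_ind_splitN_le hW hl g) hell
  have s2 := mul_le_mul_of_nonneg_right (Geom.sum_ind_splitF_le hW hl g) hell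
  have e1 : ∑ i ∈ tlCrossing G.ball Q, (1 + ∑ x ∈ G.ball i, Real.log (Fintype.card (io x))) ^ 2
      = ∑ i ∈ tlCrossing G.ball Q, c i := rfl
  have e2 : ∑ i ∈ tlCrossing G.ball G.X,
      (1 + ∑ x ∈ G.ball i, Real.log (Fintype.card (io x))) ^ 2
      = ∑ i ∈ tlCrossing G.ball G.X, c i := rfl
  rw [e1, e2]
  linarith

theorem Sys.WF.cut_norm_le (hS : S.WF) (i : ι) : ‖S.h i‖ ≤ 1 := by
  have h0 : 0 ≤ S.h i := Matrix.nonneg_iff_posSemidef.mpr (hS.pos i)
  rw [CStarAlgebra.norm_le_one_iff_of_nonneg (S.h i) h0, Matrix.le_iff]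
  exact hS.le_one i

/-- `comparator:mgf-data` from `lem:tail` -/
theorem scan_mgf [∀ x, Nonempty (io x)] (h : Compat S G P a0) (d : G.Lab) {C0 c0 : ℝ}
    (hBB : 6 * (G.Mn : ℝ) * P.ell ^ 2 + tlCutParam io S.sup G.X ≤ P.BB)
    (hC0 : 512 * Real.exp 1 / S.gap ≤ C0) (hc0 : 0 < c0)
    (hc0' : c0 * (32 * Real.sqrt (1 + 1 / S.gap)) ≤ 1) :
    (scanData S G d P).MgfData C0 c0 := by
  have _ := hc0
  have hS := h.sys
  have hgap := hS.gap_pos
  have hBB1 : 1 ≤ P.BB := by
    have h1 := tlCutParam_one_le (io := io) S.sup G.X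
    have h2 : 0 ≤ 6 * (G.Mn : ℝ) * P.ell ^ 2 := by positivity
    linarith
  have hBB0 : 0 < P.BB := by linarith
  have key : ∀ l, G.Reach l → ∀ g, ∀ Q ∈ fiveSets G.X (G.st l g),
      (scanData S G d P).MgfAt C0 c0 Q := by
    intro l hl g Q hQ
    have hB := (cut_status h hl g hQ).trans hBB
    have hm := tl_tail_mgf S.sup S.h (c₀ := 1) S.Om hS.unit hS.supp
      (fun i => (hS.pos i).isHermitian) hgap hS.cut_norm_le zero_le_one hS.eig hS.gapped Q hB
    have hm' : TlMgf (ptr Q (pureOp S.Om)) (C0 * P.BB) (c0 / Real.sqrt P.BB) := by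
      refine hm.mono ?_ ?_
      · have : 512 * Real.exp 1 * (1 / S.gap) * P.BB = 512 * Real.exp 1 / S.gap * P.BB := by ring
        rw [this]
        exact mul_le_mul_of_nonneg_right hC0 hBB0.le
      · have hs1 : 0 < Real.sqrt (1 + 1 / S.gap) := Real.sqrt_pos.mpr (by positivity)
        have hs2 : 0 < Real.sqrt P.BB := Real.sqrt_pos.mpr hBB0
        rw [Real.sqrt_mul (by positivity), div_le_div_iff₀ hs2 (by positivity)]
        calc c0 * (32 * (Real.sqrt (1 + 1 / S.gap) * Real.sqrt P.BB))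
            = (c0 * (32 * Real.sqrt (1 + 1 / S.gap))) * Real.sqrt P.BB := by ring
          _ ≤ 1 * Real.sqrt P.BB := mul_le_mul_of_nonneg_right hc0' hs2.le
    intro u hu
    have := hm' u hu
    rw [renyiTr_eq_tlRenyi]
    exact this
  refine ⟨hBB1, fun l hl g => ?_⟩
  have hk := key l hl g
  refine ⟨hk _ ?_, hk _ ?_, hk _ ?_, hk _ ?_, hk _ ?_⟩ <;>
    simp [fiveSets, scanData]

/-- the uniform bound for `g^pre` -/
theorem scan_gmax [∀ x, Nonempty (io x)] (h : Compat S G P a0) (d : G.Lab) (hE : EntOK S.rho)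
    {l : G.Lab} (hl : G.Reach l) (g : Fin G.K) :
    (scanData S G d P).gpre (G.st l g) ≤ 2 * ent S.rho G.X + 2 * (P.Bsh + P.Bexc) := by
  have hW := h.geo
  have hsub : ∀ B B', ent S.rho (B ∪ B') ≤ ent S.rho B + ent S.rho B' := by
    intro B B'
    have h1 := hE.ssa B B'
    have h2 := hE.nonneg (B ∩ B')
    linarith
  show ent S.rho (G.near l g) + ent S.rho (G.far l g) - ent S.rho (G.near l g ∪ G.far l g)ᶜ ≤ _
  have hmid := hE.nonneg (G.near l g ∪ G.far l g)ᶜ
  -- the near part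
  have hN : ent S.rho (G.near l g) ≤ ent S.rho G.X + (P.Bsh + P.Bexc) := by
    obtain ⟨j, hj, hs, hcard⟩ := Geom.prefix_near hW hl g
    have e1 : G.near l g = G.X ∪ (G.Pre j ∪ ((G.near l g \ G.X) \ G.Pre j)) := by
      rw [union_sdiff_of_subset hs, union_sdiff_of_subset (Geom.X_subset_near hW hl g)]
    have h1 := hsub G.X (G.Pre j ∪ ((G.near l g \ G.X) \ G.Pre j))
    have h2 := hsub (G.Pre j) ((G.near l g \ G.X) \ G.Pre j)
    have h3 := h.Bsh_ge j hj
    have h4 := hE.le_ldim ((G.near l g \ G.X) \ G.Pre j)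
    have h5 := h.ma_exc_le hcard
    rw [← e1] at h1
    linarith
  -- the far part
  have hF : ent S.rho (G.far l g) ≤ ent S.rho G.X + (P.Bsh + P.Bexc) := by
    obtain ⟨j, hj, hs, hcard⟩ := Geom.prefix_far hW hl g
    have hXF : G.X ⊆ (G.far l g)ᶜ := by
      intro x hx
      rw [mem_compl]
      exact disjoint_left.mp (Geom.disjoint_near_far hW hl g) (Geom.X_subset_near hW hl g hx)
    have e1 : (G.far l g)ᶜ = G.X ∪ ((G.far l g)ᶜ \ G.X) := (union_sdiff_of_subset hXF).symm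
    have h1 := hsub G.X ((G.far l g)ᶜ \ G.X)
    rw [← e1, hE.compl] at h1
    -- `S(B \ E) ≤ S(B) + S(E)` in a pure state
    set B := G.Pre j with hB
    set E := G.Pre j \ ((G.far l g)ᶜ \ G.X) with hEdef
    have e2 : ((G.far l g)ᶜ \ G.X)ᶜ = Bᶜ ∪ E := by
      ext x
      have := @hs x
      simp only [hEdef, mem_compl, mem_union, mem_sdiff] at this ⊢
      tauto
    have h2 := hsub Bᶜ E
    rw [← e2, hE.compl, hE.compl] at h2
    have h3 := h.Bsh_ge j hj
    have h4 := hE.le_ldim E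
    have h5 := h.ma_exc_le hcard
    linarith
  linarith

/-- the mass of the typical set of the target, from `lem:tail` -/
theorem scan_typ [∀ x, Nonempty (io x)] (hS : S.WF) (X : Finset Λ) {BX : ℝ}
    (hBX : tlCutParam io S.sup X ≤ BX) (w : ℝ) :
    1 - 2 * Real.exp (Real.exp 1 / 2) * Real.exp (-w / (32 * Real.sqrt ((1 + 1 / S.gap) * BX))) ≤
      typZ (ptr X S.rho) w := by
  have hm := tl_tail_prob S.sup S.h (c₀ := 1) S.Om hS.unit hS.supp
    (fun i => (hS.pos i).isHermitian) hS.gap_pos hS.cut_norm_le zero_le_one hS.eig hS.gapped X hBX w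
  have hd : IsDensity (ptr X S.rho) := ptr_isDensity (cut_isDensity S.Om hS.unit) X
  rw [typZ_eq _ hd]
  have : tlTailMass (ptr X S.rho) w = tlTailMass (ptr X (pureOp S.Om)) w := rfl
  rw [this]
  linarith

end Claimed.Agent.R296.Scan
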