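import Claimed.Agent.R296.Scan.Lat
import Claimed.Agent.R296.Scan.Cut
import Claimed.Agent.R296.EntSiteAFW

/-!
# Row 296, P1 Section 8: the truncated one-copy system of a lattice instance (package S8-G2)

Repackaging of `sec3_positive` (at `α = 1/2`) and `sec3_truncation` in the vocabulary of
`Scan/Api.lean`, and the transfer of entropies between `Ω` and the truncated ground vector.
-/

set_option autoImplicit false

namespace Claimed.Agent.R296.Scan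

open Finset Matrix Claims.C0473

theorem lat_tlCrossing_iff {Λ : Type} [DecidableEq Λ] (D B : Finset Λ) :
    (¬ D ⊆ B ∧ ¬ Disjoint D B) ↔ ((∃ x ∈ D, x ∈ B) ∧ ∃ y ∈ D, y ∉ B) := by
  rw [Finset.not_subset, Finset.not_disjoint_iff]
  tauto

/-- **the truncated system** (Propositions 3.3 and 3.5).  `g` is the gap of the positive system. -/
theorem lat_sys (q R : ℕ) [NeZero q] (J Δ : ℝ) (hJ : 0 < J) (hΔ : 0 < Δ) (C0 : ℝ) (hC0 : 0 < C0) :
    ∃ g C1 C2 : ℝ, 0 < g ∧ 0 < C1 ∧ 0 < C2 ∧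
      ∀ (Λ : Finset (ℤ × ℤ)) (k : Finset Λ → Matrix (Λ → Fin q) (Λ → Fin q) ℂ),
      AdmInt q R J Λ k → ∀ (E₀ : ℝ) (Ω : (Λ → Fin q) → ℂ), GapState q R Δ Λ k E₀ Ω →
      ∀ (n : ℕ) (S0 : Finset Λ), 2 ≤ n → (S0.card : ℝ) ≤ C0 * (n : ℝ) ^ 2 →
      ∀ r0 : ℕ, r0 = ⌈C1 * (Real.log n) ^ 2⌉₊ →
        (r0 : ℝ) + 1 ≤ C2 * (Real.log n) ^ 2 ∧
        ∃ S : Sys Λ (AdmIx Λ R) (fun _ : Λ => Fin q), S.WF ∧ S.sup = latSup R r0 S0 ∧
          S.gap = g / 2 ∧ 0 ≤ S.E0 ∧ S.E0 ≤ ((n : ℝ) ^ 1000)⁻¹ ∧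
          ∑ σ, ‖S.Om σ - Ω σ‖ ^ 2 ≤ 4 * ((n : ℝ) ^ 1000)⁻¹ / g ∧
          ∀ X' : Finset Λ, X' ⊆ S0 →
            tlCutParam (fun _ : Λ => Fin q) S.sup X' ≤
              C2 * (1 + edgeBoundary Λ X') * ((r0 : ℝ) + 1) ^ 6 := by
  obtain ⟨cs, C, c, hcs, hC, hc, hpos⟩ :=
    sec3_positive q R J Δ hJ hΔ (1 / 2) (by norm_num) (by norm_num)
  have hg : 0 < Δ / cs := by positivity
  obtain ⟨C₁, C₂, hC₁, hC₂, htr⟩ := sec3_truncation q R (Δ / cs) C c C0 hg hC hc hC0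
  refine ⟨Δ / cs, C₁, C₂, hg, hC₁, hC₂, ?_⟩
  intro Λ k hk E₀ Ω hΩ n S0 hn hS0 r0 hr0
  obtain ⟨kk, hP, -⟩ := hpos Λ k hk E₀ Ω hΩ
  have hn' : (2 : ℝ) ≤ (n : ℝ) := by exact_mod_cast hn
  obtain ⟨h1, h2, -, ⟨Et, Ωt, hEt0, hEtε, hΩt, heig, hgap, hdist, -⟩, h5⟩ :=
    htr Λ Ω kk latAnc hΩ.1 hP latAnc_mem (n : ℝ) S0 hn' hS0 r0 _ _ _ hr0 rfl rfl rfl
  have hε : min ((n : ℝ) ^ (-1000 : ℝ)) (Δ / cs / 4) ≤ ((n : ℝ) ^ 1000)⁻¹ := by
    refine (min_le_left _ _).trans (le_of_eq ?_)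
    rw [Real.rpow_neg (by positivity)]
    congr 1
    exact_mod_cast Real.rpow_natCast (n : ℝ) 1000
  refine ⟨h1, ⟨Ωt, fun X => cexp (io := fun _ : Λ => Fin q)
    (lrTSupp (latticeGraph Λ) r0 S0 (latAnc X)) (kk X), latSup R r0 S0, Et, Δ / cs / 2⟩,
    ?_, rfl, rfl, hEt0, hEtε.trans hε, ?_, ?_⟩
  · exact
      { unit := hΩt
        pos := fun X => Matrix.nonneg_iff_posSemidef.1 (h2 X).1
        le_one := fun X => Matrix.le_iff.1 (h2 X).2.1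
        supp := fun X => (h2 X).2.2
        eig := heig
        gap_pos := by positivity
        gapped := Matrix.le_iff.1 hgap }
  · refine hdist.trans ?_
    apply div_le_div_of_nonneg_right _ hg.le
    exact mul_le_mul_of_nonneg_left hε (by norm_num)
  · intro X' hX'
    refine le_trans (le_of_eq ?_) (h5 X' hX').2.2.2
    unfold tlCutParam
    congr 1
    apply Finset.sum_congr
    · ext X
      simp only [tlCrossing, Finset.mem_filter, Finset.mem_univ, true_and]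
      exact lat_tlCrossing_iff _ _
    · intro X _
      rw [Finset.sum_const, nsmul_eq_mul, Fintype.card_fin]
      rfl

variable {Λ : Type} [Fintype Λ] [DecidableEq Λ] {q : ℕ} [NeZero q]

theorem lat_unit {n : Type} [Fintype n] {Ω : n → ℂ} (h : star Ω ⬝ᵥ Ω = 1) :
    ∑ i, ‖Ω i‖ ^ 2 = 1 := by
  classical
  rw [← lrgQ_one, lrgQ_one_of_unit h]

theorem lat_afw_le {η L : ℝ} (h0 : 0 ≤ η) (h1 : η ≤ 1) (hL : 0 ≤ L) :
    afwFun (Real.sqrt η) L ≤ 2 * η ^ ((1 : ℝ) / 4) * (1 + L) := by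
  have hs1 : Real.sqrt η ≤ 1 := by
    rw [Real.sqrt_le_left (by norm_num : (0 : ℝ) ≤ 1)]
    simpa using h1
  have := afwFun_le_sqrt (Real.sqrt_nonneg η) hs1 hL
  have e : Real.sqrt (Real.sqrt η) = η ^ ((1 : ℝ) / 4) := by
    rw [Real.sqrt_eq_rpow, Real.sqrt_eq_rpow, ← Real.rpow_mul h0]
    norm_num
  rwa [e] at this

omit [Fintype Λ] [DecidableEq Λ] [NeZero q] in
theorem lat_logDim (B : Finset Λ) : logDim (fun _ : Λ => Fin q) B = B.card * Real.log q := by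
  unfold logDim
  rw [Finset.sum_const, nsmul_eq_mul, Fintype.card_fin]

/-- transfer of an entropy between two close unit vectors (`lem:continuity`) -/
theorem lat_ent_transfer {Ω Ω' : (Λ → Fin q) → ℂ} (h1 : star Ω ⬝ᵥ Ω = 1)
    (h2 : star Ω' ⬝ᵥ Ω' = 1) {η : ℝ} (hη : ∑ σ, ‖Ω' σ - Ω σ‖ ^ 2 ≤ η) (hη1 : η ≤ 1)
    (B : Finset Λ) :
    |ent (io := fun _ : Λ => Fin q) (pureOp Ω') B - ent (io := fun _ : Λ => Fin q) (pureOp Ω) B| ≤
      2 * η ^ ((1 : ℝ) / 4) * (1 + B.card * Real.log q) := by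
  have hη0 : 0 ≤ η := le_trans (by positivity) hη
  have h3 := ent_afw_pureOp (io := fun _ : Λ => Fin q) (lat_unit h2) (lat_unit h1)
    (Real.sqrt_le_sqrt hη) B
  refine h3.trans ?_
  rw [← lat_logDim]
  exact lat_afw_le hη0 hη1 (logDim_nonneg _)

/-- transfer of a mutual information: only the dimension of the first system enters -/
theorem lat_minfo_transfer {Ω Ω' : (Λ → Fin q) → ℂ} (h1 : star Ω ⬝ᵥ Ω = 1)
    (h2 : star Ω' ⬝ᵥ Ω' = 1) {η : ℝ} (hη : ∑ σ, ‖Ω' σ - Ω σ‖ ^ 2 ≤ η) (hη1 : η ≤ 1)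
    (B E : Finset Λ) :
    |minfo (io := fun _ : Λ => Fin q) (pureOp Ω') B E -
        minfo (io := fun _ : Λ => Fin q) (pureOp Ω) B E| ≤
      4 * η ^ ((1 : ℝ) / 4) * (1 + B.card * Real.log q) := by
  have hη0 : 0 ≤ η := le_trans (by positivity) hη
  have h3 := minfo_afw (io := fun _ : Λ => Fin q) (pureOp_isDensity (lat_unit h2))
    (pureOp_isDensity (lat_unit h1))
    ((trDist_pureOp_le (lat_unit h2) (lat_unit h1)).trans (Real.sqrt_le_sqrt hη)) B E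
  refine h3.trans ?_
  rw [← lat_logDim]
  have := lat_afw_le hη0 hη1 (logDim_nonneg (io := fun _ : Λ => Fin q) B)
  linarith

end Claimed.Agent.R296.Scan
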