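import Claimed.Agent.R296.Scan.NumS

/-!
# Row 296, P1 Section 8: numerics of the scanner estimate, package S8-N2: superpolynomially small quantities
(see the header of `Scan/NumS.lean`; tools: `Scan/Num.lean`)
-/

set_option autoImplicit false

namespace Claimed.Agent.R296.Scan

variable {l μ κ ν ω e : ℝ}

theorem num_exp_neg_mul_log (k : ℕ) {x : ℝ} (hx : 0 < x) :
    Real.exp (-((k : ℝ) * Real.log x)) = (x ^ k)⁻¹ := by
  rw [Real.exp_neg, Real.exp_nat_mul, Real.exp_log hx]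

theorem num_inv_pow_eq_rpow (k : ℕ) {x : ℝ} (hx : 0 < x) : (x ^ k)⁻¹ = x ^ (-(k : ℝ)) := by
  rw [← Real.rpow_natCast, ← Real.rpow_neg hx.le]

/-- (N2) the hypothesis `hγ` of `Geom.bad_prob` at `θ = 1 / r0` -/
theorem num_gamma (hE : ExpOK l μ κ ν ω e) (μR : ℕ) (hμR : 1 ≤ μR) {C1 C2 : ℝ} (hC1 : 0 < C1)
    (hC2 : 0 < C2) :
    ∃ n0 : ℕ, ∀ n : ℕ, n0 ≤ n → ∀ (W : ℝ) (r0 : ℕ), R0OK C1 C2 n r0 →
      ∀ s : Scales, s = ⟨n, l, μ, κ, W⟩ →
      (scV0 μR r0 : ℝ) ^ 2 * Real.exp (2 * (1 / (r0 : ℝ)) * r0) / (2 * (scMn μR s r0 : ℝ)) ≤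
        1 / (r0 : ℝ) / (4 * (n : ℝ)) := by
  obtain ⟨nA, hA⟩ := num_side hE hC1 hC2
  obtain ⟨nB, hB⟩ := num_absorb (256 * μR * C2 ^ 5) 10 hE.κ_pos
  refine ⟨max (max nA nB) 3, fun n hn W r0 hr s hs => ?_⟩
  have hnA : nA ≤ n := le_trans (by simp) hn
  have hnB : nB ≤ n := le_trans (by simp) hn
  have hn3 : 3 ≤ n := le_trans (by simp) hn
  obtain ⟨hS, hr1, -, -, -, -, -, -, -⟩ := hA n hnA W r0 hr s hs
  have b := hB n hnB
  rw [Real.rpow_zero, mul_one] at b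
  have hsn : s.n = n := by rw [hs]
  have hsκ : s.κ = κ := by rw [hs]
  have hD2 : (n : ℝ) ^ κ ≤ (s.D : ℝ) := by have := hS.D_ge; rwa [hsn, hsκ] at this
  have hx3 : (3 : ℝ) ≤ (n : ℝ) := by exact_mod_cast hn3
  set x : ℝ := (n : ℝ) with hx
  set lg := Real.log x with hlg
  have hr1' : (1 : ℝ) ≤ r0 := by exact_mod_cast hr1
  set r : ℝ := (r0 : ℝ) with hr'
  set d : ℝ := (s.D : ℝ) with hd
  have hr2 : r + 1 ≤ C2 * lg ^ 2 := hr.2
  have hM1 : (1 : ℝ) ≤ μR := by exact_mod_cast hμR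
  set M : ℝ := (μR : ℝ) with hM
  have hd0 : 0 ≤ d := Nat.cast_nonneg _
  have hexp : Real.exp (2 * (1 / r) * r) ≤ 8 := by
    have e1 : 2 * (1 / r) * r = 1 + 1 := by field_simp; norm_num
    rw [e1, Real.exp_add]
    have h1 := Real.exp_one_lt_d9
    have h0 := Real.exp_pos 1
    nlinarith
  have hV : (scV0 μR r0 : ℝ) = M * (2 * r + 1) ^ 2 := by unfold scV0; push_cast; rfl
  have hMn : (scMn μR s r0 : ℝ) = M * x * (d + r + 1) := by
    unfold scMn; rw [hsn]; push_cast; rfl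
  rw [hV, hMn, div_div, div_le_div_iff₀ (by positivity) (by positivity)]
  set B := C2 * lg ^ 2 with hB'
  have hB0 : 0 ≤ B := by linarith
  have k1 : r * (2 * r + 1) ^ 4 ≤ B * (2 * B) ^ 4 :=
    mul_le_mul (by linarith) (pow_le_pow_left₀ (by positivity) (by linarith) 4) (by positivity) hB0
  have k2 : 256 * M * (B * B ^ 4) ≤ d := by
    calc 256 * M * (B * B ^ 4) = 256 * M * C2 ^ 5 * lg ^ 10 := by rw [hB']; ring
      _ ≤ x ^ κ := b
      _ ≤ d := hD2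
  have k3 : 16 * M * (r * (2 * r + 1) ^ 4) ≤ d := by
    calc 16 * M * (r * (2 * r + 1) ^ 4) ≤ 16 * M * (B * (2 * B) ^ 4) :=
          mul_le_mul_of_nonneg_left k1 (by positivity)
      _ = 256 * M * (B * B ^ 4) := by ring
      _ ≤ d := k2
  calc (M * (2 * r + 1) ^ 2) ^ 2 * Real.exp (2 * (1 / r) * r) * (r * (4 * x))
      ≤ (M * (2 * r + 1) ^ 2) ^ 2 * 8 * (r * (4 * x)) := by gcongr
    _ = 2 * (M * x) * (16 * M * (r * (2 * r + 1) ^ 4)) := by ring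
    _ ≤ 2 * (M * x) * (d + r + 1) := mul_le_mul_of_nonneg_left (by linarith) (by positivity)
    _ = 1 * (2 * (M * x * (d + r + 1))) := by ring

/-- (N2) bad histories have probability at most `n^-100` -/
theorem num_pbad (hE : ExpOK l μ κ ν ω e) {C1 C2 : ℝ} (hC1 : 0 < C1) (hC2 : 0 < C2) :
    ∃ n0 : ℕ, ∀ n : ℕ, n0 ≤ n → ∀ (W : ℝ) (r0 : ℕ), R0OK C1 C2 n r0 →
      ∀ s : Scales, s = ⟨n, l, μ, κ, W⟩ →
      0 ≤ scPbad s r0 ∧ scPbad s r0 ≤ ((n : ℝ) ^ 100)⁻¹ := by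
  obtain ⟨nA, hA⟩ := num_side hE hC1 hC2
  obtain ⟨nB, hB⟩ := num_absorb (4 + 208 * C2) 3 hE.κ_pos
  obtain ⟨nC, hC⟩ := num_absorb (16 * C2 + 2) 2 (α := 0) (β := 2) (by norm_num)
  refine ⟨max (max nA nB) (max nC 3), fun n hn W r0 hr s hs => ?_⟩
  have hnA : nA ≤ n := le_trans (by simp) hn
  have hnB : nB ≤ n := le_trans (by simp) hn
  have hnC : nC ≤ n := le_trans (by simp) hn
  have hn3 : 3 ≤ n := le_trans (by simp) hn
  obtain ⟨hS, hr1, hm0, hmK, -, -, -, -, hLn⟩ := hA n hnA W r0 hr s hs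
  have b := hB n hnB
  have c := hC n hnC
  rw [Real.rpow_zero, mul_one] at b c
  rw [Real.rpow_two] at c
  have hsn : s.n = n := by rw [hs]
  have hsκ : s.κ = κ := by rw [hs]
  have hD2 : (n : ℝ) ^ κ ≤ (s.D : ℝ) := by have := hS.D_ge; rwa [hsn, hsκ] at this
  have hKn : s.K ≤ n := by
    have : s.K ≤ 8 * s.m * s.K := Nat.le_mul_of_pos_left _ (by omega)
    omega
  have hKn' : (s.K : ℝ) ≤ (n : ℝ) := by exact_mod_cast hKn
  have hlog : 1 ≤ Real.log n := num_log_ge_one hn3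
  have hx3 : (3 : ℝ) ≤ (n : ℝ) := by exact_mod_cast hn3
  set x : ℝ := (n : ℝ) with hx
  have hx0 : 0 < x := by linarith
  set lg := Real.log x with hlg
  have hr1' : (1 : ℝ) ≤ r0 := by exact_mod_cast hr1
  set r : ℝ := (r0 : ℝ) with hr'
  set d : ℝ := (s.D : ℝ) with hd
  set k : ℝ := (s.K : ℝ) with hk
  have hk0 : 0 ≤ k := Nat.cast_nonneg _
  have hr2 : r + 1 ≤ C2 * lg ^ 2 := hr.2
  have hmax : max (2 * r * x) (8 * x / (1 / r)) = 8 * x * r := by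
    have e1 : 8 * x / (1 / r) = 8 * x * r := by field_simp
    rw [e1]
    apply max_eq_right
    nlinarith
  have hP : scPbad s r0 = 2 * k * (8 * x * r + 1) * Real.exp (-(1 / r * (d / 2 - 2))) := by
    unfold scPbad
    rw [hsn, hmax]
  rw [hP]
  refine ⟨by positivity, ?_⟩
  have h3 : lg ^ 2 ≤ lg ^ 3 := pow_le_pow_right₀ hlog (by norm_num)
  have h31 : 1 ≤ lg ^ 3 := one_le_pow₀ hlog
  have h21 : 1 ≤ lg ^ 2 := one_le_pow₀ hlog
  have t1 : ((104 : ℕ) : ℝ) * lg ≤ 1 / r * (d / 2 - 2) := by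
    rw [one_div, inv_mul_eq_div, le_div_iff₀ (by linarith)]
    push_cast
    have e1 : 104 * lg * r ≤ 104 * lg * (C2 * lg ^ 2) :=
      mul_le_mul_of_nonneg_left (by linarith) (by positivity)
    have e2 : 104 * lg * (C2 * lg ^ 2) = 104 * C2 * lg ^ 3 := by ring
    have e3 : (4 + 208 * C2) * lg ^ 3 ≤ d := b.trans hD2
    nlinarith
  have t2 : Real.exp (-(1 / r * (d / 2 - 2))) ≤ (x ^ 104)⁻¹ := by
    rw [← num_exp_neg_mul_log 104 hx0]
    exact Real.exp_le_exp.2 (neg_le_neg t1)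
  have t3 : 2 * k * (8 * x * r + 1) ≤ x ^ 4 := by
    have e1 : 8 * x * r + 1 ≤ x * ((8 * C2 + 1) * lg ^ 2) := by
      have : 8 * x * r ≤ 8 * x * (C2 * lg ^ 2) :=
        mul_le_mul_of_nonneg_left (by linarith) (by positivity)
      nlinarith
    calc 2 * k * (8 * x * r + 1) ≤ 2 * x * (x * ((8 * C2 + 1) * lg ^ 2)) :=
          mul_le_mul (by linarith) e1 (by positivity) (by positivity)
      _ = x ^ 2 * ((16 * C2 + 2) * lg ^ 2) := by ring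
      _ ≤ x ^ 2 * x ^ 2 := mul_le_mul_of_nonneg_left c (by positivity)
      _ = x ^ 4 := by ring
  calc 2 * k * (8 * x * r + 1) * Real.exp (-(1 / r * (d / 2 - 2))) ≤ x ^ 4 * (x ^ 104)⁻¹ :=
        mul_le_mul t3 t2 (Real.exp_pos _).le (by positivity)
    _ = (x ^ 100)⁻¹ := by
        have : x ^ 104 = x ^ 4 * x ^ 100 := by ring
        rw [this]
        field_simp

/-- (N2) the typical set of width `n^(3/5)` has failure mass at most `n^-100` -/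
theorem num_tail {C1 C2 g : ℝ} (hC1 : 0 < C1) (hC2 : 0 < C2) (hg : 0 < g) :
    ∃ n0 : ℕ, ∀ n : ℕ, n0 ≤ n → ∀ r0 : ℕ, R0OK C1 C2 n r0 →
      2 * Real.exp (Real.exp 1 / 2) * Real.exp (-((n : ℝ) ^ ((3 : ℝ) / 5)) /
          (32 * Real.sqrt ((1 + 1 / (g / 2)) * (C2 * (1 + 4 * (n : ℝ)) * ((r0 : ℝ) + 1) ^ 6)))) ≤
        ((n : ℝ) ^ 100)⁻¹ := by
  set G : ℝ := 1 + 1 / (g / 2) with hG
  have hG0 : 0 < G := by positivity
  obtain ⟨nB, hB⟩ := num_absorb (3232 ^ 2 * (5 * G * C2 ^ 7)) 14 (α := 1) (β := 6 / 5)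
    (by norm_num)
  refine ⟨max nB 16, fun n hn r0 hr => ?_⟩
  have hnB : nB ≤ n := le_trans (by simp) hn
  have hn8 : 16 ≤ n := le_trans (by simp) hn
  have hn3 : 3 ≤ n := by omega
  have b := hB n hnB
  rw [Real.rpow_one] at b
  have hlog : 1 ≤ Real.log n := num_log_ge_one hn3
  have hx8 : (16 : ℝ) ≤ (n : ℝ) := by exact_mod_cast hn8
  set x : ℝ := (n : ℝ) with hx
  have hx0 : 0 < x := by linarith
  set lg := Real.log x with hlg
  have hr0 : (0 : ℝ) ≤ r0 := Nat.cast_nonneg _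
  set r : ℝ := (r0 : ℝ) with hr'
  have hr2 : r + 1 ≤ C2 * lg ^ 2 := hr.2
  set B : ℝ := G * (C2 * (1 + 4 * x) * (r + 1) ^ 6) with hB'
  have hB0 : 0 < B := by positivity
  set p : ℝ := x ^ ((3 : ℝ) / 5) with hp
  have hp0 : 0 < p := Real.rpow_pos_of_pos hx0 _
  have hp2 : p ^ 2 = x ^ ((6 : ℝ) / 5) := by
    rw [hp, ← Real.rpow_natCast, ← Real.rpow_mul hx0.le]
    norm_num
  have hr6 : (r + 1) ^ 6 ≤ C2 ^ 6 * lg ^ 12 := by
    calc (r + 1) ^ 6 ≤ (C2 * lg ^ 2) ^ 6 := pow_le_pow_left₀ (by linarith) hr2 6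
      _ = C2 ^ 6 * lg ^ 12 := by ring
  have hBle : B ≤ 5 * G * C2 ^ 7 * lg ^ 12 * x := by
    calc B ≤ G * (C2 * (5 * x) * (C2 ^ 6 * lg ^ 12)) := by
          rw [hB']
          apply mul_le_mul_of_nonneg_left _ hG0.le
          apply mul_le_mul _ hr6 (by positivity) (by positivity)
          apply mul_le_mul_of_nonneg_left _ hC2.le
          linarith
      _ = 5 * G * C2 ^ 7 * lg ^ 12 * x := by ring
  have hsq : Real.sqrt B ≤ p / (3232 * lg) := by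
    rw [Real.sqrt_le_iff]
    refine ⟨by positivity, ?_⟩
    rw [div_pow, le_div_iff₀ (by positivity), hp2]
    calc B * (3232 * lg) ^ 2 ≤ 5 * G * C2 ^ 7 * lg ^ 12 * x * (3232 * lg) ^ 2 :=
          mul_le_mul_of_nonneg_right hBle (by positivity)
      _ = 3232 ^ 2 * (5 * G * C2 ^ 7) * lg ^ 14 * x := by ring
      _ ≤ x ^ ((6 : ℝ) / 5) := b
  have hs0 : 0 < Real.sqrt B := Real.sqrt_pos.2 hB0
  have t1 : -p / (32 * Real.sqrt B) ≤ -(((101 : ℕ) : ℝ) * lg) := by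
    rw [neg_div, neg_le_neg_iff, le_div_iff₀ (by positivity)]
    push_cast
    calc 101 * lg * (32 * Real.sqrt B) ≤ 101 * lg * (32 * (p / (3232 * lg))) := by gcongr
      _ = p := by field_simp; norm_num
  have t2 : Real.exp (-p / (32 * Real.sqrt B)) ≤ (x ^ 101)⁻¹ := by
    rw [← num_exp_neg_mul_log 101 hx0]
    exact Real.exp_le_exp.2 t1
  have t3 : 2 * Real.exp (Real.exp 1 / 2) ≤ x := by
    have h1 := Real.exp_one_lt_d9
    have h0 := Real.exp_pos 1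
    have h2 : Real.exp (Real.exp 1 / 2) ≤ Real.exp (1 + 1) :=
      Real.exp_le_exp.2 (by linarith)
    have h3 : Real.exp (1 + 1) ≤ 8 := by
      rw [Real.exp_add]
      nlinarith
    have h4 : Real.exp (Real.exp 1 / 2) ≤ 8 := h2.trans h3
    linarith
  calc 2 * Real.exp (Real.exp 1 / 2) * Real.exp (-p / (32 * Real.sqrt B)) ≤ x * (x ^ 101)⁻¹ :=
        mul_le_mul t3 t2 (Real.exp_pos _).le hx0.le
    _ = (x ^ 100)⁻¹ := by
        have : x ^ 101 = x * x ^ 100 := by ring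
        rw [this]
        field_simp

/-- (N2) the transfer between the original and the truncated ground state costs at most `n^-200` -/
theorem num_afw (q : ℕ) {g C0 : ℝ} (hg : 0 < g) (hC0 : 0 < C0) :
    ∃ n0 : ℕ, ∀ n : ℕ, n0 ≤ n →
      4 * ((n : ℝ) ^ 1000)⁻¹ / g ≤ 1 ∧
      4 * (4 * ((n : ℝ) ^ 1000)⁻¹ / g) ^ ((1 : ℝ) / 4) * (1 + C0 * (n : ℝ) ^ 2 * Real.log q) ≤
        ((n : ℝ) ^ 200)⁻¹ := by
  have hq : 0 ≤ Real.log q := Real.log_natCast_nonneg q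
  obtain ⟨nA, hA⟩ := num_small (4 / g) (α := 1000) (c := 1) (by norm_num) one_pos
  obtain ⟨nB, hB⟩ := num_absorb_const (4 * (4 / g) ^ ((1 : ℝ) / 4) * (1 + C0 * Real.log q))
    (α := -248) (β := -200) (by norm_num)
  refine ⟨max (max nA nB) 1, fun n hn => ?_⟩
  have hnA : nA ≤ n := le_trans (by simp) hn
  have hnB : nB ≤ n := le_trans (by simp) hn
  have hn1 : 1 ≤ n := le_trans (by simp) hn
  have a := hA n hnA
  have b := hB n hnB
  have hx1 : (1 : ℝ) ≤ (n : ℝ) := by exact_mod_cast hn1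
  set x : ℝ := (n : ℝ) with hx
  have hx0 : 0 < x := by linarith
  have e1000 : (x ^ 1000)⁻¹ = x ^ (-1000 : ℝ) := by
    rw [num_inv_pow_eq_rpow 1000 hx0]; norm_num
  have e200 : (x ^ 200)⁻¹ = x ^ (-200 : ℝ) := by
    rw [num_inv_pow_eq_rpow 200 hx0]; norm_num
  rw [e1000, e200]
  have e1 : 4 * x ^ (-1000 : ℝ) / g = 4 / g * x ^ (-1000 : ℝ) := by ring
  rw [e1]
  refine ⟨a, ?_⟩
  have e2 : (4 / g * x ^ (-1000 : ℝ)) ^ ((1 : ℝ) / 4) = (4 / g) ^ ((1 : ℝ) / 4) * x ^ (-250 : ℝ) := by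
    rw [Real.mul_rpow (by positivity) (Real.rpow_nonneg hx0.le _), ← Real.rpow_mul hx0.le]
    norm_num
  rw [e2]
  have e3 : 1 + C0 * x ^ 2 * Real.log q ≤ (1 + C0 * Real.log q) * x ^ (2 : ℝ) := by
    rw [Real.rpow_two]
    nlinarith
  have h4 : 0 ≤ (4 / g) ^ ((1 : ℝ) / 4) := by positivity
  have h250 : 0 ≤ x ^ (-250 : ℝ) := Real.rpow_nonneg hx0.le _
  calc 4 * ((4 / g) ^ ((1 : ℝ) / 4) * x ^ (-250 : ℝ)) * (1 + C0 * x ^ 2 * Real.log q)
      ≤ 4 * ((4 / g) ^ ((1 : ℝ) / 4) * x ^ (-250 : ℝ)) * ((1 + C0 * Real.log q) * x ^ (2 : ℝ)) :=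
        mul_le_mul_of_nonneg_left e3 (by positivity)
    _ = 4 * (4 / g) ^ ((1 : ℝ) / 4) * (1 + C0 * Real.log q) * (x ^ (-250 : ℝ) * x ^ (2 : ℝ)) := by
        ring
    _ = 4 * (4 / g) ^ ((1 : ℝ) / 4) * (1 + C0 * Real.log q) * x ^ (-248 : ℝ) := by
        rw [← Real.rpow_add hx0]; norm_num
    _ ≤ x ^ (-200 : ℝ) := b

end Claimed.Agent.R296.Scan
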