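import Claimed.Agent.R296.Scan.NumS

/-!
# Row 296, P1 Section 8: numerics of the scanner estimate, package S8-N3: the energy bound
(see the header of `Scan/NumS.lean`; tools: `Scan/Num.lean`)
-/

set_option autoImplicit false

namespace Claimed.Agent.R296.Scan

variable {l μ κ ν ω e : ℝ}

/-- step 2 of `num_energy` in abstract form -/
theorem ns3_two {N xl Nμ N1 D r m K W μR : ℝ} (hN : N = xl * Nμ * N1) (hxl : 0 < xl) (hNμ : 0 < Nμ)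
    (hN1 : 0 < N1) (hK : N1 / 32 ≤ K) (hm : Nμ / 2 ≤ m) (hr : 0 ≤ r) (h2r : 2 * r ≤ D) (hD : 1 ≤ D)
    (hμR : 0 ≤ μR) :
    (W / K) ^ 2 * ((D + 3 * r + 1) / m) * (6 * K * (μR * N * (D + r + 1))) ≤
      3360 * μR * W ^ 2 * xl * D ^ 2 := by
  have hK0 : 0 < K := by linarith [div_pos hN1 (by norm_num : (0 : ℝ) < 32)]
  have hm0 : 0 < m := by linarith [div_pos hNμ (by norm_num : (0 : ℝ) < 2)]
  have e1 : (W / K) ^ 2 * ((D + 3 * r + 1) / m) * (6 * K * (μR * N * (D + r + 1))) =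
      6 * μR * W ^ 2 * N * ((D + 3 * r + 1) * (D + r + 1)) / (K * m) := by
    field_simp
  rw [e1, div_le_iff₀ (mul_pos hK0 hm0)]
  have h1 : (D + 3 * r + 1) * (D + r + 1) ≤ 35 / 4 * D ^ 2 := by nlinarith
  have h2 : N1 / 32 * (Nμ / 2) ≤ K * m := mul_le_mul hK hm (by positivity) hK0.le
  have h3 : N ≤ 64 * xl * (K * m) := by
    rw [hN]
    nlinarith
  have hN0 : 0 ≤ N := by rw [hN]; positivity
  have h0 : 0 ≤ (D + 3 * r + 1) * (D + r + 1) := by positivity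
  calc 6 * μR * W ^ 2 * N * ((D + 3 * r + 1) * (D + r + 1))
      ≤ 6 * μR * W ^ 2 * (64 * xl * (K * m)) * (35 / 4 * D ^ 2) := by gcongr
    _ = 3360 * μR * W ^ 2 * xl * D ^ 2 * (K * m) := by ring

/-- step 3 of `num_energy` in abstract form -/
theorem ns3_bud {N Ne ld z W Bsh D r Lq Ce : ℝ} (hN1 : 1 ≤ N) (hNe : N ≤ Ne) (hND : N * D ≤ 2 * Ne)
    (hld0 : 0 ≤ ld) (hld : ld ≤ Ce * Ne + N) (hB0 : 0 ≤ Bsh) (hB : Bsh ≤ Ce * Ne + 1)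
    (hz : 1 / 2 ≤ z) (hz1 : z ≤ 1) (hW : 1 ≤ W) (hr : 0 ≤ r) (h2r : 2 * r ≤ D) (hD : 1 ≤ D)
    (hLq : 0 ≤ Lq) (hCe : 0 ≤ Ce) :
    0 ≤ 2 * ld - Real.log z + W / 2 * (2 * Bsh / z + 2 * (1 + N * (D + r + 1) * Lq)) ∧
      2 * ld - Real.log z + W / 2 * (2 * Bsh / z + 2 * (1 + N * (D + r + 1) * Lq)) ≤
        W * (4 * Ce + 6 + 5 * Lq) * Ne := by
  have hz0 : 0 < z := by linarith
  have hlog0 : Real.log z ≤ 0 := Real.log_nonpos hz0.le hz1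
  have hlog1 : -1 ≤ Real.log z := by
    have h3 := Real.log_le_sub_one_of_pos (inv_pos.2 hz0)
    rw [Real.log_inv] at h3
    have : z⁻¹ ≤ 2 := by
      rw [inv_le_comm₀ hz0 (by norm_num)]
      linarith
    linarith
  have hNe1 : 1 ≤ Ne := hN1.trans hNe
  constructor
  · have : 0 ≤ W / 2 * (2 * Bsh / z + 2 * (1 + N * (D + r + 1) * Lq)) := by positivity
    linarith
  · have h1 : 2 * Bsh / z ≤ 4 * Bsh := by
      rw [div_le_iff₀ hz0]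
      nlinarith
    have h2 : N * (D + r + 1) * Lq ≤ 5 * Ne * Lq := by
      have : N * (D + r + 1) ≤ 5 * Ne := by nlinarith
      exact mul_le_mul_of_nonneg_right this hLq
    have h3 : W / 2 * (2 * Bsh / z + 2 * (1 + N * (D + r + 1) * Lq)) ≤
        W / 2 * (4 * (Ce * Ne + 1) + 2 * (1 + 5 * Ne * Lq)) := by
      gcongr
      linarith
    have h4 : 0 ≤ Ce * Ne := by positivity
    have h5 : 0 ≤ Ne * Lq := by positivity
    have h6 : 2 * (Ce * Ne + N) + 1 ≤ W * (2 * (Ce * Ne) + 3 * Ne) := by nlinarith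
    have h7 : W / 2 * (4 * (Ce * Ne + 1) + 2 * (1 + 5 * Ne * Lq)) ≤
        W * (2 * (Ce * Ne) + 3 * Ne + 5 * (Ne * Lq)) := by nlinarith
    nlinarith

/-- step 4 of `num_energy` in abstract form -/
theorem ns3_delta {bud N m K a W Cr q4 eC ε Nν Neμ Nμ Ne cb cC lCl C : ℝ} (hbud : bud ≤ W * cb * Ne)
    (hNe : Ne = N * Neμ * Nμ) (hN : 0 < N) (hNeμ : 0 < Neμ) (hNμ : 0 < Nμ) (hm : Nμ / 2 ≤ m)
    (haK : a * K = W) (hW : 1 ≤ W) (hε : ε * Nν = 1) (hNν : 0 < Nν) (hq4 : 0 ≤ q4) (heC : eC ≤ cC * lCl)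
    (hCr : 0 ≤ Cr) (hcb : 0 ≤ cb) (hcC : 0 ≤ cC) (hlCl : 0 ≤ lCl) (hC : 8 / 3 * (cb + Cr * cC) ≤ C) :
    4 / 3 * (bud + 2 * 0 + 2 * (N * m) * (Cr * a * K * q4 * eC + 0)) / ((N * m) * ε * W) ≤
      C * Nν * (Neμ + q4 * lCl) := by
  have hm0 : 0 < m := by linarith [div_pos hNμ (by norm_num : (0 : ℝ) < 2)]
  have hε0 : 0 < ε := by
    by_contra hcon
    have : ε * Nν ≤ 0 := mul_nonpos_of_nonpos_of_nonneg (not_lt.mp hcon) hNν.le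
    linarith
  have hW0 : 0 < W := by linarith
  rw [div_le_iff₀ (by positivity)]
  have e1 : C * Nν * (Neμ + q4 * lCl) * (N * m * ε * W) = C * (Neμ + q4 * lCl) * (N * m * W) * (ε * Nν) := by
    ring
  rw [e1, hε, mul_one]
  have e2 : Cr * a * K * q4 * eC = Cr * W * q4 * eC := by rw [← haK]; ring
  rw [e2]
  have h1 : bud ≤ W * cb * (N * Neμ * (2 * m)) := by
    refine hbud.trans ?_
    rw [hNe]
    gcongr
    linarith
  have h2 : Cr * W * q4 * eC ≤ Cr * W * q4 * (cC * lCl) := by gcongr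
  have h3 : 0 ≤ N * m * W := by positivity
  have h4 : 0 ≤ q4 * lCl := by positivity
  calc 4 / 3 * (bud + 2 * 0 + 2 * (N * m) * (Cr * W * q4 * eC + 0))
      ≤ 4 / 3 * (W * cb * (N * Neμ * (2 * m)) + 2 * 0 + 2 * (N * m) * (Cr * W * q4 * (cC * lCl) + 0)) := by
        gcongr
    _ = 8 / 3 * (cb * Neμ + Cr * cC * (q4 * lCl)) * (N * m * W) := by ring
    _ ≤ 8 / 3 * ((cb + Cr * cC) * (Neμ + q4 * lCl)) * (N * m * W) := by
        gcongr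
        have : 0 ≤ cb * (q4 * lCl) + Cr * cC * Neμ := by positivity
        nlinarith
    _ = (8 / 3 * (cb + Cr * cC)) * (Neμ + q4 * lCl) * (N * m * W) := by ring
    _ ≤ C * (Neμ + q4 * lCl) * (N * m * W) := by gcongr

/-- step 5 of `num_energy` in abstract form -/
theorem ns3_final {E0 Cr a eC wmax nsp δ8 Pbad ε l8 g cC l1 l4 lCl S8 p100 p1000 c C xl D W μR : ℝ}
    (hg : 0 < g) (hE0 : E0 ≤ p1000) (hp1000 : 0 ≤ p1000)
    (hP2 : a ^ 2 * wmax * nsp ≤ 3360 * μR * W ^ 2 * xl * D ^ 2) (hP20 : 0 ≤ a ^ 2 * wmax * nsp)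
    (heC : eC ≤ cC * l1) (hδ80 : 0 ≤ δ8) (hδ8 : δ8 ≤ S8) (hl80 : 0 ≤ l8)
    (hl8 : l8 ≤ 2 * c * l4) (hl4 : 1 ≤ l4) (hc : 1 ≤ c) (hPbad0 : 0 ≤ Pbad) (hPbad : Pbad ≤ p100)
    (hε : 0 ≤ ε) (hCr : 0 ≤ Cr) (hcC : 0 ≤ cC) (hl1 : 0 ≤ l1) (hl : l1 * l4 ≤ lCl) (hμR : 0 ≤ μR)
    (hxl : 0 ≤ xl)
    (hC : 2 / g * (6720 * μR * (Cr * cC) * c) + 2 / g ≤ C) :
    (E0 + Cr * a ^ 2 * eC * wmax * nsp * (δ8 + (Pbad + ε) * l8) + 0) / (g / 2) ≤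
      C * xl * D ^ 2 * W ^ 2 * lCl * (S8 + ε + p100) + C * p1000 := by
  have hS8 : 0 ≤ S8 := hδ80.trans hδ8
  have hp100 : 0 ≤ p100 := hPbad0.trans hPbad
  have h2g : 0 < 2 / g := by positivity
  have k1 : δ8 + (Pbad + ε) * l8 ≤ 2 * c * l4 * (S8 + ε + p100) := by
    have h1 : (Pbad + ε) * l8 ≤ (p100 + ε) * (2 * c * l4) := by gcongr
    have h2 : 1 ≤ 2 * c * l4 := by nlinarith
    have h3 : S8 ≤ 2 * c * l4 * S8 := by nlinarith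
    nlinarith
  have k0 : 0 ≤ δ8 + (Pbad + ε) * l8 := by positivity
  have hB : 0 ≤ 3360 * μR * W ^ 2 * xl * D ^ 2 := by positivity
  have k2 : Cr * a ^ 2 * eC * wmax * nsp * (δ8 + (Pbad + ε) * l8) ≤
      6720 * μR * (Cr * cC) * c * (xl * D ^ 2 * W ^ 2 * lCl * (S8 + ε + p100)) := by
    calc Cr * a ^ 2 * eC * wmax * nsp * (δ8 + (Pbad + ε) * l8)
        = Cr * eC * (a ^ 2 * wmax * nsp) * (δ8 + (Pbad + ε) * l8) := by ring
      _ ≤ Cr * (cC * l1) * (3360 * μR * W ^ 2 * xl * D ^ 2) * (2 * c * l4 * (S8 + ε + p100)) := by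
          gcongr
      _ = 6720 * μR * (Cr * cC) * c * (xl * D ^ 2 * W ^ 2 * (l1 * l4) * (S8 + ε + p100)) := by ring
      _ ≤ _ := by gcongr
  set Z := xl * D ^ 2 * W ^ 2 * lCl * (S8 + ε + p100) with hZ
  have hlCl : 0 ≤ lCl := le_trans (by positivity) hl
  have hZ0 : 0 ≤ Z := by positivity
  have e1 : (E0 + Cr * a ^ 2 * eC * wmax * nsp * (δ8 + (Pbad + ε) * l8) + 0) / (g / 2) =
      2 / g * (E0 + Cr * a ^ 2 * eC * wmax * nsp * (δ8 + (Pbad + ε) * l8)) := by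
    field_simp
    ring
  have e2 : C * xl * D ^ 2 * W ^ 2 * lCl * (S8 + ε + p100) = C * Z := by rw [hZ]; ring
  rw [e1, e2]
  have hA0 : 0 ≤ 2 / g * (6720 * μR * (Cr * cC) * c) := by positivity
  calc 2 / g * (E0 + Cr * a ^ 2 * eC * wmax * nsp * (δ8 + (Pbad + ε) * l8))
      ≤ 2 / g * (p1000 + 6720 * μR * (Cr * cC) * c * Z) := by gcongr
    _ = 2 / g * (6720 * μR * (Cr * cC) * c) * Z + 2 / g * p1000 := by ring
    _ ≤ C * Z + C * p1000 := by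
        apply add_le_add
        · exact mul_le_mul_of_nonneg_right (by linarith) hZ0
        · exact mul_le_mul_of_nonneg_right (by linarith) hp1000

/-
PROOF PLAN of `num_energy` (λ = log n ≥ 1; all facts below from `num_side`, `num_ell_le`, `ScaleBds`).
 1. ell ≤ c λ^4, ell ≥ 1, hence ell^Cr ≤ c^Cr λ^(4 Cr) ≤ c^Cr λ^Cl  for Cl ≥ 4 Cr (rpow vs natural power), (2 ell)^(1/8) ≤ 2 c λ.
 2. a K = W;  a² wmax nsp = 6 μR W² n (D+3r0+1)(D+r0+1)/(K m) ≤ 3360 μR W² n^l D²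
    (2 r0 ≤ D, 1 ≤ D, K ≥ n^(1-l-μ)/32, m ≥ n^μ/2).
 3. bud ≤ W c_b n^(1+e), c_b = 4 Ce + 6 + 5 log q  (z ≥ 1/2, -log z ≤ 1, W ≥ 1, Bexc ≤ (1+5 log q) n^(1+κ), κ ≤ e), bud ≥ 0.
 4. deltaFn = (4/3) bud/(n m ε W) + (8/3) Cr a^(1/4) ell^Cr / ε ≤ C n^ν (n^(e-μ) + a^(1/4) λ^Cl) = scDelta.
 5. divide by g/2; E0 ≤ n^-1000.
-/

/-- (N3) **the energy bound of the abstract scanner is below `scEbar`** -/
theorem num_energy (hE : ExpOK l μ κ ν ω e) (μR q : ℕ) (hμR : 1 ≤ μR) (hq : 2 ≤ q)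
    {C1 C2 g Cr Ce : ℝ} (hC1 : 0 < C1) (hC2 : 0 < C2) (hg : 0 < g) (hCr : 1 ≤ Cr) (hCe : 0 ≤ Ce) :
    ∃ (Cmin : ℝ) (Clmin n0 : ℕ), ∀ (C : ℝ) (Cl : ℕ), Cmin ≤ C → Clmin ≤ Cl →
      ∀ n : ℕ, n0 ≤ n → ∀ (W : ℝ) (r0 : ℕ), 1 ≤ W → W ≤ (n : ℝ) ^ ω → R0OK C1 C2 n r0 →
      ∀ s : Scales, s = ⟨n, l, μ, κ, W⟩ →
      ∀ E0 ld z Bsh Pbad : ℝ, 0 ≤ E0 → E0 ≤ ((n : ℝ) ^ 1000)⁻¹ → 1 / 2 ≤ z → z ≤ 1 → 0 ≤ ld →
        ld ≤ Ce * (n : ℝ) ^ (1 + e) + n → 0 ≤ Bsh → Bsh ≤ Ce * (n : ℝ) ^ (1 + e) + 1 →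
        0 ≤ Pbad → Pbad ≤ ((n : ℝ) ^ 100)⁻¹ →
        ebdFn Cr 0 E0 (g / 2) s.a (scEll μR q r0) (((s.D : ℝ) + 3 * r0 + 1) / s.m)
            (6 * s.K * (scMn μR s r0 : ℝ))
            (deltaFn Cr 0 (budFn ld z W Bsh (scBexc q s r0)) n s.m s.K s.a (scEll μR q r0)
              ((n : ℝ) ^ (-ν)) W) Pbad ((n : ℝ) ^ (-ν)) ≤
          scEbar s C Cl e ν := by
  obtain ⟨n1, hside⟩ := num_side hE hC1 hC2
  obtain ⟨c, hc1, hell⟩ := num_ell_le (C1 := C1) μR q hC2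
  have hc0 : 0 < c := by linarith
  have hCr0 : 0 ≤ Cr := by linarith
  set cb : ℝ := 4 * Ce + 6 + 5 * Real.log q with hcb
  set cC : ℝ := c ^ Cr with hcC
  set Cl1 : ℕ := ⌈4 * Cr⌉₊ with hCl1
  have hLq : 0 ≤ Real.log q := Real.log_natCast_nonneg q
  have hcb0 : 0 ≤ cb := by positivity
  have hcC0 : 0 ≤ cC := Real.rpow_nonneg hc0.le _
  have hμR0 : (0 : ℝ) ≤ μR := Nat.cast_nonneg _
  refine ⟨8 / 3 * (cb + Cr * cC) + (2 / g * (6720 * μR * (Cr * cC) * c) + 2 / g), Cl1 + 4,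
    max 3 n1, ?_⟩
  intro C Cl hC hCl n hn W r0 hW1 hWω hR0 s hs E0 ld z Bsh Pbad hE0 hE0' hz hz1 hld hld' hBsh hBsh'
    hPbad hPbad'
  have hn3 : 3 ≤ n := le_trans (le_max_left _ _) hn
  obtain ⟨hSB, hr0, hm0, -, -, h2r, hmge, hmle, -⟩ :=
    hside n (le_trans (le_max_right _ _) hn) W r0 hR0 s hs
  obtain ⟨hell1, hell2⟩ := hell n r0 hn3 hR0
  have hsn : s.n = n := by rw [hs]
  have hsl : s.l = l := by rw [hs]
  have hsμ : s.μ = μ := by rw [hs]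
  have hsκ : s.κ = κ := by rw [hs]
  have hsW : s.W = W := by rw [hs]
  have hN3 : (3 : ℝ) ≤ n := by exact_mod_cast hn3
  have hN0 : (0 : ℝ) < n := by linarith
  have hN1 : (1 : ℝ) ≤ n := by linarith
  have hW0 : 0 < W := by linarith
  have hA1 : 0 ≤ 8 / 3 * (cb + Cr * cC) := by positivity
  have hA2 : 0 ≤ 2 / g * (6720 * μR * (Cr * cC) * c) + 2 / g := by positivity
  have hC0 : 0 ≤ C := by linarith
  -- the logarithm
  set lam : ℝ := Real.log n with hlam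
  have hlam1 : 1 ≤ lam := by
    rw [hlam, Real.le_log_iff_exp_le hN0]
    have := Real.exp_one_lt_d9
    linarith
  have hlam0 : 0 ≤ lam := by linarith
  -- the scales
  have hKge : (n : ℝ) ^ (1 - l - μ) / 32 ≤ s.K := by
    have := hSB.K_ge
    rwa [hsn, hsl, hsμ] at this
  have hK0 : (0 : ℝ) < s.K := by exact_mod_cast hSB.K_pos
  have hDge : (n : ℝ) ^ κ ≤ s.D := by
    have := hSB.D_ge
    rwa [hsn, hsκ] at this
  have hDle : (s.D : ℝ) ≤ 2 * (n : ℝ) ^ κ := by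
    have := hSB.D_le
    rwa [hsn, hsκ] at this
  have hD1 : (1 : ℝ) ≤ s.D := (Real.one_le_rpow hN1 hE.κ_pos.le).trans hDge
  have h2r' : 2 * (r0 : ℝ) ≤ s.D := by exact_mod_cast h2r
  have hr00 : (0 : ℝ) ≤ r0 := Nat.cast_nonneg _
  have hmR0 : (0 : ℝ) < s.m := by exact_mod_cast hm0
  have ha : s.a = W / s.K := by unfold Scales.a; rw [hsW]
  have ha0 : 0 < s.a := by rw [ha]; positivity
  have haK : s.a * s.K = W := by rw [ha]; field_simp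
  -- powers of `n`
  have pxl : 0 < (n : ℝ) ^ l := Real.rpow_pos_of_pos hN0 _
  have pμ : 0 < (n : ℝ) ^ μ := Real.rpow_pos_of_pos hN0 _
  have p1 : 0 < (n : ℝ) ^ (1 - l - μ) := Real.rpow_pos_of_pos hN0 _
  have pν : 0 < (n : ℝ) ^ ν := Real.rpow_pos_of_pos hN0 _
  have peμ : 0 < (n : ℝ) ^ (e - μ) := Real.rpow_pos_of_pos hN0 _
  have pε : 0 < (n : ℝ) ^ (-ν) := Real.rpow_pos_of_pos hN0 _
  have eN : (n : ℝ) = (n : ℝ) ^ l * (n : ℝ) ^ μ * (n : ℝ) ^ (1 - l - μ) := by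
    rw [← Real.rpow_add hN0, ← Real.rpow_add hN0]
    have : l + μ + (1 - l - μ) = 1 := by ring
    rw [this, Real.rpow_one]
  have eNe : (n : ℝ) ^ (1 + e) = (n : ℝ) * (n : ℝ) ^ (e - μ) * (n : ℝ) ^ μ := by
    nth_rewrite 2 [← Real.rpow_one (n : ℝ)]
    rw [← Real.rpow_add hN0, ← Real.rpow_add hN0]
    congr 1
    ring
  have hNNe : (n : ℝ) ≤ (n : ℝ) ^ (1 + e) := by
    nth_rewrite 1 [← Real.rpow_one (n : ℝ)]
    exact Real.rpow_le_rpow_of_exponent_le hN1 (by linarith [hE.e_pos])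
  have hND : (n : ℝ) * s.D ≤ 2 * (n : ℝ) ^ (1 + e) := by
    have h1 : (n : ℝ) * (n : ℝ) ^ κ ≤ (n : ℝ) ^ (1 + e) := by
      nth_rewrite 1 [← Real.rpow_one (n : ℝ)]
      rw [← Real.rpow_add hN0]
      exact Real.rpow_le_rpow_of_exponent_le hN1 (by linarith [hE.κ_le])
    calc (n : ℝ) * s.D ≤ (n : ℝ) * (2 * (n : ℝ) ^ κ) := mul_le_mul_of_nonneg_left hDle hN0.le
      _ = 2 * ((n : ℝ) * (n : ℝ) ^ κ) := by ring
      _ ≤ 2 * (n : ℝ) ^ (1 + e) := by linarith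
  have hεν : (n : ℝ) ^ (-ν) * (n : ℝ) ^ ν = 1 := by
    rw [← Real.rpow_add hN0, neg_add_cancel, Real.rpow_zero]
  -- `ell`
  set ell : ℝ := scEll μR q r0 with hell_def
  have hell0 : 0 ≤ ell := by linarith
  have hl1Cl : lam ^ Cl1 ≤ lam ^ Cl := pow_le_pow_right₀ hlam1 (by omega)
  have heC1 : ell ^ Cr ≤ cC * lam ^ Cl1 := by
    calc ell ^ Cr ≤ (c * lam ^ 4) ^ Cr := Real.rpow_le_rpow hell0 hell2 hCr0
      _ = cC * (lam ^ 4) ^ Cr := Real.mul_rpow hc0.le (by positivity)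
      _ = cC * lam ^ (4 * Cr) := by
          rw [← Real.rpow_natCast lam 4, ← Real.rpow_mul hlam0]
          norm_num
      _ ≤ cC * lam ^ ((Cl1 : ℕ) : ℝ) := by
          gcongr
          exact Nat.le_ceil _
      _ = cC * lam ^ Cl1 := by rw [Real.rpow_natCast]
  have heC : ell ^ Cr ≤ cC * lam ^ Cl := heC1.trans (by gcongr)
  have hl8 : (2 * ell) ^ ((1 : ℝ) / 8) ≤ 2 * c * lam ^ 4 := by
    calc (2 * ell) ^ ((1 : ℝ) / 8) ≤ (2 * ell) ^ (1 : ℝ) :=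
          Real.rpow_le_rpow_of_exponent_le (by linarith) (by norm_num)
      _ = 2 * ell := Real.rpow_one _
      _ ≤ 2 * c * lam ^ 4 := by linarith
  -- step 2
  have hMn : (scMn μR s r0 : ℝ) = μR * n * ((s.D : ℝ) + r0 + 1) := by
    unfold scMn
    rw [hsn]
    push_cast
    ring
  have hP2 : s.a ^ 2 * (((s.D : ℝ) + 3 * r0 + 1) / s.m) * (6 * s.K * (scMn μR s r0 : ℝ)) ≤
      3360 * μR * W ^ 2 * (n : ℝ) ^ l * (s.D : ℝ) ^ 2 := by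
    rw [ha, hMn]
    exact ns3_two eN pxl pμ p1 hKge hmge hr00 h2r' hD1 hμR0
  have hP20 : 0 ≤ s.a ^ 2 * (((s.D : ℝ) + 3 * r0 + 1) / s.m) * (6 * s.K * (scMn μR s r0 : ℝ)) := by
    positivity
  -- step 3
  have hbud := ns3_bud (N := n) (Ne := (n : ℝ) ^ (1 + e)) (ld := ld) (z := z) (W := W) (Bsh := Bsh)
    (D := s.D) (r := r0) (Lq := Real.log q) (Ce := Ce) hN1 hNNe hND hld hld' hBsh hBsh' hz hz1 hW1
    hr00 h2r' hD1 hLq hCe
  have hbudeq : budFn ld z W Bsh (scBexc q s r0) =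
      2 * ld - Real.log z + W / 2 * (2 * Bsh / z + 2 * (1 + n * ((s.D : ℝ) + r0 + 1) * Real.log q)) := by
    unfold budFn scBexc
    rw [hsn]
  set bud : ℝ := budFn ld z W Bsh (scBexc q s r0) with hbud_def
  rw [← hbudeq] at hbud
  -- step 4
  set δ : ℝ := deltaFn Cr 0 bud n s.m s.K s.a ell ((n : ℝ) ^ (-ν)) W with hδ
  have hδle : δ ≤ scDelta s C Cl e ν := by
    rw [hδ]
    unfold deltaFn scDelta
    rw [hsn, hsμ]
    exact ns3_delta hbud.2 eNe hN0 peμ pμ hmge haK hW1 hεν pν (Real.rpow_nonneg ha0.le _) heC hCr0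
      hcb0 hcC0 (by positivity) (by linarith)
  have hδ0 : 0 ≤ δ := by
    rw [hδ]
    unfold deltaFn
    have := hbud.1
    have : 0 ≤ s.a ^ ((1 : ℝ) / 4) := Real.rpow_nonneg ha0.le _
    have : 0 ≤ ell ^ Cr := Real.rpow_nonneg hell0 _
    positivity
  -- step 5
  unfold ebdFn scEbar
  rw [hsn, hsl, hsW]
  exact ns3_final hg hE0' (by positivity) hP2 hP20 heC1 (Real.rpow_nonneg hδ0 _)
    (Real.rpow_le_rpow hδ0 hδle (by norm_num)) (Real.rpow_nonneg (by linarith) _) hl8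
    (one_le_pow₀ hlam1) hc1 hPbad hPbad' pε.le hCr0 hcC0 (by positivity)
    (by rw [← pow_add]; exact pow_le_pow_right₀ hlam1 hCl) hμR0 pxl.le (by linarith)

end Claimed.Agent.R296.Scan
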