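import Claimed.Agent.R296.Scan.MainD
import Claimed.Agent.R296.Scan.LatSys
import Claimed.Agent.R296.Scan.NumS2
import Claimed.Agent.R296.Scan.NumS3

/-!
# Row 296, P1 Section 8: `ReplicaStmt ⟹ ScanConclStmt` (assembly, package S8-A)

Lattice instance (`Scan/Lat`, `Scan/LatSys`) + abstract scanner (`scan_rough`, `scan_sharp`) +
tail / moment data (`Scan/Cut`) + numerics (`Scan/NumS*`).
-/

set_option autoImplicit false

namespace Claimed.Agent.R296.Scan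

open Finset Matrix Claims.C0473

section Abstract

variable {Λ ι : Type} [Fintype Λ] [DecidableEq Λ]
variable {io : Λ → Type} [∀ x, Fintype (io x)] [∀ x, DecidableEq (io x)]

theorem Bud_eq (S : Sys Λ ι io) (G : Geom Λ ι) (d : G.Lab) (P : Par) :
    Bud S G d P = budFn (scanData S G d P).ld (scanData S G d P).z (scanData S G d P).W
      P.Bsh P.Bexc := rfl

theorem Ebd_eq (S : Sys Λ ι io) (G : Geom Λ ι) (d : G.Lab) (P : Par) (C ζ : ℝ) :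
    Ebd S G d P C ζ = ebdFn C ζ S.E0 S.gap P.a P.ell (((G.D : ℝ) + 3 * G.r0 + 1) / G.m)
      (6 * G.K * G.Mn)
      (deltaFn C ζ (Bud S G d P) G.n G.m G.K P.a P.ell P.ε (scanData S G d P).W) P.Pbad P.ε := rfl

end Abstract


/-- monotonicity of the rough inequality in the constants and bounds -/
theorem rough_mono {s : Scales} {N : ConclNums} {C C' Eb Eb' Bsh Bsh' Bexc Bexc' τ : ℝ}
    (hW : 0 ≤ s.W) (ha : 0 < s.a) (hτ0 : 0 < τ) (hτ1 : τ < 1 / 2) (hC0 : 0 ≤ C) (hC : C ≤ C')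
    (hEb : Eb ≤ Eb') (hEb' : 0 ≤ Eb') (hBsh : Bsh ≤ Bsh') (hBexc : Bexc ≤ Bexc') (hz : 0 < N.z)
    (hld : 0 ≤ N.ld) (hS1 : 0 ≤ N.S1) (h : RoughIneq s N C Eb Bsh Bexc τ) :
    RoughIneq s N C' Eb' Bsh' Bexc' τ := by
  unfold RoughIneq at h ⊢
  have hbin : 0 ≤ Real.binEntropy τ := Real.binEntropy_nonneg hτ0.le (by linarith)
  have h1 : C * (τ * N.ld + Real.binEntropy τ / s.a) ≤ C' * (τ * N.ld + Real.binEntropy τ / s.a) :=
    mul_le_mul_of_nonneg_right hC (by positivity)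
  have h2 : C * (Eb / τ) * N.S1 ≤ C' * (Eb' / τ) * N.S1 := by
    refine mul_le_mul_of_nonneg_right ?_ hS1
    calc C * (Eb / τ) ≤ C * (Eb' / τ) :=
          mul_le_mul_of_nonneg_left (div_le_div_of_nonneg_right hEb hτ0.le) hC0
      _ ≤ C' * (Eb' / τ) := mul_le_mul_of_nonneg_right hC (by positivity)
  have h3 : 2 * Bsh / N.z + 2 * Bexc ≤ 2 * Bsh' / N.z + 2 * Bexc' := by
    have : 2 * Bsh / N.z ≤ 2 * Bsh' / N.z := div_le_div_of_nonneg_right (by linarith) hz.le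
    linarith
  have hW2 : 0 ≤ s.W / 2 := by positivity
  have h4 := mul_le_mul_of_nonneg_left h3 hW2
  have h5 : s.W / 2 * (2 * N.S1 - C' * (τ * N.ld + Real.binEntropy τ / s.a) -
      C' * (Eb' / τ) * N.S1) ≤ s.W / 2 * (2 * N.S1 - C * (τ * N.ld + Real.binEntropy τ / s.a) -
      C * (Eb / τ) * N.S1) := mul_le_mul_of_nonneg_left (by linarith) hW2
  linarith

/-- monotonicity of the sharp inequality in the constants and bounds -/
theorem sharp_mono {s : Scales} {N : ConclNums} {C C' Eb Eb' gmax BB τ : ℝ}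
    (hW : 0 ≤ s.W) (ha : 0 < s.a) (hτ0 : 0 < τ) (hτ1 : τ < 1 / 2) (hC0 : 0 ≤ C) (hC : C ≤ C')
    (hEb : Eb ≤ Eb') (hEb' : 0 ≤ Eb') (hBB : 0 ≤ BB) (hld : 0 ≤ N.ld) (hS1 : 0 ≤ N.S1 + gmax)
    (h : SharpIneq s N C Eb gmax BB τ) : SharpIneq s N C' Eb' gmax BB τ := by
  unfold SharpIneq at h ⊢
  have hbin : 0 ≤ Real.binEntropy τ := Real.binEntropy_nonneg hτ0.le (by linarith)
  have h1 : C * (τ * N.ld + Real.binEntropy τ / s.a + s.a * BB) ≤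
      C' * (τ * N.ld + Real.binEntropy τ / s.a + s.a * BB) :=
    mul_le_mul_of_nonneg_right hC (by positivity)
  have h2 : C * (Eb / τ) * (N.S1 + gmax) ≤ C' * (Eb' / τ) * (N.S1 + gmax) := by
    refine mul_le_mul_of_nonneg_right ?_ hS1
    calc C * (Eb / τ) ≤ C * (Eb' / τ) :=
          mul_le_mul_of_nonneg_left (div_le_div_of_nonneg_right hEb hτ0.le) hC0
      _ ≤ C' * (Eb' / τ) := mul_le_mul_of_nonneg_right hC (by positivity)
  have h3 : C * (s.a * BB + |Real.log N.z| / s.a) ≤ C' * (s.a * BB + |Real.log N.z| / s.a) :=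
    mul_le_mul_of_nonneg_right hC (by positivity)
  have hW2 : 0 ≤ s.W / 2 := by positivity
  have h4 := mul_le_mul_of_nonneg_left h3 hW2
  have h5 : s.W / 2 * (2 * N.S1 + 2 * N.I1 - 2 * N.SX - τ * gmax -
      C' * (τ * N.ld + Real.binEntropy τ / s.a + s.a * BB) - C' * (Eb' / τ) * (N.S1 + gmax)) ≤
      s.W / 2 * (2 * N.S1 + 2 * N.I1 - 2 * N.SX - τ * gmax -
      C * (τ * N.ld + Real.binEntropy τ / s.a + s.a * BB) - C * (Eb / τ) * (N.S1 + gmax)) :=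
    mul_le_mul_of_nonneg_left (by linarith) hW2
  linarith



/-- the parameters of the lattice scan -/
noncomputable def latPar (R q : ℕ) (s : Scales) (r0 : ℕ) (ν τ Bs BB : ℝ) : Par where
  w := (s.n : ℝ) ^ ((3 : ℝ) / 5)
  a := s.a
  τ := τ
  ell := scEll (muR R) q r0
  Bsh := Bs + 1
  Bexc := scBexc q s r0
  BB := BB
  ε := (s.n : ℝ) ^ (-ν)
  Pbad := scPbad s r0
  lq := Real.log q

theorem lat_compat {q R : ℕ} [NeZero q] {Λ : Finset (ℤ × ℤ)} {A : Finset Λ} {T : Finset (ℤ × ℤ)}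
    {s : Scales} {r0 : ℕ} {S : Sys Λ (AdmIx Λ R) (fun _ : Λ => Fin q)} {a0 ν τ Bs BB : ℝ}
    (hSW : S.WF) (hSsup : S.sup = latSup R r0 (tplS A T s.L))
    (hGW : (latGeom R A T s.n s.L s.m s.K s.D r0).WF)
    (hBsh : ∀ j, j ≤ s.L → ent S.rho (tplS A T j \ tplX A T) ≤ Bs + 1)
    (hz : 0 < typZ (ptr (tplX A T) S.rho) ((s.n : ℝ) ^ ((3 : ℝ) / 5)))
    (ha : 0 < s.a ∧ s.a ≤ a0 ∧ s.a * scEll (muR R) q r0 ≤ a0) (hτ0 : 0 < τ) (hτ1 : τ < 1 / 2)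
    (hn : 1 ≤ s.n) (hν : 0 < ν) (hr1 : 1 ≤ r0)
    (hγ : (scV0 (muR R) r0 : ℝ) ^ 2 * Real.exp (2 * (1 / (r0 : ℝ)) * r0) /
      (2 * (scMn (muR R) s r0 : ℝ)) ≤ 1 / (r0 : ℝ) / (4 * (s.n : ℝ))) :
    Compat S (latGeom R A T s.n s.L s.m s.K s.D r0) (latPar R q s r0 ν τ Bs BB) a0 := by
  have hn0 : (0 : ℝ) < s.n := by exact_mod_cast hn
  have hr0 : (1 : ℝ) ≤ r0 := by exact_mod_cast hr1
  refine
    { sys := hSW
      geo := hGW
      sup_eq := fun i => by rw [hSsup]; rfl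
      lq := fun x => by simp [latPar]
      lq_nonneg := Real.log_natCast_nonneg q
      ell_ge := le_refl _
      Bexc_ge := le_refl _
      Bsh_ge := ?_
      w_nonneg := Real.rpow_nonneg hn0.le _
      typ_pos := ?_
      a_pos := ha.1
      a_le := ha.2.1
      a_ell := ha.2.2
      tau_pos := hτ0
      tau_lt := hτ1
      eps_pos := Real.rpow_pos_of_pos hn0 _
      eps_le := Real.rpow_le_one_of_one_le_of_nonpos (by exact_mod_cast hn) (by linarith)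
      bad := ?_ }
  · intro j hj
    have hj' : j ≤ s.L := hj
    rw [latGeom_Pre R s.n s.m s.K s.D r0 hj']
    exact hBsh j hj'
  · rw [latGeom_X]
    exact hz
  · intro d ρ hρ
    exact Geom.bad_prob hGW d (θ := 1 / (r0 : ℝ)) (by positivity)
      (by rw [div_le_one (by positivity)]; exact hr0) hγ hρ



section

variable {q R : ℕ} [NeZero q] {Λ : Finset (ℤ × ℤ)}

/-- the numbers which survive from the truncated state -/
noncomputable def latNums (S : Sys Λ (AdmIx Λ R) (fun _ : Λ => Fin q)) (X S0 : Finset Λ) (w : ℝ) :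
    ConclNums where
  SX := ent S.rho X
  S1 := typS (ptr X S.rho) w
  ld := typLd (ptr X S.rho) w
  z := typZ (ptr X S.rho) w
  I1 := minfo S.rho X S0ᶜ

variable {A : Finset Λ} {T : Finset (ℤ × ℤ)}
    {s : Scales} {r0 : ℕ} {S : Sys Λ (AdmIx Λ R) (fun _ : Λ => Fin q)} {a0 ν τ Bs BB : ℝ}

theorem lat_W (hK : 0 < s.K) (d : (latGeom R A T s.n s.L s.m s.K s.D r0).Lab) :
    (scanData S (latGeom R A T s.n s.L s.m s.K s.D r0) d (latPar R q s r0 ν τ Bs BB)).W = s.W := by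
  have hK' : (s.K : ℝ) ≠ 0 := by positivity
  show s.a * (s.K : ℝ) = s.W
  unfold Scales.a
  field_simp

theorem lat_S' (d : (latGeom R A T s.n s.L s.m s.K s.D r0).Lab) :
    (scanData S (latGeom R A T s.n s.L s.m s.K s.D r0) d (latPar R q s r0 ν τ Bs BB)).S' =
      (latNums S (tplX A T) (tplS A T s.L) ((s.n : ℝ) ^ ((3 : ℝ) / 5))).S1 := by
  show typS (ptr (latGeom R A T s.n s.L s.m s.K s.D r0).X S.rho) _ = typS (ptr (tplX A T) S.rho) _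
  rw [latGeom_X]
  rfl

theorem lat_ld (d : (latGeom R A T s.n s.L s.m s.K s.D r0).Lab) :
    (scanData S (latGeom R A T s.n s.L s.m s.K s.D r0) d (latPar R q s r0 ν τ Bs BB)).ld =
      (latNums S (tplX A T) (tplS A T s.L) ((s.n : ℝ) ^ ((3 : ℝ) / 5))).ld := by
  show typLd (ptr (latGeom R A T s.n s.L s.m s.K s.D r0).X S.rho) _ = typLd (ptr (tplX A T) S.rho) _
  rw [latGeom_X]
  rfl

theorem lat_z (d : (latGeom R A T s.n s.L s.m s.K s.D r0).Lab) :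
    (scanData S (latGeom R A T s.n s.L s.m s.K s.D r0) d (latPar R q s r0 ν τ Bs BB)).z =
      (latNums S (tplX A T) (tplS A T s.L) ((s.n : ℝ) ^ ((3 : ℝ) / 5))).z := by
  show typZ (ptr (latGeom R A T s.n s.L s.m s.K s.D r0).X S.rho) _ = typZ (ptr (tplX A T) S.rho) _
  rw [latGeom_X]
  rfl

/-- the rough inequality of the lattice scan, with the constants of the abstract scanner -/
theorem lat_rough (hK : 0 < s.K)
    (hC : Compat S (latGeom R A T s.n s.L s.m s.K s.D r0) (latPar R q s r0 ν τ Bs BB) a0)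
    (d : (latGeom R A T s.n s.L s.m s.K s.D r0).Lab) {C0 c0 Cr : ℝ} (hCr : 1 ≤ Cr)
    (hR : ∀ ζ : ℝ, 0 < ζ → ∃ F Ed : MTree (latGeom R A T s.n s.L s.m s.K s.D r0).Lab → ℝ,
      (scanData S (latGeom R A T s.n s.L s.m s.K s.D r0) d (latPar R q s r0 ν τ Bs BB)).Out
        C0 c0 Cr a0 ζ F Ed) :
    RoughIneq s (latNums S (tplX A T) (tplS A T s.L) ((s.n : ℝ) ^ ((3 : ℝ) / 5))) Cr
      (Ebd S (latGeom R A T s.n s.L s.m s.K s.D r0) d (latPar R q s r0 ν τ Bs BB) Cr 0)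
      (Bs + 1) (scBexc q s r0) τ := by
  have h := scan_rough hC d hCr hR
  unfold Bud at h
  rw [lat_W hK, lat_S', lat_ld, lat_z] at h
  exact h

/-- the sharp inequality of the lattice scan, with the constants of the abstract scanner -/
theorem lat_sharp (hK : 0 < s.K)
    (hC : Compat S (latGeom R A T s.n s.L s.m s.K s.D r0) (latPar R q s r0 ν τ Bs BB) a0)
    (d : (latGeom R A T s.n s.L s.m s.K s.D r0).Lab) {C0 c0 Cr : ℝ} (hCr : 1 ≤ Cr)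
    (hR : ∀ ζ : ℝ, 0 < ζ → ∃ F Ed : MTree (latGeom R A T s.n s.L s.m s.K s.D r0).Lab → ℝ,
      (scanData S (latGeom R A T s.n s.L s.m s.K s.D r0) d (latPar R q s r0 ν τ Bs BB)).Out
        C0 c0 Cr a0 ζ F Ed)
    (hM : (scanData S (latGeom R A T s.n s.L s.m s.K s.D r0) d
      (latPar R q s r0 ν τ Bs BB)).MgfData C0 c0)
    (haB : s.a * Real.sqrt BB ≤ a0) {gmax : ℝ}
    (hg : 2 * ent S.rho (tplX A T) + 2 * (Bs + 1 + scBexc q s r0) ≤ gmax) :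
    SharpIneq s (latNums S (tplX A T) (tplS A T s.L) ((s.n : ℝ) ^ ((3 : ℝ) / 5))) Cr
      (Ebd S (latGeom R A T s.n s.L s.m s.K s.D r0) d (latPar R q s r0 ν τ Bs BB) Cr 0)
      gmax BB τ := by
  have hE : EntOK S.rho := entOK_pure S.Om hC.sys.unit
  have hFx : ∀ x ∈ (tplS A T s.L)ᶜ,
      (latGeom R A T s.n s.L s.m s.K s.D r0).dp x = (latGeom R A T s.n s.L s.m s.K s.D r0).L + 1 := by
    intro x hx
    exact (latDp_eq_succ_iff x).2 (by simpa using hx)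
  have h := scan_sharp hC d hE hCr hR hM haB (gmax := gmax) (fun l hl g => by
    have h1 := scan_gmax hC d hE hl g
    rw [latGeom_X] at h1
    exact h1.trans hg) hFx
  rw [lat_W hK, lat_S', lat_ld, lat_z, latGeom_X] at h
  unfold SharpIneq
  have e : ∀ x y : ℝ, s.W / 2 * (x - y) = s.W / 2 * x - s.W / 2 * y := fun x y => by ring
  rw [e] at h
  have h' := sub_le_iff_le_add.1 h
  exact h'

end

theorem scEbar_nonneg {s : Scales} {C : ℝ} (Cl : ℕ) (e ν : ℝ) (hC : 0 ≤ C) (ha : 0 ≤ s.a)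
    (_hW : 0 ≤ s.W) : 0 ≤ scEbar s C Cl e ν := by
  have hlog : 0 ≤ Real.log s.n := Real.log_natCast_nonneg _
  have hd : 0 ≤ scDelta s C Cl e ν := by
    unfold scDelta
    have h1 : 0 ≤ (s.n : ℝ) ^ ν := Real.rpow_nonneg (Nat.cast_nonneg _) _
    have h2 : 0 ≤ (s.n : ℝ) ^ (e - s.μ) := Real.rpow_nonneg (Nat.cast_nonneg _) _
    have h3 : 0 ≤ s.a ^ ((1 : ℝ) / 4) := Real.rpow_nonneg ha _
    positivity
  unfold scEbar
  have h1 : 0 ≤ (s.n : ℝ) ^ s.l := Real.rpow_nonneg (Nat.cast_nonneg _) _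
  have h2 : 0 ≤ (s.n : ℝ) ^ (-ν) := Real.rpow_nonneg (Nat.cast_nonneg _) _
  have h3 : 0 ≤ scDelta s C Cl e ν ^ ((1 : ℝ) / 8) := Real.rpow_nonneg hd _
  positivity

theorem num_w_le : ∃ nW : ℕ, ∀ n : ℕ, nW ≤ n → (n : ℝ) ^ ((3 : ℝ) / 5) + 3 ≤ n := by
  obtain ⟨n1, h1⟩ := num_absorb_const 2 (by norm_num : (3 : ℝ) / 5 < 1)
  obtain ⟨n2, h2⟩ := num_rpow_ge 3 (by norm_num : (0 : ℝ) < 3 / 5)
  refine ⟨n1 + n2, fun n hn => ?_⟩
  have a1 := h1 n (by omega)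
  have a2 := h2 n (by omega)
  rw [Real.rpow_one] at a1
  linarith

set_option maxHeartbeats 4000000 in
/-- **Section 8, first half**: the replica-free conclusion of the scanner -/
theorem scanConcl (hRep : ReplicaStmt) (q R : ℕ) [NeZero q] (hq : 2 ≤ q) (J Δ : ℝ) (hJ : 0 < J)
    (hΔ : 0 < Δ) : ScanConclStmt q R J Δ := by
  intro l μ κ ν ω e hE C0 Ce
  have hC0' : (0 : ℝ) < max C0 1 := lt_of_lt_of_le one_pos (le_max_right _ _)
  have hCe' : (0 : ℝ) ≤ max Ce 0 := le_max_right _ _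
  obtain ⟨g, C1, C2, hg, hC1, hC2, hsys⟩ := lat_sys q R J Δ hJ hΔ (max C0 1) hC0'
  have hC0m : 0 < 512 * Real.exp 1 / (g / 2) := by positivity
  have hc0m : 0 < 1 / (32 * Real.sqrt (1 + 1 / (g / 2))) := by positivity
  obtain ⟨Cr, a0, hCr, ha0, hrep⟩ := hRep _ _ hC0m hc0m
  have hmu : 1 ≤ muR R := Nat.one_le_two_pow
  obtain ⟨nA, hA⟩ := num_side hE hC1 hC2
  obtain ⟨nB, hB⟩ := num_small_a hE (muR R) q hC1 hC2 ha0
  obtain ⟨nG, hG⟩ := num_gamma hE (muR R) hmu hC1 hC2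
  obtain ⟨nP, hP⟩ := num_pbad hE hC1 hC2
  obtain ⟨nT, hT⟩ := num_tail hC1 hC2 hg
  obtain ⟨nF, hF⟩ := num_afw q hg hC0'
  obtain ⟨CE, ClE, nE, hEn⟩ := num_energy hE (muR R) q hmu hq hC1 hC2 hg hCr hCe'
  obtain ⟨CB, ClB, nBB, hBB⟩ := num_BB_le hE (muR R) q hC1 hC2
  obtain ⟨nW, hWn⟩ := num_w_le
  obtain ⟨C, hCdef⟩ : ∃ C : ℝ, C = max (max CE CB) Cr := ⟨_, rfl⟩
  obtain ⟨Cl, hCldef⟩ : ∃ Cl : ℕ, Cl = max ClE ClB := ⟨_, rfl⟩
  have hCE : CE ≤ C := by rw [hCdef]; exact (le_max_left _ _).trans (le_max_left _ _)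
  have hCB : CB ≤ C := by rw [hCdef]; exact (le_max_right _ _).trans (le_max_left _ _)
  have hCrC : Cr ≤ C := by rw [hCdef]; exact le_max_right _ _
  have hClE : ClE ≤ Cl := by rw [hCldef]; exact le_max_left _ _
  have hClB : ClB ≤ Cl := by rw [hCldef]; exact le_max_right _ _
  have hC1' : 1 ≤ C := hCr.trans hCrC
  obtain ⟨nS, hS⟩ : ∃ nS : ℕ, l + μ + ω + (1 + κ) / 2 < 1 → ∀ n : ℕ, nS ≤ n → ∀ W : ℝ, 1 ≤ W →
      W ≤ (n : ℝ) ^ ω → ∀ s : Scales, s = ⟨n, l, μ, κ, W⟩ →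
      s.a * Real.sqrt (C * n * s.D * Real.log n ^ Cl) ≤ a0 := by
    by_cases hs : l + μ + ω + (1 + κ) / 2 < 1
    · obtain ⟨n0, h0⟩ := num_sharp_small hE hs C Cl ha0
      exact ⟨n0, fun _ => h0⟩
    · exact ⟨0, fun h => absurd h hs⟩
  refine ⟨C, Cl, 2 + nA + nB + nG + nP + nT + nF + nE + nBB + nW + nS, hC1', ?_⟩
  intro Λ k hk E₀ Ω hΩ A T n W Bs hn hW1 hWω s hs hXne hcard hrow hcl hSX hshell hBs0 hBsle
  have hsn : s.n = n := by rw [hs]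
  have hsW : s.W = W := by rw [hs]
  have hn2 : 2 ≤ n := by omega
  have hnpos : (0 : ℝ) < n := by positivity
  have hn1R : (1 : ℝ) ≤ n := by exact_mod_cast (by omega : 1 ≤ n)
  have hlogq : 0 ≤ Real.log q := Real.log_natCast_nonneg q
  have hcard' : ((tplS A T s.L).card : ℝ) ≤ max C0 1 * (n : ℝ) ^ 2 :=
    hcard.trans (mul_le_mul_of_nonneg_right (le_max_left _ _) (by positivity))
  obtain ⟨hr0le, S, hSW, hSsup, hSgap, hSE0, hSE0', hSdist, hScut⟩ :=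
    hsys Λ k hk E₀ Ω hΩ n (tplS A T s.L) hn2 hcard' (scR0 C1 n) rfl
  obtain ⟨r0, hr0⟩ : ∃ r0 : ℕ, r0 = scR0 C1 n := ⟨_, rfl⟩
  rw [← hr0] at hr0le hSsup hScut
  have hR0 : R0OK C1 C2 n r0 := ⟨hr0, hr0le⟩
  obtain ⟨hSB, hr1, hm0, hfit, hsep, h2r, hmge, hmle, hLn⟩ := hA n (by omega) W r0 hR0 s hs
  have hK : 0 < s.K := hSB.K_pos
  have hcl' : ∀ x ∈ T, ∀ z ∈ cutEnds Λ A, (s.L : ℤ) < dInf x z := fun x hx z hz =>
    lt_of_le_of_lt (by omega) (hcl x hx z hz)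
  have hGW : (latGeom R A T s.n s.L s.m s.K s.D r0).WF := by
    rw [hsn]
    exact latGeom_ok R (by omega) hK hm0 hfit hsep h2r hrow hcl'
  obtain ⟨ha_pos, ha_le, ha_ell⟩ := hB n (by omega) W r0 hW1 hWω hR0 s hs
  have hγ := hG n (by omega) W r0 hR0 s hs
  obtain ⟨hPb0, hPb⟩ := hP n (by omega) W r0 hR0 s hs
  obtain ⟨hη1, hη2⟩ := hF n (by omega)
  obtain ⟨hBBle, hBexcle, hCn⟩ := hBB C Cl hCB hClB n (by omega) W r0 hR0 s hs
  have hwn := hWn n (by omega)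
  -- small numbers
  have h200 : ((n : ℝ) ^ 200)⁻¹ ≤ 1 := inv_le_one_of_one_le₀ (one_le_pow₀ hn1R)
  have h100 : ((n : ℝ) ^ 100)⁻¹ ≤ 1 / 2 := by
    rw [inv_eq_one_div]
    apply one_div_le_one_div_of_le (by norm_num)
    have h2 : (2 : ℝ) ≤ n := by exact_mod_cast hn2
    calc (2 : ℝ) ≤ n := h2
      _ = (n : ℝ) ^ 1 := (pow_one _).symm
      _ ≤ (n : ℝ) ^ 100 := pow_le_pow_right₀ hn1R (by norm_num)
  -- transfer of entropies
  have hηpos : 0 ≤ (4 * ((n : ℝ) ^ 1000)⁻¹ / g) ^ ((1 : ℝ) / 4) :=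
    Real.rpow_nonneg (by positivity) _
  have hBcard : ∀ B : Finset Λ, B ⊆ tplS A T s.L →
      1 + (B.card : ℝ) * Real.log q ≤ 1 + max C0 1 * (n : ℝ) ^ 2 * Real.log q := by
    intro B hB
    have : (B.card : ℝ) ≤ max C0 1 * (n : ℝ) ^ 2 :=
      le_trans (by exact_mod_cast Finset.card_le_card hB) hcard'
    have := mul_le_mul_of_nonneg_right this hlogq
    linarith
  have htr : ∀ B : Finset Λ, B ⊆ tplS A T s.L →
      |ent S.rho B - ent (io := fun _ : Λ => Fin q) (pureOp Ω) B| ≤ ((n : ℝ) ^ 200)⁻¹ := by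
    intro B hB
    refine (lat_ent_transfer hΩ.1 hSW.unit hSdist hη1 B).trans (le_trans ?_ hη2)
    have h1 := hBcard B hB
    have h0 : 0 ≤ 1 + (B.card : ℝ) * Real.log q := by positivity
    have a1 := mul_le_mul_of_nonneg_left h1
      (by positivity : 0 ≤ 2 * (4 * ((n : ℝ) ^ 1000)⁻¹ / g) ^ ((1 : ℝ) / 4))
    have a2 : 0 ≤ 2 * (4 * ((n : ℝ) ^ 1000)⁻¹ / g) ^ ((1 : ℝ) / 4) *
        (1 + max C0 1 * (n : ℝ) ^ 2 * Real.log q) :=
      mul_nonneg (by positivity) (h0.trans h1)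
    linarith only [a1, a2]
  have hXS0 : tplX A T ⊆ tplS A T s.L := by
    rw [← tplS_zero]; exact tplS_mono (Nat.zero_le _)
  have htrI : |minfo S.rho (tplX A T) (tplS A T s.L)ᶜ -
      minfo (io := fun _ : Λ => Fin q) (pureOp Ω) (tplX A T) (tplS A T s.L)ᶜ| ≤
      ((n : ℝ) ^ 200)⁻¹ := by
    refine (lat_minfo_transfer hΩ.1 hSW.unit hSdist hη1 _ _).trans (le_trans ?_ hη2)
    have h1 := hBcard _ hXS0
    exact mul_le_mul_of_nonneg_left h1 (by positivity)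
  -- the typical set
  have hL1 : 1 ≤ s.L := by have := hSB.L_two; omega
  have hedge : edgeBoundary Λ (tplX A T) ≤ 4 * n :=
    edgeBoundary_tplX_le hL1 (hrow 1 le_rfl hL1) hcl'
  have hBX : tlCutParam (fun _ : Λ => Fin q) S.sup (tplX A T) ≤
      C2 * (1 + 4 * (n : ℝ)) * ((r0 : ℝ) + 1) ^ 6 := by
    refine (hScut _ hXS0).trans ?_
    have : (edgeBoundary Λ (tplX A T) : ℝ) ≤ 4 * (n : ℝ) := by exact_mod_cast hedge
    gcongr
  have hz1 : 1 - ((n : ℝ) ^ 100)⁻¹ ≤ typZ (ptr (tplX A T) S.rho) ((n : ℝ) ^ ((3 : ℝ) / 5)) := by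
    have h1 := scan_typ hSW (tplX A T) hBX ((n : ℝ) ^ ((3 : ℝ) / 5))
    rw [hSgap] at h1
    have h2 := hT n (by omega) r0 hR0
    linarith
  have hzpos : 0 < typZ (ptr (tplX A T) S.rho) ((n : ℝ) ^ ((3 : ℝ) / 5)) := by linarith
  have hzhalf : 1 / 2 ≤ typZ (ptr (tplX A T) S.rho) ((n : ℝ) ^ ((3 : ℝ) / 5)) := by linarith
  have hEnt : EntOK S.rho := entOK_pure S.Om hSW.unit
  have hdens : IsDensity (ptr (tplX A T) S.rho) := tl_ptr_pure_isDensity hSW.unit _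
  have hzle : typZ (ptr (tplX A T) S.rho) ((n : ℝ) ^ ((3 : ℝ) / 5)) ≤ 1 := typZ_le_one _ hdens _
  have hld := abs_typLd_sub_le (ptr (tplX A T) S.rho) hzpos
  have hS1 := abs_typS_sub_le (ptr (tplX A T) S.rho) hzpos
  have hSX0 : 0 ≤ ent S.rho (tplX A T) := hEnt.nonneg _
  have hSXle : ent S.rho (tplX A T) ≤ max Ce 0 * (n : ℝ) ^ (1 + e) + ((n : ℝ) ^ 200)⁻¹ := by
    have h1 := (abs_le.1 (htr _ hXS0)).2
    have h2 : Ce * (n : ℝ) ^ (1 + e) ≤ max Ce 0 * (n : ℝ) ^ (1 + e) :=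
      mul_le_mul_of_nonneg_right (le_max_left _ _) (Real.rpow_nonneg hnpos.le _)
    linarith
  have hlogz : |Real.log (typZ (ptr (tplX A T) S.rho) ((n : ℝ) ^ ((3 : ℝ) / 5)))| ≤
      2 * ((n : ℝ) ^ 100)⁻¹ := num_abs_log_le h100 hz1 hzle
  have hldle : typLd (ptr (tplX A T) S.rho) ((n : ℝ) ^ ((3 : ℝ) / 5)) ≤
      max Ce 0 * (n : ℝ) ^ (1 + e) + n := by
    have h1 := (abs_le.1 hld).2
    have h2 : vnEnt (ptr (tplX A T) S.rho) = ent S.rho (tplX A T) := rfl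
    rw [h2] at h1
    linarith
  have hBsh : ∀ j, j ≤ s.L → ent S.rho (tplS A T j \ tplX A T) ≤ Bs + 1 := by
    intro j hj
    have h1 := (abs_le.1 (htr (tplS A T j \ tplX A T)
      (Finset.sdiff_subset.trans (tplS_mono hj)))).2
    have h2 := hshell j hj
    linarith
  have hBs1 : Bs + 1 ≤ max Ce 0 * (n : ℝ) ^ (1 + e) + 1 := by
    have h2 : Ce * (n : ℝ) ^ (1 + e) ≤ max Ce 0 * (n : ℝ) ^ (1 + e) :=
      mul_le_mul_of_nonneg_right (le_max_left _ _) (Real.rpow_nonneg hnpos.le _)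
    linarith
  have hW0 : 0 ≤ s.W := by rw [hsW]; linarith
  have hEbar0 : 0 ≤ scEbar s C Cl e ν := scEbar_nonneg Cl e ν (by linarith) ha_pos.le hW0
  have hzpos' : 0 < typZ (ptr (tplX A T) S.rho) ((s.n : ℝ) ^ ((3 : ℝ) / 5)) := by rw [hsn]; exact hzpos
  have hγ' : (scV0 (muR R) r0 : ℝ) ^ 2 * Real.exp (2 * (1 / (r0 : ℝ)) * r0) /
      (2 * (scMn (muR R) s r0 : ℝ)) ≤ 1 / (r0 : ℝ) / (4 * (s.n : ℝ)) := by rw [hsn]; exact hγ
  -- compatibility, for every `τ`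
  have hCmp : ∀ τ : ℝ, 0 < τ → τ < 1 / 2 →
      Compat S (latGeom R A T s.n s.L s.m s.K s.D r0)
        (latPar R q s r0 ν τ Bs (C * n * s.D * Real.log n ^ Cl)) a0 := fun τ hτ0 hτ1 =>
    lat_compat hSW hSsup hGW hBsh hzpos' ⟨ha_pos, ha_le, ha_ell⟩ hτ0 hτ1 (by rw [hsn]; omega)
      hE.ν_pos hr1 hγ'
  let d : (latGeom R A T s.n s.L s.m s.K s.D r0).Lab := ⟨fun _ => ⟨0, hm0⟩, [], false⟩
  have hRr : ∀ τ : ℝ, ∀ (hτ0 : 0 < τ) (hτ1 : τ < 1 / 2), ∀ ζ : ℝ, 0 < ζ →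
      ∃ F Ed : MTree (latGeom R A T s.n s.L s.m s.K s.D r0).Lab → ℝ,
      (scanData S (latGeom R A T s.n s.L s.m s.K s.D r0) d
        (latPar R q s r0 ν τ Bs (C * n * s.D * Real.log n ^ Cl))).Out
        (512 * Real.exp 1 / (g / 2)) (1 / (32 * Real.sqrt (1 + 1 / (g / 2)))) Cr a0 ζ F Ed :=
    fun τ hτ0 hτ1 ζ hζ => hrep Λ (AdmIx Λ R) _ (fun _ : Λ => Fin q) _
      (scanData_wf (hCmp τ hτ0 hτ1) d) ζ hζ
  have hEbd : ∀ τ : ℝ, Ebd S (latGeom R A T s.n s.L s.m s.K s.D r0) d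
      (latPar R q s r0 ν τ Bs (C * n * s.D * Real.log n ^ Cl)) Cr 0 ≤ scEbar s C Cl e ν := by
    intro τ
    rw [Ebd_eq, Bud_eq, lat_W hK, lat_ld, lat_z, hSgap]
    have h := hEn C Cl hCE hClE n (by omega) W r0 hW1 hWω hR0 s hs S.E0
      (typLd (ptr (tplX A T) S.rho) ((n : ℝ) ^ ((3 : ℝ) / 5)))
      (typZ (ptr (tplX A T) S.rho) ((n : ℝ) ^ ((3 : ℝ) / 5))) (Bs + 1) (scPbad s r0)
      hSE0 hSE0' hzhalf hzle (typLd_nonneg _ _) hldle (by linarith) hBs1 hPb0 hPb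
    subst hs
    exact h
  refine ⟨latNums S (tplX A T) (tplS A T s.L) ((s.n : ℝ) ^ ((3 : ℝ) / 5)), ?_, ?_, ?_, ?_, ?_, ?_,
    ?_, ?_⟩
  · exact htr _ hXS0
  · exact htrI
  · show 1 - ((n : ℝ) ^ 100)⁻¹ ≤ typZ (ptr (tplX A T) S.rho) ((s.n : ℝ) ^ ((3 : ℝ) / 5))
    rw [hsn]; exact hz1
  · show typZ (ptr (tplX A T) S.rho) ((s.n : ℝ) ^ ((3 : ℝ) / 5)) ≤ 1
    rw [hsn]; exact hzle
  · show |typLd (ptr (tplX A T) S.rho) ((s.n : ℝ) ^ ((3 : ℝ) / 5)) - ent S.rho (tplX A T)| ≤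
      (n : ℝ) ^ ((3 : ℝ) / 5) + |Real.log (typZ (ptr (tplX A T) S.rho) ((s.n : ℝ) ^ ((3 : ℝ) / 5)))|
    rw [hsn]; exact hld
  · show |typS (ptr (tplX A T) S.rho) ((s.n : ℝ) ^ ((3 : ℝ) / 5)) - ent S.rho (tplX A T)| ≤
      (n : ℝ) ^ ((3 : ℝ) / 5) + |Real.log (typZ (ptr (tplX A T) S.rho) ((s.n : ℝ) ^ ((3 : ℝ) / 5)))|
    rw [hsn]; exact hS1
  · intro τ hτ0 hτ1
    have h1 := lat_rough hK (hCmp τ hτ0 hτ1) d hCr (hRr τ hτ0 hτ1)
    exact rough_mono hW0 ha_pos hτ0 hτ1 (by linarith) hCrC (hEbd τ) hEbar0 (by linarith) hBexcle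
      hzpos' (typLd_nonneg _ _) (typS_nonneg _ _) h1
  · intro hexp τ hτ0 hτ1
    have hCm := hCmp τ hτ0 hτ1
    have hBB0 : 0 ≤ C * n * s.D * Real.log n ^ Cl := by
      have : 0 ≤ Real.log n := Real.log_natCast_nonneg n
      positivity
    have hM : (scanData S (latGeom R A T s.n s.L s.m s.K s.D r0) d
        (latPar R q s r0 ν τ Bs (C * n * s.D * Real.log n ^ Cl))).MgfData
        (512 * Real.exp 1 / (g / 2)) (1 / (32 * Real.sqrt (1 + 1 / (g / 2)))) := by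
      refine scan_mgf hCm d ?_ (by rw [hSgap]) hc0m ?_
      · rw [latGeom_X]
        refine le_trans ?_ hBBle
        have : scBB (muR R) q C2 s r0 = 6 * (scMn (muR R) s r0 : ℝ) * scEll (muR R) q r0 ^ 2 +
          C2 * (1 + 4 * (s.n : ℝ)) * ((r0 : ℝ) + 1) ^ 6 := rfl
        rw [this]
        refine add_le_add (le_refl _) ?_
        rw [hsn]; exact hBX
      · rw [hSgap]
        have : (0 : ℝ) < 32 * Real.sqrt (1 + 1 / (g / 2)) := by positivity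
        rw [div_mul_cancel₀ _ this.ne']
    have haB := hS hexp n (by omega) W hW1 hWω s hs
    have h1 := lat_sharp (gmax := 2 * ent S.rho (tplX A T) + 2 * (Bs + C * n + C * n * s.D)) hK hCm d
      hCr (hRr τ hτ0 hτ1) hM haB (by linarith)
    refine sharp_mono hW0 ha_pos hτ0 hτ1 (by linarith) hCrC (hEbd τ) hEbar0 hBB0
      (typLd_nonneg _ _) ?_ h1
    have h2 : 0 ≤ typS (ptr (tplX A T) S.rho) ((s.n : ℝ) ^ ((3 : ℝ) / 5)) := typS_nonneg _ _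
    have h3 : 0 ≤ C * n * s.D := by positivity
    have h4 : 0 ≤ C * n := by positivity
    show 0 ≤ typS (ptr (tplX A T) S.rho) ((s.n : ℝ) ^ ((3 : ℝ) / 5)) +
      (2 * ent S.rho (tplX A T) + 2 * (Bs + C * n + C * n * s.D))
    linarith

end Claimed.Agent.R296.Scan
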