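import Claimed.Agent.R296.Scan.Defs

/-!
# Row 296, P1 Section 8: a scan geometry from depth, anchors and balls (package S8-G0)

The row slots and the look-ahead lists are the canonical enumerations (`Finset.toList`), so that
well-formedness reduces to cardinality bounds.
-/

set_option autoImplicit false

namespace Claimed.Agent.R296.Scan.Geom

open Finset

variable {Λ ι : Type} [DecidableEq Λ] [Fintype Λ] [Fintype ι]

/-- the scan geometry with canonical enumerations -/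
noncomputable def ofData (n L m K D r0 Mn V0 : ℕ) (dp : Λ → ℕ) (anc : ι → Λ)
    (ball : ι → Finset Λ) : Geom Λ ι where
  n := n
  L := L
  m := m
  K := K
  D := D
  r0 := r0
  Mn := Mn
  V0 := V0
  dp := dp
  anc := anc
  ball := ball
  slot j c := ((univ.filter fun x => dp x = j).toList)[c]?
  lst lo a := ((univ.filter fun i => lo ≤ dp (anc i) ∧ dp (anc i) ≤ lo + D + r0).toList)[a]?

/-- what has to be checked for `ofData` -/
structure DataOK (n L m K D r0 Mn V0 : ℕ) (dp : Λ → ℕ) (anc : ι → Λ) (ball : ι → Finset Λ) :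
    Prop where
  n_pos : 0 < n
  K_pos : 0 < K
  m_pos : 0 < m
  Mn_pos : 0 < Mn
  fits : 8 * m * K ≤ L
  sep : 100 * (D + r0 + 1) ≤ m
  r0_le : 2 * r0 ≤ D
  dp_le : ∀ x, dp x ≤ L + 1
  anc_mem : ∀ i, anc i ∈ ball i
  ball_dp : ∀ i, ∀ x ∈ ball i, dp x ≤ dp (anc i) + r0 ∧ dp (anc i) ≤ dp x + r0
  row_card : ∀ j, 1 ≤ j → j ≤ L → (univ.filter fun x => dp x = j).card ≤ n
  lst_card : ∀ lo, 1 ≤ lo → lo + D + r0 ≤ L →
    (univ.filter fun i => lo ≤ dp (anc i) ∧ dp (anc i) ≤ lo + D + r0).card ≤ Mn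
  ball_card : ∀ i, dp (anc i) ≤ L → (ball i).card ≤ V0
  ball_deg : ∀ x, (univ.filter fun i => dp (anc i) ≤ L ∧ x ∈ ball i).card ≤ V0
  win_card : ∀ lo, 1 ≤ lo → lo + D + 3 * r0 ≤ L →
    (univ.filter fun i => lo ≤ dp (anc i) ∧ dp (anc i) ≤ lo + D + 3 * r0).card ≤ 3 * Mn

theorem ofData_wf {n L m K D r0 Mn V0 : ℕ} {dp : Λ → ℕ} {anc : ι → Λ} {ball : ι → Finset Λ}
    (h : DataOK n L m K D r0 Mn V0 dp anc ball) : (ofData n L m K D r0 Mn V0 dp anc ball).WF := by
  refine ⟨h.n_pos, h.K_pos, h.m_pos, h.Mn_pos, h.fits, h.sep, h.r0_le, h.dp_le, h.anc_mem,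
    h.ball_dp, ?_, ?_, ?_, ?_, ?_, h.ball_card, h.ball_deg, h.win_card⟩
  · intro j c x hx
    have h1 : x ∈ (univ.filter fun x => dp x = j).toList := List.mem_of_getElem? hx
    rw [mem_toList, mem_filter] at h1
    exact h1.2
  · intro j x h1 hj hx
    have h2 : x ∈ (univ.filter fun x => dp x = j).toList := by
      rw [mem_toList, mem_filter]
      exact ⟨mem_univ _, hx⟩
    obtain ⟨c, hc⟩ := List.mem_iff_getElem?.mp h2
    obtain ⟨hlt, _⟩ := List.getElem?_eq_some_iff.mp hc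
    rw [length_toList] at hlt
    exact ⟨c, hlt.trans_le (h.row_card j h1 hj), hc⟩
  · intro lo a i hi
    have h1 : i ∈ (univ.filter fun i => lo ≤ dp (anc i) ∧ dp (anc i) ≤ lo + D + r0).toList :=
      List.mem_of_getElem? hi
    rw [mem_toList, mem_filter] at h1
    exact h1.2
  · intro lo i h1 hlo ha hb
    have h2 : i ∈ (univ.filter fun i => lo ≤ dp (anc i) ∧ dp (anc i) ≤ lo + D + r0).toList := by
      rw [mem_toList, mem_filter]
      exact ⟨mem_univ _, ha, hb⟩
    obtain ⟨c, hc⟩ := List.mem_iff_getElem?.mp h2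
    obtain ⟨hlt, _⟩ := List.getElem?_eq_some_iff.mp hc
    rw [length_toList] at hlt
    exact ⟨c, hlt.trans_le (h.lst_card lo h1 hlo), hc⟩
  · intro lo a b i ha hb
    have ha' : ((univ.filter fun i => lo ≤ dp (anc i) ∧ dp (anc i) ≤ lo + D + r0).toList)[a]?
      = some i := ha
    have hb' : ((univ.filter fun i => lo ≤ dp (anc i) ∧ dp (anc i) ≤ lo + D + r0).toList)[b]?
      = some i := hb
    obtain ⟨hlt, _⟩ := List.getElem?_eq_some_iff.mp ha'
    exact (List.getElem?_inj hlt (nodup_toList _)).mp (ha'.trans hb'.symm)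

end Claimed.Agent.R296.Scan.Geom
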