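import Claimed.Agent.R296.Scan.SmallBox

/-!
# Row 296, paper 1, Proposition 8.6 (a sublinear collar bound)

`col_collar` : `CollarStmt` from the replica-free conclusion of the scanner (sharp comparison,
`W = n^ω`), the safe-box estimate with exponent `1 + e_*` and the geometry of rectangular
templates.  Prefix `col_`.
-/

set_option autoImplicit false

namespace Claimed.Agent.R296.Scan

open Matrix Claims.C0473 Finset

/-- final arithmetic of Proposition 8.6: the six error terms -/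
theorem col_final {n : ℕ} (hn : 1 ≤ n)
    {l μ e ν ω C G SX w gmax τ EbT inva aBB lam W I1 : ℝ}
    (hexp1 : e + l ≤ ν / 4) (hexp2 : e + l ≤ ω) (hl : 0 ≤ l) (hl25 : l ≤ 2 / 5) (hμ : 0 ≤ μ)
    (he : 0 ≤ e) (hC : 1 ≤ C) (hG : 1 ≤ G)
    (hτ : τ = (n : ℝ) ^ (-(ν / 4))) (hW : W = (n : ℝ) ^ ω)
    (hSX : SX ≤ G * (n : ℝ) ^ (1 + e)) (hw : w ≤ 2 * (n : ℝ) ^ ((3 : ℝ) / 5))
    (hg : gmax ≤ G * (n : ℝ) ^ (1 + e)) (hEbT0 : 0 ≤ EbT) (hEbT : EbT ≤ τ)
    (hinva0 : 0 ≤ inva) (hinva : inva ≤ (n : ℝ) ^ (1 - l - μ) / 4)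
    (haBB : aBB ≤ (n : ℝ) ^ (1 - l)) (hlam0 : 0 ≤ lam) (hlam : lam ≤ 1)
    (h : 2 * I1 ≤ 2 * w + τ * gmax + C * (τ * (SX + w) + inva + aBB) +
      C * EbT * (SX + w + gmax) + (4 * (SX + w) + 2 * lam) / W + C * (aBB + lam * inva)) :
    I1 ≤ 15 * C * G * (n : ℝ) ^ (1 - l) := by
  have hn1 : (1 : ℝ) ≤ (n : ℝ) := by exact_mod_cast hn
  have hn0 : (0 : ℝ) < (n : ℝ) := by linarith
  set A : ℝ := (n : ℝ) ^ (1 - l) with hA
  set M1 : ℝ := (n : ℝ) ^ (1 + e) with hM1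
  have hA1 : 1 ≤ A := Real.one_le_rpow hn1 (by linarith)
  have hM11 : 1 ≤ M1 := Real.one_le_rpow hn1 (by linarith)
  have f1 : (n : ℝ) ^ ((3 : ℝ) / 5) ≤ A := Real.rpow_le_rpow_of_exponent_le hn1 (by linarith)
  have f1' : (n : ℝ) ^ ((3 : ℝ) / 5) ≤ M1 := Real.rpow_le_rpow_of_exponent_le hn1 (by linarith)
  have hτ0 : 0 < τ := by rw [hτ]; exact Real.rpow_pos_of_pos hn0 _
  have hW0 : 0 < W := by rw [hW]; exact Real.rpow_pos_of_pos hn0 _
  have f2 : τ * M1 ≤ A := by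
    rw [hτ, hM1, ← Real.rpow_add hn0]
    exact Real.rpow_le_rpow_of_exponent_le hn1 (by linarith)
  have f3 : M1 / W ≤ A := by
    rw [hW, hM1, ← Real.rpow_sub hn0]
    exact Real.rpow_le_rpow_of_exponent_le hn1 (by linarith)
  have f4 : (n : ℝ) ^ (1 - l - μ) ≤ A := Real.rpow_le_rpow_of_exponent_le hn1 (by linarith)
  have hC0 : 0 ≤ C := by linarith
  have hG0 : 0 ≤ G := by linarith
  have hGM : 0 ≤ G * M1 := by positivity
  have hM1G : M1 ≤ G * M1 := le_mul_of_one_le_left (by linarith) hG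
  -- sums of the entropic quantities
  have s1 : SX + w ≤ 3 * (G * M1) := by linarith
  have s2 : SX + w + gmax ≤ 4 * (G * M1) := by linarith
  -- the terms
  have t2 : τ * gmax ≤ G * A := by
    calc τ * gmax ≤ τ * (G * M1) := mul_le_mul_of_nonneg_left hg hτ0.le
      _ = G * (τ * M1) := by ring
      _ ≤ G * A := mul_le_mul_of_nonneg_left f2 hG0
  have t3 : τ * (SX + w) ≤ 3 * (G * A) := by
    calc τ * (SX + w) ≤ τ * (3 * (G * M1)) := mul_le_mul_of_nonneg_left s1 hτ0.le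
      _ = 3 * (G * (τ * M1)) := by ring
      _ ≤ 3 * (G * A) := by
        have := mul_le_mul_of_nonneg_left f2 hG0
        linarith
  have t345 : C * (τ * (SX + w) + inva + aBB) ≤ C * (3 * (G * A) + A / 4 + A) :=
    mul_le_mul_of_nonneg_left (by linarith) hC0
  have t6 : C * EbT * (SX + w + gmax) ≤ C * (4 * (G * A)) := by
    have h1 : EbT * (SX + w + gmax) ≤ EbT * (4 * (G * M1)) :=
      mul_le_mul_of_nonneg_left s2 hEbT0
    have h2 : EbT * (4 * (G * M1)) ≤ τ * (4 * (G * M1)) :=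
      mul_le_mul_of_nonneg_right hEbT (by positivity)
    have h3 : τ * (4 * (G * M1)) = 4 * (G * (τ * M1)) := by ring
    have h4 : G * (τ * M1) ≤ G * A := mul_le_mul_of_nonneg_left f2 hG0
    calc C * EbT * (SX + w + gmax) = C * (EbT * (SX + w + gmax)) := by ring
      _ ≤ C * (4 * (G * A)) := mul_le_mul_of_nonneg_left (by linarith) hC0
  have t7 : (4 * (SX + w) + 2 * lam) / W ≤ 14 * (G * A) := by
    have h1 : 4 * (SX + w) + 2 * lam ≤ 14 * (G * M1) := by linarith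
    calc (4 * (SX + w) + 2 * lam) / W ≤ 14 * (G * M1) / W :=
          div_le_div_of_nonneg_right h1 hW0.le
      _ = 14 * (G * (M1 / W)) := by ring
      _ ≤ 14 * (G * A) := by
        have := mul_le_mul_of_nonneg_left f3 hG0
        linarith
  have t8 : C * (aBB + lam * inva) ≤ C * (A + A / 4) := by
    have h1 : lam * inva ≤ 1 * inva := mul_le_mul_of_nonneg_right hlam hinva0
    exact mul_le_mul_of_nonneg_left (by linarith) hC0
  have hA0 : 0 ≤ A := by linarith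
  have u1 : A ≤ C * G * A := by
    have : 1 ≤ C * G := by nlinarith
    exact le_mul_of_one_le_left hA0 this
  have u2 : G * A ≤ C * G * A := by
    have : G * A ≤ C * (G * A) := le_mul_of_one_le_left (by positivity) hC
    linarith
  have u3 : C * A ≤ C * G * A := by
    have : C * A ≤ G * (C * A) := le_mul_of_one_le_left (by positivity) hG
    linarith
  have e1 : C * (3 * (G * A) + A / 4 + A) = 3 * (C * G * A) + 5 / 4 * (C * A) := by ring
  have e2 : C * (4 * (G * A)) = 4 * (C * G * A) := by ring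
  have e3 : C * (A + A / 4) = 5 / 4 * (C * A) := by ring
  have e4 : 15 * C * G * A = 15 * (C * G * A) := by ring
  rw [e4]
  linarith

/-- the exponents of Proposition 8.6 -/
theorem col_expOK :
    ExpOK expEll (1 / 4) (1 / 1000000) (1 / 1000) (1 / 20000) expEstar := by
  unfold expEll expEstar
  refine ⟨?_, ?_, ?_, ?_, ?_, ?_, ?_, ?_, ?_⟩ <;> norm_num

/-- **Proposition 8.6 of paper 1** (sublinear collar bound) from the replica-free conclusion of the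
scanner and the improved safe-box estimate. -/
theorem col_collar (hEnt : EntApiStmt) {q R : ℕ} [NeZero q] {J Δ : ℝ} {D0 : ℕ} (hD0 : 2 ≤ D0)
    (hScan : ScanConclStmt q R J Δ) (hbox : BoxStmt q R J Δ D0 expEstar) {Ctpl : ℕ}
    (hCt : 12 ≤ Ctpl) : CollarStmt q R J Δ Ctpl D0 := by
  classical
  obtain ⟨Cb0, hCb0⟩ := hbox
  set Cb : ℝ := max Cb0 0 with hCbdef
  have hCb : 0 ≤ Cb := le_max_right _ _
  have hExp := col_expOK
  have hlv : expEll = 1 / 100000 := rfl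
  have hev : expEstar = 2 / 1000000 := rfl
  set l : ℝ := expEll with hl
  set e : ℝ := expEstar with he
  set μ : ℝ := 1 / 4 with hμ
  set κ : ℝ := 1 / 1000000 with hκ
  set ν : ℝ := 1 / 1000 with hν
  set ω : ℝ := 1 / 20000 with hω
  have hlpos : 0 < l := hExp.l_pos
  have hepos : 0 < e := hExp.e_pos
  have hμ0 : 0 < μ := by rw [hμ]; norm_num
  have hμl : μ < 1 - l := by rw [hμ, hlv]; norm_num
  obtain ⟨C, Cl, n0, hC1, hmain⟩ := hScan l μ κ ν ω e hExp 1 (2 * Cb)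
  obtain ⟨n1, hn1⟩ := num_scaleBds hlpos hExp.κ_pos hμ0 hμl
  obtain ⟨n2, hn2⟩ := num_Ebar_le hExp (by rw [hν]; norm_num) (by rw [hν, hev, hμ]; norm_num)
    (by rw [hν, hω, hlv, hμ]; norm_num) (by rw [hν, hω, hlv, hκ]; norm_num) C hC1 Cl
  obtain ⟨n3, hn3⟩ := num_small 1 (α := ν / 4) (c := 1 / 4) (by rw [hν]; norm_num) (by norm_num)
  obtain ⟨n4, hn4⟩ := num_absorb (64 * C) Cl (α := ω + l + μ + κ) (β := 1 - l)
    (by rw [hω, hlv, hμ, hκ]; norm_num)
  set N : ℕ := max (max (max n0 n1) (max n2 n3)) (max n4 2) with hN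
  set G : ℝ := 6 * Cb + 6 * C + 4 with hG
  have hG1 : 1 ≤ G := by rw [hG]; linarith
  set Cfin : ℝ := max (15 * C * G + 1) 8 with hCfin
  have hCfin8 : 8 ≤ Cfin := le_max_right _ _
  have hCfin0 : 0 ≤ Cfin := by linarith
  refine ⟨Cfin, N, fun Λ k hk E₀ Ω hGS A T n s0 hnN hT hclear hLs0 => ?_⟩
  have hΩ := hGS.1
  have hσ : BxSub (ambEnt Ω A) := te_bxSub hEnt hΩ A
  have hn0 : n0 ≤ n := by omega
  have hn1' : n1 ≤ n := by omega
  have hn2' : n2 ≤ n := by omega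
  have hn3' : n3 ≤ n := by omega
  have hn4' : n4 ≤ n := by omega
  have hn2le : 2 ≤ n := by omega
  have hn1R : (1 : ℝ) ≤ (n : ℝ) := by exact_mod_cast (by omega : 1 ≤ n)
  have hnpos : (0 : ℝ) < (n : ℝ) := by linarith
  set W : ℝ := (n : ℝ) ^ ω with hW
  have hW1 : 1 ≤ W := Real.one_le_rpow hn1R hExp.ω_nonneg
  set s : Scales := ⟨n, l, μ, κ, W⟩ with hsdef
  have hSB : ScaleBds s := hn1 n hn1' W
  have hLeq : ⌊(n : ℝ) ^ (1 - l)⌋₊ = s.L := rfl
  rw [hLeq] at hLs0 ⊢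
  have hs02 : 2 ≤ s0 := le_trans hSB.L_two hLs0
  have hclear3 := tpl_clear_of_template (L := s.L) (by omega : 1 ≤ D0) hLs0 hclear
  obtain ⟨g1, g2, g3, g4, g5⟩ := tpl_collar_geo (A := A) hCt hT hclear3 hLs0
  have hA1 : 1 ≤ (n : ℝ) ^ (1 - l) := Real.one_le_rpow hn1R (by linarith)
  have hgeo : ((tplS A T s.L).card : ℝ) ≤ Cfin * (n : ℝ) ^ 2 ∧
      (edgeBoundary Λ (tplX A T) : ℝ) ≤ Cfin * n ∧
      (edgeBoundary Λ (tplS A T s.L \ tplX A T) : ℝ) ≤ Cfin * n ∧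
      (edgeBoundary Λ (tplS A T s.L) : ℝ) ≤ Cfin * n := by
    have g1' : ((tplS A T s.L).card : ℝ) ≤ (n : ℝ) ^ 2 := by exact_mod_cast g1
    have g3' : (edgeBoundary Λ (tplX A T) : ℝ) ≤ 4 * (n : ℝ) := by exact_mod_cast g3
    have g4' : (edgeBoundary Λ (tplS A T s.L \ tplX A T) : ℝ) ≤ 8 * (n : ℝ) := by
      exact_mod_cast g4
    have g5' : (edgeBoundary Λ (tplS A T s.L) : ℝ) ≤ 4 * (n : ℝ) := by exact_mod_cast g5
    have h8 : 8 * (n : ℝ) ≤ Cfin * n := mul_le_mul_of_nonneg_right hCfin8 hnpos.le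
    have h1 : (n : ℝ) ^ 2 ≤ Cfin * (n : ℝ) ^ 2 :=
      le_mul_of_one_le_left (by positivity) (by linarith)
    exact ⟨g1'.trans h1, by linarith, by linarith, by linarith⟩
  refine ⟨?_, hgeo⟩
  by_cases hne : (tplX A T).Nonempty
  swap
  · have h2 : tplX A T = ∅ := Finset.not_nonempty_iff_eq_empty.mp hne
    rw [h2, te_minfo_empty hEnt hΩ]
    positivity
  have hboxσ : BoxHyp (ambEnt Ω A) D0 (cutEnds Λ A) e Cb := by
    intro Q' hs' h1'
    have h2 := hCb0 Λ k hk E₀ Ω hGS A Q' hs' h1'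
    have h3 : (0 : ℝ) ≤ (Q'.size : ℝ) ^ (1 + e) := by
      have : (0 : ℝ) ≤ (Q'.size : ℝ) := by
        have : (0 : ℤ) ≤ Q'.size := by linarith
        exact_mod_cast this
      positivity
    exact h2.trans (mul_le_mul_of_nonneg_right (le_max_left _ _) h3)
  set M1 : ℝ := (n : ℝ) ^ (1 + e) with hM1
  have hM11 : 1 ≤ M1 := Real.one_le_rpow hn1R (by linarith)
  have hdil : ∀ j, j ≤ s0 → ambEnt Ω A (dilF T j) ≤ Cb * M1 := fun j hj =>
    te_template_le hσ hCb hepos.le hExp.e_lt.le hD0 hboxσ hCt hs02 hT hclear hj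
  have hXE0 : ent (io := fun _ : Λ => Fin q) (pureOp Ω) (tplX A T) ≤ Cb * M1 := by
    have := hdil 0 (Nat.zero_le _)
    rwa [tpl_dilF_zero] at this
  have hCbM : 0 ≤ Cb * M1 := by positivity
  have hXE : ent (io := fun _ : Λ => Fin q) (pureOp Ω) (tplX A T) ≤ 2 * Cb * M1 := by linarith
  set Bs : ℝ := 2 * Cb * M1 with hBs
  have hBs0 : 0 ≤ Bs := by rw [hBs]; linarith
  have hshell : ∀ j, j ≤ s.L →
      ent (io := fun _ : Λ => Fin q) (pureOp Ω) (tplS A T j \ tplX A T) ≤ Bs := by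
    intro j hj
    have hsub : tplX A T ⊆ tplS A T j := by
      rw [tpl_tplS_eq]
      exact tpl_tplX_mono tpl_subset_dilF
    have h2 := te_ent_sdiff_le hEnt hΩ (tplS A T j) (tplX A T) hsub
    have h3 : ent (io := fun _ : Λ => Fin q) (pureOp Ω) (tplS A T j) ≤ Cb * M1 := by
      rw [tpl_tplS_eq]
      exact hdil j (hj.trans hLs0)
    rw [hBs]
    linarith
  have hcard : ((tplS A T s.L).card : ℝ) ≤ 1 * (n : ℝ) ^ 2 := by
    rw [one_mul]
    exact_mod_cast g1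
  obtain ⟨Nn, c1, c2, c3, c4, c5, c6, _, c8⟩ :=
    hmain Λ k hk E₀ Ω hGS A T n W Bs hn0 hW1 le_rfl s rfl hne hcard g2 hclear3 hXE hshell
      hBs0 le_rfl
  -- the parameter `τ`
  set τ : ℝ := (n : ℝ) ^ (-(ν / 4)) with hτ
  have hτ0 : 0 < τ := Real.rpow_pos_of_pos hnpos _
  have hτ14 : τ ≤ 1 / 4 := by
    have := hn3 n hn3'
    rwa [one_mul] at this
  obtain ⟨hEb0, hEb⟩ := hn2 n hn2' W hW1 le_rfl
  have hττ : (n : ℝ) ^ (-(ν / 2)) = τ * τ := by
    rw [hτ, ← Real.rpow_add hnpos]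
    congr 1
    ring
  have hEbτ : scEbar s C Cl e ν / τ ≤ τ := by
    rw [div_le_iff₀ hτ0, ← hττ]
    exact hEb
  have hEbτ0 : 0 ≤ scEbar s C Cl e ν / τ := div_nonneg hEb0 hτ0.le
  have hx100 : ((n : ℝ) ^ 100)⁻¹ ≤ 1 / 2 := by
    have h2 : (2 : ℝ) ≤ (n : ℝ) ^ 100 := by
      have h3 : (2 : ℝ) ≤ (n : ℝ) := by exact_mod_cast hn2le
      calc (2 : ℝ) ≤ (n : ℝ) := h3
        _ = (n : ℝ) ^ 1 := (pow_one _).symm
        _ ≤ (n : ℝ) ^ 100 := pow_le_pow_right₀ hn1R (by norm_num)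
    rw [inv_le_comm₀ (by positivity) (by norm_num)]
    simpa using h2
  have hlogz : |Real.log Nn.z| ≤ 1 := by
    have := num_abs_log_le hx100 c3 c4
    linarith
  have ha : 0 < s.a := hSB.num_a_pos (by linarith)
  have hsharp := c8 (by rw [hlv, hμ, hω, hκ]; norm_num) τ hτ0 (by linarith)
  have hN9 := num_sharp_solve (s := s) (N := Nn) hW1 ha hC1 hτ0 (by linarith) hEb0 c5 c6 hsharp
  have hx200 : ((n : ℝ) ^ 200)⁻¹ ≤ 1 := by
    apply inv_le_one_of_one_le₀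
    exact one_le_pow₀ hn1R
  -- the inputs of `col_final`
  have hSX : Nn.SX ≤ G * M1 := by
    have h2 := (abs_le.mp c1).2
    have h3 : Nn.SX ≤ Cb * M1 + 1 := by linarith
    have h4 : G * M1 = Cb * M1 + (5 * Cb + 6 * C + 4) * M1 := by rw [hG]; ring
    have h5 : 1 ≤ (5 * Cb + 6 * C + 4) * M1 := by
      have : (1 : ℝ) ≤ 5 * Cb + 6 * C + 4 := by linarith
      calc (1 : ℝ) = 1 * 1 := by norm_num
        _ ≤ (5 * Cb + 6 * C + 4) * M1 := mul_le_mul this hM11 (by norm_num) (by linarith)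
    linarith
  have h35 : 1 ≤ (n : ℝ) ^ ((3 : ℝ) / 5) := Real.one_le_rpow hn1R (by norm_num)
  have hw : (n : ℝ) ^ ((3 : ℝ) / 5) + |Real.log Nn.z| ≤ 2 * (n : ℝ) ^ ((3 : ℝ) / 5) := by linarith
  have hnM : (n : ℝ) ≤ M1 := by
    have := Real.rpow_le_rpow_of_exponent_le hn1R (show (1 : ℝ) ≤ 1 + e by linarith)
    simpa using this
  have hnD : (n : ℝ) * (s.D : ℝ) ≤ 2 * M1 := by
    have h2 : (s.D : ℝ) ≤ 2 * (n : ℝ) ^ κ := hSB.D_le
    have h3 : (n : ℝ) * (n : ℝ) ^ κ ≤ M1 := by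
      have h1 : (n : ℝ) * (n : ℝ) ^ κ = (n : ℝ) ^ (1 + κ) := by
        rw [Real.rpow_add hnpos, Real.rpow_one]
      rw [h1]
      exact Real.rpow_le_rpow_of_exponent_le hn1R (by have := hExp.κ_le; linarith)
    have h4 : (n : ℝ) * (s.D : ℝ) ≤ (n : ℝ) * (2 * (n : ℝ) ^ κ) :=
      mul_le_mul_of_nonneg_left h2 hnpos.le
    linarith
  have hC0 : 0 ≤ C := by linarith
  have hgmax : 2 * Nn.SX + 2 * (Bs + C * n + C * n * s.D) ≤ G * M1 := by
    have h2 := (abs_le.mp c1).2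
    have h3 : Nn.SX ≤ Cb * M1 + 1 := by linarith
    have h4 : C * n ≤ C * M1 := mul_le_mul_of_nonneg_left hnM hC0
    have h5 : C * n * s.D ≤ C * (2 * M1) := by
      have := mul_le_mul_of_nonneg_left hnD hC0
      calc C * n * s.D = C * ((n : ℝ) * (s.D : ℝ)) := by ring
        _ ≤ C * (2 * M1) := this
    have h6 : G * M1 = 6 * (Cb * M1) + 6 * (C * M1) + 4 * M1 := by rw [hG]; ring
    rw [h6, hBs]
    linarith
  have haBB : s.a * (C * n * s.D * Real.log n ^ Cl) ≤ (n : ℝ) ^ (1 - l) := by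
    have h2 : s.a ≤ 32 * W * (n : ℝ) ^ (-(1 - l - μ)) := hSB.num_a_le (by linarith)
    have hlog : 0 ≤ Real.log n ^ Cl := pow_nonneg (Real.log_natCast_nonneg n) _
    have h3 : C * n * s.D * Real.log n ^ Cl ≤ C * n * (2 * (n : ℝ) ^ κ) * Real.log n ^ Cl := by
      apply mul_le_mul_of_nonneg_right _ hlog
      exact mul_le_mul_of_nonneg_left hSB.D_le (by positivity)
    have h4 : s.a * (C * n * s.D * Real.log n ^ Cl) ≤
        (32 * W * (n : ℝ) ^ (-(1 - l - μ))) * (C * n * (2 * (n : ℝ) ^ κ) * Real.log n ^ Cl) :=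
      mul_le_mul h2 h3 (by positivity) (by positivity)
    have h5 : (32 * W * (n : ℝ) ^ (-(1 - l - μ))) * (C * n * (2 * (n : ℝ) ^ κ) * Real.log n ^ Cl) =
        64 * C * Real.log n ^ Cl * (n : ℝ) ^ (ω + l + μ + κ) := by
      have h6 : (n : ℝ) ^ (ω + l + μ + κ) =
          W * (n : ℝ) ^ (-(1 - l - μ)) * (n : ℝ) * (n : ℝ) ^ κ := by
        rw [hW, ← Real.rpow_add hnpos, ← Real.rpow_add_one hnpos.ne', ← Real.rpow_add hnpos]
        congr 1
        ring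
      rw [h6]
      ring
    rw [h5] at h4
    exact h4.trans (hn4 n hn4')
  have hinva0 : 0 ≤ 1 / s.a := by positivity
  have hfin := col_final (n := n) (by omega) (l := l) (μ := μ) (e := e) (ν := ν) (ω := ω) (C := C)
    (G := G) (by rw [hev, hlv, hν]; norm_num) (by rw [hev, hlv, hω]; norm_num) hlpos.le
    (by rw [hlv]; norm_num) hμ0.le hepos.le hC1 hG1 hτ hW hSX hw hgmax hEbτ0 hEbτ hinva0
    (hSB.num_inv_a_le hW1) haBB (abs_nonneg _) hlogz hN9
  have h2 := (abs_le.mp c2).1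
  have h3 : (15 * C * G + 1) * (n : ℝ) ^ (1 - l) ≤ Cfin * (n : ℝ) ^ (1 - l) :=
    mul_le_mul_of_nonneg_right (le_max_left _ _) (by positivity)
  have h4 : (15 * C * G + 1) * (n : ℝ) ^ (1 - l) =
      15 * C * G * (n : ℝ) ^ (1 - l) + (n : ℝ) ^ (1 - l) := by ring
  linarith

end Claimed.Agent.R296.Scan
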