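import Claimed.Agent.R296.TopGlue
import Claimed.Agent.R296.BoxTop

/-!
# Row 296, paper 1, Section 8: the replica-free conclusion of the scanner

`ScanConclStmt` is the cut between

* the *scan* (Lemma 8.1, Proposition 8.2, `Scan/Api.lean : ReplicaStmt`, truncation, tail bounds), and
* the *bookkeeping* (Propositions 8.5 and 8.6: exponent audits, entropy inputs from safe boxes).

It contains no replica number, no tolerance `ζ`, no tree and no truncated state: the selected tree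
has been eliminated with the leafwise identity `2 S(X) + g_pre - g_post = I(X:V) + I(X:YV)`,
monotonicity of the mutual information and `g_pre ≤ g_max := 2 S(X) + 2 (B_sh + B_exc)`; the limit
`ζ → 0` has been taken at fixed `τ`; all bounds for `B_sh, B_exc, 𝓑` have been inserted
(the two inequalities are monotone in them).

Notation (`n` = scale, exponents `ℓ μ κ ν ω e`):
`L = ⌊n^(1-ℓ)⌋`, `m = ⌊n^μ⌋`, `K = L / (8 m)`, `D = ⌈n^κ⌉`, `a = W / K`, `ε = n^(-ν)`, `w = n^(3/5)`.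
-/

set_option autoImplicit false

namespace Claimed.Agent.R296.Scan

open Matrix Claims.C0473 Finset

/-- the scales of `scanner:scales` -/
structure Scales where
  /-- row scale -/
  n : ℕ
  /-- exponent of the collar depth -/
  l : ℝ
  /-- exponent of the window -/
  μ : ℝ
  /-- exponent of the look-ahead -/
  κ : ℝ
  /-- total metric weight -/
  W : ℝ

namespace Scales

variable (s : Scales)

/-- collar depth -/
noncomputable def L : ℕ := ⌊(s.n : ℝ) ^ (1 - s.l)⌋₊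
/-- window scale -/
noncomputable def m : ℕ := ⌊(s.n : ℝ) ^ s.μ⌋₊
/-- number of bands -/
noncomputable def K : ℕ := s.L / (8 * s.m)
/-- look-ahead -/
noncomputable def D : ℕ := ⌈(s.n : ℝ) ^ s.κ⌉₊
/-- metric weight per band -/
noncomputable def a : ℝ := s.W / s.K

end Scales

/-- `δ_n` of `scanner:density-output` -/
noncomputable def scDelta (s : Scales) (C : ℝ) (Cl : ℕ) (e ν : ℝ) : ℝ :=
  C * (s.n : ℝ) ^ ν * ((s.n : ℝ) ^ (e - s.μ) + s.a ^ ((1 : ℝ) / 4) * Real.log s.n ^ Cl)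

/-- the right side of `scanner:energy-output`, without `o_k(1)` -/
noncomputable def scEbar (s : Scales) (C : ℝ) (Cl : ℕ) (e ν : ℝ) : ℝ :=
  C * (s.n : ℝ) ^ s.l * (s.D : ℝ) ^ 2 * s.W ^ 2 * Real.log s.n ^ Cl *
      (scDelta s C Cl e ν ^ ((1 : ℝ) / 8) + (s.n : ℝ) ^ (-ν) + ((s.n : ℝ) ^ 100)⁻¹) +
    C * ((s.n : ℝ) ^ 1000)⁻¹

/-- the numbers which survive from the truncated state -/
structure ConclNums where
  /-- entropy of the target in the truncated ground state -/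
  SX : ℝ
  /-- entropy `S'` of the normalised typical part -/
  S1 : ℝ
  /-- `log d_*` -/
  ld : ℝ
  /-- mass of the typical part -/
  z : ℝ
  /-- `I(X : Λ \ S₀)` in the truncated ground state -/
  I1 : ℝ

/-- the rough comparison at the selected point -/
def RoughIneq (s : Scales) (N : ConclNums) (C Eb Bsh Bexc τ : ℝ) : Prop :=
  s.W / 2 * (2 * N.S1 - C * (τ * N.ld + Real.binEntropy τ / s.a) - C * (Eb / τ) * N.S1) ≤
    2 * N.ld - Real.log N.z + s.W / 2 * (2 * Bsh / N.z + 2 * Bexc)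

/-- the difference of the two sharp comparisons at the selected point -/
def SharpIneq (s : Scales) (N : ConclNums) (C Eb gmax BB τ : ℝ) : Prop :=
  s.W / 2 * (2 * N.S1 + 2 * N.I1 - 2 * N.SX - τ * gmax -
      C * (τ * N.ld + Real.binEntropy τ / s.a + s.a * BB) - C * (Eb / τ) * (N.S1 + gmax)) ≤
    2 * N.ld - Real.log N.z + s.W / 2 * (C * (s.a * BB + |Real.log N.z| / s.a))

/-- admissible exponents of the scan -/
structure ExpOK (l μ κ ν ω e : ℝ) : Prop where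
  l_pos : 0 < l
  κ_pos : 0 < κ
  κ_lt : κ < μ
  μ_lt : μ + ω < 1 - l
  ν_pos : 0 < ν
  ω_nonneg : 0 ≤ ω
  e_pos : 0 < e
  e_lt : e < 1
  κ_le : κ ≤ e

/-- **The replica-free conclusion of Proposition 8.2 and Proposition 7.1.**
`Bs` is the entropy bound for the shells `Q_j = A ∩ (T_j \ T)`. -/
def ScanConclStmt (q R : ℕ) [NeZero q] (J Δ : ℝ) : Prop :=
  ∀ l μ κ ν ω e : ℝ, ExpOK l μ κ ν ω e → ∀ C0 Ce : ℝ, ∃ (C : ℝ) (Cl n0 : ℕ), 1 ≤ C ∧
    ∀ (Λ : Finset (ℤ × ℤ)) (k : Finset Λ → Matrix (Λ → Fin q) (Λ → Fin q) ℂ),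
    AdmInt q R J Λ k → ∀ (E₀ : ℝ) (Ω : (Λ → Fin q) → ℂ), GapState q R Δ Λ k E₀ Ω →
    ∀ (A : Finset Λ) (T : Finset (ℤ × ℤ)) (n : ℕ) (W Bs : ℝ), n0 ≤ n →
      1 ≤ W → W ≤ (n : ℝ) ^ ω →
      ∀ s : Scales, s = ⟨n, l, μ, κ, W⟩ →
      (tplX A T).Nonempty →
      ((tplS A T s.L).card : ℝ) ≤ C0 * (n : ℝ) ^ 2 →
      (∀ j, 1 ≤ j → j ≤ s.L → (tplS A T j \ tplS A T (j - 1)).card ≤ n) →
      (∀ x ∈ T, ∀ z ∈ cutEnds Λ A, (3 * s.L : ℤ) < dInf x z) →
      ent (io := fun _ : Λ => Fin q) (pureOp Ω) (tplX A T) ≤ Ce * (n : ℝ) ^ (1 + e) →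
      (∀ j, j ≤ s.L →
        ent (io := fun _ : Λ => Fin q) (pureOp Ω) (tplS A T j \ tplX A T) ≤ Bs) →
      0 ≤ Bs → Bs ≤ Ce * (n : ℝ) ^ (1 + e) →
      ∃ N : ConclNums,
        |N.SX - ent (io := fun _ : Λ => Fin q) (pureOp Ω) (tplX A T)| ≤ ((n : ℝ) ^ 200)⁻¹ ∧
        |N.I1 - minfo (io := fun _ : Λ => Fin q) (pureOp Ω) (tplX A T) (tplS A T s.L)ᶜ| ≤
          ((n : ℝ) ^ 200)⁻¹ ∧
        1 - ((n : ℝ) ^ 100)⁻¹ ≤ N.z ∧ N.z ≤ 1 ∧
        |N.ld - N.SX| ≤ (n : ℝ) ^ ((3 : ℝ) / 5) + |Real.log N.z| ∧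
        |N.S1 - N.SX| ≤ (n : ℝ) ^ ((3 : ℝ) / 5) + |Real.log N.z| ∧
        (∀ τ : ℝ, 0 < τ → τ < 1 / 2 →
          RoughIneq s N C (scEbar s C Cl e ν) (Bs + C * n) (C * n * s.D) τ) ∧
        (l + μ + ω + (1 + κ) / 2 < 1 → ∀ τ : ℝ, 0 < τ → τ < 1 / 2 →
          SharpIneq s N C (scEbar s C Cl e ν) (2 * N.SX + 2 * (Bs + C * n + C * n * s.D))
            (C * n * s.D * Real.log n ^ Cl) τ)

end Claimed.Agent.R296.Scan
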