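import Claimed.Agent.R296.MTree

/-!
# Row 296, P1 Section 8: the randomized scan, definitions

The scan of Section 8 is modelled without any lattice.

* `Side` : one moving front in *oriented* depth `lam : Λ → ℤ` (near side: `lam = depth`,
  far side: `lam = - depth`).  The set assigned to the side evolves by `fillStep` (deterministic
  schedule, one slot of the current row) and `chargeStep` (a labelled term of the look-ahead list is
  sampled; if its ball already meets the side, the whole ball is assigned).
  The two sides of a band never interact (they stay `≥ m` rows apart), therefore each side is run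
  independently; the middle part is the complement of both.
* `Geom` : capped depth `dp`, anchors, balls, row slots and look-ahead lists for the whole collar.
* `Lab`  : a history = offsets of all bands, list of joint charge choices (latest first),
  and a flag telling whether the fill of the current double round has been performed.
* `HT ρ` : the history tree before round `ρ` (even rounds are fills, odd rounds are charges),
  `Ch` the conditional choice trees.
-/

set_option autoImplicit false

namespace Claimed.Agent.R296.Scan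

open Finset

/-- one moving front, in oriented depth -/
structure Side (Λ ι : Type) where
  /-- number of slots in a row -/
  n : ℕ
  /-- look-ahead of the charges -/
  D : ℕ
  /-- radius of the balls -/
  r0 : ℕ
  /-- length of the padded look-ahead list -/
  Mn : ℕ
  /-- bound for the size of a ball and for the number of balls through a site -/
  V0 : ℕ
  /-- first row of the active zone -/
  lo : ℤ
  /-- last row of the active zone -/
  hi : ℤ
  /-- oriented depth of a site -/
  lam : Λ → ℤ
  /-- oriented depth of the anchor of a term -/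
  la : ι → ℤ
  /-- designated support of a term -/
  ball : ι → Finset Λ
  /-- `slot j c` is the site in position `c` of row `j` -/
  slot : ℤ → ℕ → Option Λ
  /-- `lst j` enumerates the terms with `j - r0 ≤ la i ≤ j + D` -/
  lst : ℤ → ℕ → Option ι

namespace Side

variable {Λ ι : Type}

/-- well-formedness of the data of a side -/
structure WF [DecidableEq Λ] [Fintype ι] (S : Side Λ ι) : Prop where
  n_pos : 0 < S.n
  Mn_pos : 0 < S.Mn
  slot_some : ∀ j c x, S.lo ≤ j → j ≤ S.hi → S.slot j c = some x → S.lam x = j
  slot_surj : ∀ j x, S.lo ≤ j → j ≤ S.hi → S.lam x = j → ∃ c, c < S.n ∧ S.slot j c = some x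
  lst_some : ∀ j a i, S.lo ≤ j → j ≤ S.hi → S.lst j a = some i →
    j - S.r0 ≤ S.la i ∧ S.la i ≤ j + S.D
  lst_surj : ∀ j i, S.lo ≤ j → j ≤ S.hi → j - S.r0 ≤ S.la i → S.la i ≤ j + S.D →
    ∃ a, a < S.Mn ∧ S.lst j a = some i
  lst_inj : ∀ j a b i, S.lst j a = some i → S.lst j b = some i → a = b
  ball_lam : ∀ i, ∀ x ∈ S.ball i, S.la i - S.r0 ≤ S.lam x ∧ S.lam x ≤ S.la i + S.r0
  ball_card : ∀ i, S.lo - S.r0 ≤ S.la i → S.la i ≤ S.hi + S.D → (S.ball i).card ≤ S.V0
  ball_deg : ∀ x, (univ.filter fun i => S.lo - S.r0 ≤ S.la i ∧ S.la i ≤ S.hi + S.D ∧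
    x ∈ S.ball i).card ≤ S.V0

/-- number of fills received by the side before double round `f`
(`par = true`: the side receives the even fills) -/
def nfill (par : Bool) (f : ℕ) : ℕ := if par then (f + 1) / 2 else f / 2

/-- nominal front after `t` fills, starting from row `j0` -/
def front (S : Side Λ ι) (j0 : ℤ) (t : ℕ) : ℤ := j0 + ((t / S.n : ℕ) : ℤ)

variable [DecidableEq Λ]

/-- the fill of double round `f` -/
def fillStep (S : Side Λ ι) (j0 : ℤ) (par : Bool) (f : ℕ) (A : Finset Λ) : Finset Λ :=
  if (f % 2 == 0) = par then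
    match S.slot (S.front j0 (nfill par f)) (nfill par f % S.n) with
    | some x => insert x A
    | none => A
  else A

/-- the charge of double round `f`; `c = none` means that the other side was chosen -/
def chargeStep (S : Side Λ ι) (j0 : ℤ) (par : Bool) (f : ℕ) (c : Option ℕ) (A : Finset Λ) :
    Finset Λ :=
  match c with
  | none => A
  | some a =>
    match S.lst (S.front j0 (nfill par (f + 1))) a with
    | some i => if (S.ball i ∩ A).Nonempty then A ∪ S.ball i else A
    | none => A

variable [Fintype Λ]

/-- the set assigned at the start: everything strictly behind the front -/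
def start (S : Side Λ ι) (j0 : ℤ) : Finset Λ := univ.filter fun x => S.lam x < j0

/-- the set assigned after the double rounds recorded in `cs` (latest choice first) -/
def run (S : Side Λ ι) (j0 : ℤ) (par : Bool) : List (Option ℕ) → Finset Λ
  | [] => S.start j0
  | c :: cs => S.chargeStep j0 par cs.length c (S.fillStep j0 par cs.length (run S j0 par cs))

/-- the set assigned after the double rounds in `cs` and the next fill -/
def runF (S : Side Λ ι) (j0 : ℤ) (par : Bool) (cs : List (Option ℕ)) : Finset Λ :=
  S.fillStep j0 par cs.length (S.run j0 par cs)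

/-- the state, with or without the pending fill -/
def runB (S : Side Λ ι) (j0 : ℤ) (par : Bool) (cs : List (Option ℕ)) (fl : Bool) : Finset Λ :=
  if fl then S.runF j0 par cs else S.run j0 par cs

/-- number of fills received in the state `(cs, fl)` -/
def tfill (par : Bool) (len : ℕ) (fl : Bool) : ℕ := nfill par (if fl then len + 1 else len)

/-- term `i` is split by the assigned set `A` -/
def Splits (S : Side Λ ι) (i : ι) (A : Finset Λ) : Prop :=
  (S.ball i ∩ A).Nonempty ∧ ¬ S.ball i ⊆ A

/-- the lead of the charged sites is at most `D / 2` -/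
def Good (S : Side Λ ι) (j : ℤ) (A : Finset Λ) : Prop := ∀ x ∈ A, 2 * (S.lam x - j) ≤ S.D

/-- exponential potential of the sites close to or ahead of the front:
`j` is the integer front (it only fixes the window), `jt` the fractional front -/
noncomputable def pot (S : Side Λ ι) (θ : ℝ) (j : ℤ) (jt : ℝ) (A : Finset Λ) : ℝ :=
  ∑ x ∈ A.filter (fun x => j - 2 * S.r0 ≤ S.lam x), Real.exp (θ * ((S.lam x : ℝ) - jt))

/-- all fronts used up to double round `len` (inclusive) stay in the active zone -/
def InZone (S : Side Λ ι) (j0 : ℤ) (par : Bool) (len : ℕ) : Prop :=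
  S.lo + 2 * S.r0 ≤ j0 ∧ S.front j0 (nfill par (len + 1)) ≤ S.hi

end Side

/-- the geometry of the whole collar -/
structure Geom (Λ ι : Type) where
  /-- number of slots in a row -/
  n : ℕ
  /-- depth of the collar -/
  L : ℕ
  /-- window scale, number of offsets -/
  m : ℕ
  /-- number of bands -/
  K : ℕ
  /-- look-ahead -/
  D : ℕ
  /-- radius of the balls -/
  r0 : ℕ
  /-- length of the padded look-ahead lists -/
  Mn : ℕ
  /-- ball size / ball degree bound -/
  V0 : ℕ
  /-- capped depth: `min (dist to the target) (L+1)` inside the cut set, `L+1` outside -/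
  dp : Λ → ℕ
  /-- anchor of a labelled term -/
  anc : ι → Λ
  /-- designated support of a labelled term -/
  ball : ι → Finset Λ
  /-- `slot j c`: the site in position `c` of the depth row `j` -/
  slot : ℕ → ℕ → Option Λ
  /-- `lst lo` enumerates the terms with `lo ≤ dp (anc i) ≤ lo + D + r0` -/
  lst : ℕ → ℕ → Option ι

namespace Geom

variable {Λ ι : Type}

/-- well-formedness of a scan geometry -/
structure WF [DecidableEq Λ] [Fintype Λ] [Fintype ι] (G : Geom Λ ι) : Prop where
  n_pos : 0 < G.n
  K_pos : 0 < G.K
  m_pos : 0 < G.m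
  Mn_pos : 0 < G.Mn
  fits : 8 * G.m * G.K ≤ G.L
  sep : 100 * (G.D + G.r0 + 1) ≤ G.m
  r0_le : 2 * G.r0 ≤ G.D
  dp_le : ∀ x, G.dp x ≤ G.L + 1
  anc_mem : ∀ i, G.anc i ∈ G.ball i
  ball_dp : ∀ i, ∀ x ∈ G.ball i, G.dp x ≤ G.dp (G.anc i) + G.r0 ∧ G.dp (G.anc i) ≤ G.dp x + G.r0
  slot_some : ∀ j c x, G.slot j c = some x → G.dp x = j
  slot_surj : ∀ j x, 1 ≤ j → j ≤ G.L → G.dp x = j → ∃ c, c < G.n ∧ G.slot j c = some x
  lst_some : ∀ lo a i, G.lst lo a = some i → lo ≤ G.dp (G.anc i) ∧ G.dp (G.anc i) ≤ lo + G.D + G.r0
  lst_surj : ∀ lo i, 1 ≤ lo → lo + G.D + G.r0 ≤ G.L → lo ≤ G.dp (G.anc i) →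
    G.dp (G.anc i) ≤ lo + G.D + G.r0 → ∃ a, a < G.Mn ∧ G.lst lo a = some i
  lst_inj : ∀ lo a b i, G.lst lo a = some i → G.lst lo b = some i → a = b
  ball_card : ∀ i, G.dp (G.anc i) ≤ G.L → (G.ball i).card ≤ G.V0
  ball_deg : ∀ x, (univ.filter fun i => G.dp (G.anc i) ≤ G.L ∧ x ∈ G.ball i).card ≤ G.V0
  win_card : ∀ lo, 1 ≤ lo → lo + G.D + 3 * G.r0 ≤ G.L → (univ.filter fun i => lo ≤ G.dp (G.anc i) ∧
    G.dp (G.anc i) ≤ lo + G.D + 3 * G.r0).card ≤ 3 * G.Mn

/-- the near side of all bands -/
def nearSide (G : Geom Λ ι) : Side Λ ι where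
  n := G.n
  D := G.D
  r0 := G.r0
  Mn := G.Mn
  V0 := G.V0
  lo := (G.r0 : ℤ) + 1
  hi := (G.L : ℤ) - G.D - G.r0
  lam x := (G.dp x : ℤ)
  la i := (G.dp (G.anc i) : ℤ)
  ball := G.ball
  slot j c := G.slot j.toNat c
  lst j a := G.lst (j - G.r0).toNat a

/-- the far side of all bands -/
def farSide (G : Geom Λ ι) : Side Λ ι where
  n := G.n
  D := G.D
  r0 := G.r0
  Mn := G.Mn
  V0 := G.V0
  lo := -((G.L : ℤ) - G.r0)
  hi := -((G.D : ℤ) + G.r0 + 1)
  lam x := -(G.dp x : ℤ)
  la i := -(G.dp (G.anc i) : ℤ)
  ball := G.ball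
  slot j c := G.slot (-j).toNat c
  lst j a := G.lst (-j - G.D).toNat a

/-- initial near front of band `g` with offset `r` -/
def j0N (G : Geom Λ ι) (g r : ℕ) : ℤ := ((8 * g * G.m + G.m + r + 1 : ℕ) : ℤ)

/-- initial far front (oriented) of band `g` with offset `r` -/
def j0F (G : Geom Λ ι) (g r : ℕ) : ℤ := -((8 * g * G.m + 5 * G.m + r : ℕ) : ℤ)

/-- a history of the scan -/
structure Lab (G : Geom Λ ι) where
  /-- offsets of the bands -/
  off : Fin G.K → Fin G.m
  /-- joint charge choices, latest first: for each band a side (`true` = near) and a list slot -/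
  cs : List (Fin G.K → Bool × Fin G.Mn)
  /-- has the fill of the current double round been performed? -/
  fl : Bool

variable [DecidableEq Λ] [Fintype Λ]

/-- the choices seen by one side of band `g` -/
def sideCs (G : Geom Λ ι) (g : Fin G.K) (nearQ : Bool) (cs : List (Fin G.K → Bool × Fin G.Mn)) :
    List (Option ℕ) :=
  cs.map fun c => if (c g).1 = nearQ then some ((c g).2 : ℕ) else none

/-- the near part `X ∪ U` of band `g` in the history `l` -/
def near (G : Geom Λ ι) (l : G.Lab) (g : Fin G.K) : Finset Λ :=
  G.nearSide.runB (G.j0N g (l.off g)) true (G.sideCs g true l.cs) l.fl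

/-- the far part `V` of band `g` in the history `l` -/
def far (G : Geom Λ ι) (l : G.Lab) (g : Fin G.K) : Finset Λ :=
  G.farSide.runB (G.j0F g (l.off g)) false (G.sideCs g false l.cs) l.fl

/-- the middle part `Y` of band `g` in the history `l` -/
def mid (G : Geom Λ ι) (l : G.Lab) (g : Fin G.K) : Finset Λ := univ \ (G.near l g ∪ G.far l g)

/-- nominal near front (depth) of band `g` in the history `l` -/
def jN (G : Geom Λ ι) (l : G.Lab) (g : Fin G.K) : ℤ :=
  G.nearSide.front (G.j0N g (l.off g)) (Side.tfill true l.cs.length l.fl)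

/-- nominal far front (oriented depth) of band `g` in the history `l` -/
def jF (G : Geom Λ ι) (l : G.Lab) (g : Fin G.K) : ℤ :=
  G.farSide.front (G.j0F g (l.off g)) (Side.tfill false l.cs.length l.fl)

/-- term `i` is split on the near side of band `g` -/
def SplitN (G : Geom Λ ι) (l : G.Lab) (g : Fin G.K) (i : ι) : Prop :=
  G.nearSide.Splits i (G.near l g)

/-- term `i` is split on the far side of band `g` -/
def SplitF (G : Geom Λ ι) (l : G.Lab) (g : Fin G.K) (i : ι) : Prop :=
  G.farSide.Splits i (G.far l g)

/-- term `i` is split somewhere -/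
def Split (G : Geom Λ ι) (l : G.Lab) (i : ι) : Prop := ∃ g, G.SplitN l g i ∨ G.SplitF l g i

/-- a good history: no side of any band leads its nominal front by more than `D / 2` -/
def GoodL (G : Geom Λ ι) (l : G.Lab) : Prop :=
  ∀ g, G.nearSide.Good (G.jN l g) (G.near l g) ∧ G.farSide.Good (G.jF l g) (G.far l g)

/-- the history is reachable within the schedule of `n * m` double rounds -/
def Reach (G : Geom Λ ι) (l : G.Lab) : Prop :=
  l.cs.length + (if l.fl then 1 else 0) ≤ G.n * G.m

/-- conditional choice tree of a history: the pending fill, or a uniform joint charge -/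
noncomputable def Ch (G : Geom Λ ι) (l : G.Lab) : MTree G.Lab :=
  if l.fl then MTree.unifD (Fin G.K → Bool × Fin G.Mn) l (fun c => ⟨l.off, c :: l.cs, false⟩)
  else MTree.leaf ⟨l.off, l.cs, true⟩

/-- the history tree before round `ρ` (even rounds: fills, odd rounds: charges) -/
noncomputable def HT (G : Geom Λ ι) (d : G.Lab) : ℕ → MTree G.Lab
  | 0 => MTree.unifD (Fin G.K → Fin G.m) d (fun r => ⟨r, [], false⟩)
  | ρ + 1 => (HT G d ρ).bind G.Ch

/-- the terminal tree of round `ρ` at interpolation parameter `p` -/
noncomputable def TT (G : Geom Λ ι) (d : G.Lab) (ρ : ℕ) (p : ℝ) : MTree G.Lab :=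
  MTree.interp p (G.HT d ρ) G.Ch

end Geom

end Claimed.Agent.R296.Scan
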