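import Claimed.Agent.R296.Scan.Side
import Claimed.Agent.R296.Scan.Api

/-!
# Row 296, P1 Section 8: deterministic invariants of the joint scan (Lemma 8.1 (1), (2))

Package S8-J.  All statements are about reachable histories `l` (`G.Reach l`) of a well-formed scan
geometry.  Depth bookkeeping for band `g` (`b = 8 g m`):
`{dp ≤ b + m} ⊆ near ⊆ {dp ≤ b + 3m + D + r0}`, `{dp ≥ b + 6m} ⊆ far ⊆ {dp ≥ b + 4m - D - r0}`.
-/

set_option autoImplicit false

namespace Claimed.Agent.R296.Scan.Geom

open Finset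

variable {Λ ι : Type} [DecidableEq Λ] [Fintype Λ]

/-- the status of band `g` in the history `l` -/
def st (G : Geom Λ ι) (l : G.Lab) (g : Fin G.K) : Finset Λ × Finset Λ := (G.near l g, G.far l g)

/-- the target -/
def X (G : Geom Λ ι) : Finset Λ := univ.filter fun x => G.dp x = 0

/-- the full positive-depth prefixes -/
def Pre (G : Geom Λ ι) (j : ℕ) : Finset Λ := univ.filter fun x => 1 ≤ G.dp x ∧ G.dp x ≤ j

/-- a legal transition of one band, with a bound on the number of moved sites -/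
def LegalG (v : ℕ) (s s' : Finset Λ × Finset Λ) : Prop :=
  s' = s ∨ (s'.2 = s.2 ∧ s.1 ⊆ s'.1 ∧ (s'.1 \ s.1).card ≤ v) ∨
    (s'.1 = s.1 ∧ s.2 ⊆ s'.2 ∧ (s'.2 \ s.2).card ≤ v)

variable [Fintype ι] {G : Geom Λ ι}

theorem nearSide_wf (hW : G.WF) : G.nearSide.WF where
  n_pos := hW.n_pos
  Mn_pos := hW.Mn_pos
  slot_some := by
    intro j c x h1 h2 h
    have := hW.slot_some _ _ _ h
    simp only [nearSide] at h1 h2 ⊢
    omega
  slot_surj := by
    intro j x h1 h2 h
    simp only [nearSide] at h1 h2 h ⊢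
    exact hW.slot_surj j.toNat x (by omega) (by omega) (by omega)
  lst_some := by
    intro j a i h1 h2 h
    have := hW.lst_some _ _ _ h
    simp only [nearSide] at h1 h2 ⊢
    omega
  lst_surj := by
    intro j i h1 h2 h3 h4
    simp only [nearSide] at h1 h2 h3 h4 ⊢
    exact hW.lst_surj (j - G.r0).toNat i (by omega) (by omega) (by omega) (by omega)
  lst_inj := by
    intro j a b i h1 h2
    exact hW.lst_inj _ a b i h1 h2
  ball_lam := by
    intro i x hx
    have := hW.ball_dp i x hx
    simp only [nearSide]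
    omega
  ball_card := by
    intro i h1 h2
    simp only [nearSide] at h1 h2 ⊢
    exact hW.ball_card i (by omega)
  ball_deg := by
    intro x
    refine le_trans (card_le_card ?_) (hW.ball_deg x)
    intro i hi
    rw [mem_filter] at hi ⊢
    obtain ⟨-, h1, h2, h3⟩ := hi
    simp only [nearSide] at h1 h2 h3
    exact ⟨mem_univ _, by omega, h3⟩

theorem farSide_wf (hW : G.WF) : G.farSide.WF where
  n_pos := hW.n_pos
  Mn_pos := hW.Mn_pos
  slot_some := by
    intro j c x h1 h2 h
    have := hW.slot_some _ _ _ h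
    simp only [farSide] at h1 h2 ⊢
    omega
  slot_surj := by
    intro j x h1 h2 h
    simp only [farSide] at h1 h2 h ⊢
    exact hW.slot_surj (-j).toNat x (by omega) (by omega) (by omega)
  lst_some := by
    intro j a i h1 h2 h
    have := hW.lst_some _ _ _ h
    simp only [farSide] at h1 h2 ⊢
    omega
  lst_surj := by
    intro j i h1 h2 h3 h4
    simp only [farSide] at h1 h2 h3 h4 ⊢
    exact hW.lst_surj (-j - G.D).toNat i (by omega) (by omega) (by omega) (by omega)
  lst_inj := by
    intro j a b i h1 h2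
    exact hW.lst_inj _ a b i h1 h2
  ball_lam := by
    intro i x hx
    have := hW.ball_dp i x hx
    simp only [farSide]
    omega
  ball_card := by
    intro i h1 h2
    simp only [farSide] at h1 h2 ⊢
    exact hW.ball_card i (by omega)
  ball_deg := by
    intro x
    refine le_trans (card_le_card ?_) (hW.ball_deg x)
    intro i hi
    rw [mem_filter] at hi ⊢
    obtain ⟨-, h1, h2, h3⟩ := hi
    simp only [farSide] at h1 h2 h3
    exact ⟨mem_univ _, by omega, h3⟩

/-- band `g` fits into the collar -/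
theorem band_le (hW : G.WF) (g : Fin G.K) : 8 * g * G.m + 8 * G.m ≤ G.L := by
  have h1 : (g : ℕ) + 1 ≤ G.K := g.2
  have h2 : ((g : ℕ) + 1) * G.m ≤ G.K * G.m := Nat.mul_le_mul_right _ h1
  have h3 := hW.fits
  nlinarith

/-- the number of rows scanned by one side within the schedule is at most `m - 1` -/
theorem rows_le (hW : G.WF) {f : ℕ} (h : f ≤ G.n * G.m + 2) (par : Bool) :
    Side.nfill par f / G.n + 1 ≤ G.m := by
  have hn := hW.n_pos
  have hm : 100 ≤ G.m := by have := hW.sep; omega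
  have h1 := Side.two_nfill_le par f
  have h2 : Side.nfill par f < (G.m - 1) * G.n := by
    obtain ⟨m', hm'⟩ : ∃ m', G.m = m' + 100 := ⟨G.m - 100, by omega⟩
    rw [hm'] at h ⊢
    have : (m' + 100 - 1) * G.n = m' * G.n + 99 * G.n := by
      have : m' + 100 - 1 = m' + 99 := by omega
      rw [this]; ring
    rw [this]
    have h3 : G.n * (m' + 100) = m' * G.n + 100 * G.n := by ring
    rw [h3] at h
    have : 0 ≤ m' * G.n := Nat.zero_le _
    omega
  have h3 : Side.nfill par f / G.n < G.m - 1 := (Nat.div_lt_iff_lt_mul hn).2 h2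
  omega

theorem inZoneN (hW : G.WF) (g : Fin G.K) (r : Fin G.m) {len : ℕ} (h : len ≤ G.n * G.m) :
    G.nearSide.InZone (G.j0N g r) true (len + 1) := by
  have h1 := band_le hW g
  have h2 := rows_le hW (f := len + 1 + 1) (by omega) true
  have h3 := hW.sep
  have h4 := r.2
  unfold Side.InZone Side.front
  simp only [nearSide, j0N]
  push_cast
  constructor
  · have : (0 : ℤ) ≤ 8 * (g : ℤ) * G.m := by positivity
    omega
  · have e : ((8 * (g : ℕ) * G.m : ℕ) : ℤ) = 8 * (g : ℤ) * G.m := by push_cast; ring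
    have h1' : (8 * (g : ℤ) * G.m) + 8 * G.m ≤ G.L := by rw [← e]; exact_mod_cast h1
    have h2' : ((Side.nfill true (len + 1 + 1) / G.n : ℕ) : ℤ) + 1 ≤ G.m := by exact_mod_cast h2
    push_cast at h2'
    omega

theorem inZoneF (hW : G.WF) (g : Fin G.K) (r : Fin G.m) {len : ℕ} (h : len ≤ G.n * G.m) :
    G.farSide.InZone (G.j0F g r) false (len + 1) := by
  have h1 := band_le hW g
  have h2 := rows_le hW (f := len + 1 + 1) (by omega) false
  have h3 := hW.sep
  have h4 := r.2
  unfold Side.InZone Side.front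
  simp only [farSide, j0F]
  push_cast
  have e : ((8 * (g : ℕ) * G.m : ℕ) : ℤ) = 8 * (g : ℤ) * G.m := by push_cast; ring
  have h1' : (8 * (g : ℤ) * G.m) + 8 * G.m ≤ G.L := by rw [← e]; exact_mod_cast h1
  have h2' : ((Side.nfill false (len + 1 + 1) / G.n : ℕ) : ℤ) + 1 ≤ G.m := by exact_mod_cast h2
  push_cast at h2'
  have h0 : (0 : ℤ) ≤ 8 * (g : ℤ) * G.m := by positivity
  constructor <;> omega

omit [DecidableEq Λ] [Fintype Λ] [Fintype ι] in
theorem reach_len {l : G.Lab} (hl : G.Reach l) : l.cs.length ≤ G.n * G.m := by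
  unfold Reach at hl
  omega

omit [DecidableEq Λ] [Fintype Λ] [Fintype ι] in
theorem reach_tfill {l : G.Lab} (hl : G.Reach l) :
    (if l.fl then l.cs.length + 1 else l.cs.length) ≤ G.n * G.m + 2 := by
  unfold Reach at hl
  split_ifs at hl ⊢ <;> omega

/-- the nominal near front stays in `[b + m + 1, b + 3m]` -/
theorem jN_bounds (hW : G.WF) {l : G.Lab} (hl : G.Reach l) (g : Fin G.K) :
    ((8 * g * G.m + G.m + 1 : ℕ) : ℤ) ≤ G.jN l g ∧ G.jN l g ≤ ((8 * g * G.m + 3 * G.m : ℕ) : ℤ) := by
  have h2 := rows_le hW (reach_tfill hl) true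
  have h4 := (l.off g).2
  unfold jN Side.front Side.tfill
  simp only [nearSide, j0N]
  have h2' : ((Side.nfill true (if l.fl then l.cs.length + 1 else l.cs.length) / G.n : ℕ) : ℤ) + 1
      ≤ G.m := by exact_mod_cast h2
  have h5 : (0 : ℤ) ≤
      ((Side.nfill true (if l.fl then l.cs.length + 1 else l.cs.length) / G.n : ℕ) : ℤ) :=
    Int.natCast_nonneg _
  push_cast at h2' h5 ⊢
  constructor <;> omega

/-- the nominal far front (oriented) stays in `[-(b + 6m - 1), -(b + 4m)]` -/
theorem jF_bounds (hW : G.WF) {l : G.Lab} (hl : G.Reach l) (g : Fin G.K) :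
    -((8 * g * G.m + 6 * G.m : ℕ) : ℤ) < G.jF l g ∧ G.jF l g ≤ -((8 * g * G.m + 4 * G.m : ℕ) : ℤ) := by
  have h2 := rows_le hW (reach_tfill hl) false
  have h4 := (l.off g).2
  unfold jF Side.front Side.tfill
  simp only [farSide, j0F]
  have h2' : ((Side.nfill false (if l.fl then l.cs.length + 1 else l.cs.length) / G.n : ℕ) : ℤ) + 1
      ≤ G.m := by exact_mod_cast h2
  have h5 : (0 : ℤ) ≤
      ((Side.nfill false (if l.fl then l.cs.length + 1 else l.cs.length) / G.n : ℕ) : ℤ) :=
    Int.natCast_nonneg _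
  push_cast at h2' h5 ⊢
  constructor <;> omega

omit [DecidableEq Λ] [Fintype Λ] [Fintype ι] in
theorem sideCs_length (G : Geom Λ ι) (g : Fin G.K) (nearQ : Bool)
    (cs : List (Fin G.K → Bool × Fin G.Mn)) : (G.sideCs g nearQ cs).length = cs.length := by
  unfold sideCs
  exact List.length_map _

theorem near_dp_le (hW : G.WF) {l : G.Lab} (hl : G.Reach l) (g : Fin G.K) {x : Λ}
    (hx : x ∈ G.near l g) : (G.dp x : ℤ) ≤ G.jN l g + G.D + G.r0 := by
  have hZ := inZoneN hW g (l.off g) (reach_len hl)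
  rw [← sideCs_length G g true l.cs] at hZ
  have := Side.lam_le_of_mem_runB (nearSide_wf hW) hZ l.fl hx
  rw [sideCs_length] at this
  exact this

theorem mem_near_of_lt (hW : G.WF) {l : G.Lab} (hl : G.Reach l) (g : Fin G.K) {x : Λ}
    (hx : (G.dp x : ℤ) < G.jN l g) : x ∈ G.near l g := by
  have hZ := inZoneN hW g (l.off g) (reach_len hl)
  rw [← sideCs_length G g true l.cs] at hZ
  refine Side.behind_mem_runB (nearSide_wf hW) hZ l.fl ?_
  rw [sideCs_length]
  exact hx

theorem far_dp_ge (hW : G.WF) {l : G.Lab} (hl : G.Reach l) (g : Fin G.K) {x : Λ}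
    (hx : x ∈ G.far l g) : -(G.dp x : ℤ) ≤ G.jF l g + G.D + G.r0 := by
  have hZ := inZoneF hW g (l.off g) (reach_len hl)
  rw [← sideCs_length G g false l.cs] at hZ
  have := Side.lam_le_of_mem_runB (farSide_wf hW) hZ l.fl hx
  rw [sideCs_length] at this
  exact this

theorem mem_far_of_lt (hW : G.WF) {l : G.Lab} (hl : G.Reach l) (g : Fin G.K) {x : Λ}
    (hx : -(G.dp x : ℤ) < G.jF l g) : x ∈ G.far l g := by
  have hZ := inZoneF hW g (l.off g) (reach_len hl)
  rw [← sideCs_length G g false l.cs] at hZ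
  refine Side.behind_mem_runB (farSide_wf hW) hZ l.fl ?_
  rw [sideCs_length]
  exact hx

theorem X_subset_near (hW : G.WF) {l : G.Lab} (hl : G.Reach l) (g : Fin G.K) :
    G.X ⊆ G.near l g := by
  intro x hx
  have hx0 : G.dp x = 0 := by simpa [X] using hx
  apply mem_near_of_lt hW hl g
  have := (jN_bounds hW hl g).1
  rw [hx0]
  push_cast at this ⊢
  have h0 : (0 : ℤ) ≤ 8 * (g : ℤ) * G.m := by positivity
  omega

theorem disjoint_near_far (hW : G.WF) {l : G.Lab} (hl : G.Reach l) (g : Fin G.K) :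
    Disjoint (G.near l g) (G.far l g) := by
  rw [disjoint_left]
  intro x h1 h2
  have a1 := near_dp_le hW hl g h1
  have a2 := far_dp_ge hW hl g h2
  have b1 := (jN_bounds hW hl g).2
  have b2 := (jF_bounds hW hl g).2
  have h3 := hW.sep
  push_cast at b1 b2
  omega

/-- Lemma 8.1 (1): cross-band nesting, for every pair of reachable histories -/
theorem nest (hW : G.WF) {l l' : G.Lab} (hl : G.Reach l) (hl' : G.Reach l') {g g' : Fin G.K}
    (hg : g < g') : (G.far l g)ᶜ ⊆ G.near l' g' := by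
  intro x hx
  rw [mem_compl] at hx
  apply mem_near_of_lt hW hl' g'
  have h1 : ¬ (-(G.dp x : ℤ) < G.jF l g) := fun h => hx (mem_far_of_lt hW hl g h)
  have b1 := (jF_bounds hW hl g).1
  have b2 := (jN_bounds hW hl' g').1
  have hgg : (g : ℕ) + 1 ≤ (g' : ℕ) := hg
  have h2 : ((g : ℕ) + 1) * G.m ≤ (g' : ℕ) * G.m := Nat.mul_le_mul_right _ hgg
  have h2' : ((g : ℤ) + 1) * G.m ≤ (g' : ℤ) * G.m := by exact_mod_cast h2
  push_cast at b1 b2
  nlinarith

/-- every site of capped depth `L + 1` is in the far part of every band -/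
theorem deep_mem_far (hW : G.WF) {l : G.Lab} (hl : G.Reach l) (g : Fin G.K) {x : Λ}
    (hx : G.dp x = G.L + 1) : x ∈ G.far l g := by
  apply mem_far_of_lt hW hl g
  have b1 := (jF_bounds hW hl g).1
  have h1 := band_le hW g
  have h1' : ((8 * (g : ℕ) * G.m + 8 * G.m : ℕ) : ℤ) ≤ G.L := by exact_mod_cast h1
  rw [hx]
  push_cast at b1 h1' ⊢
  have : (0 : ℤ) ≤ (G.m : ℤ) := Int.natCast_nonneg _
  omega

end Claimed.Agent.R296.Scan.Geom
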