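import Claimed.Agent.R296.Scan.Joint

/-!
# Row 296, P1 Section 8: deterministic invariants of the joint scan, part 2
(split structure, legal moves, counts of split terms, matched prefixes; package S8-J2)
-/

set_option autoImplicit false

namespace Claimed.Agent.R296.Scan.Geom

open Finset

variable {Λ ι : Type} [DecidableEq Λ] [Fintype Λ] [Fintype ι] {G : Geom Λ ι}

/-- a ball which meets the near part of a band is disjoint from its far part -/
theorem j2_disj_far (hW : G.WF) {l : G.Lab} (hl : G.Reach l) (g : Fin G.K) (i : ι)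
    (h : (G.ball i ∩ G.near l g).Nonempty) : Disjoint (G.ball i) (G.far l g) := by
  obtain ⟨y, hy⟩ := h
  rw [mem_inter] at hy
  rw [disjoint_left]
  intro x hx hxf
  have a1 := near_dp_le hW hl g hy.2
  have a2 := far_dp_ge hW hl g hxf
  have b1 := (jN_bounds hW hl g).2
  have b2 := (jF_bounds hW hl g).2
  have c1 := hW.ball_dp i y hy.1
  have c2 := hW.ball_dp i x hx
  have h3 := hW.sep
  push_cast at b1 b2
  omega

theorem j2_disj_near (hW : G.WF) {l : G.Lab} (hl : G.Reach l) (g : Fin G.K) (i : ι)
    (h : (G.ball i ∩ G.far l g).Nonempty) : Disjoint (G.ball i) (G.near l g) := by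
  rw [disjoint_left]
  intro x hx hxn
  obtain ⟨y, hy⟩ := h
  rw [mem_inter] at hy
  exact disjoint_left.1 (j2_disj_far hW hl g i ⟨x, mem_inter.2 ⟨hx, hxn⟩⟩) hy.1 hy.2

theorem splitN_iff (hW : G.WF) {l : G.Lab} (hl : G.Reach l) (g : Fin G.K) (i : ι) :
    G.SplitN l g i ↔ SpN (G.ball i) (G.st l g) := by
  constructor
  · intro h
    exact ⟨h.1, h.2, j2_disj_far hW hl g i h.1⟩
  · intro h
    exact ⟨h.1, h.2.1⟩

theorem splitF_iff (hW : G.WF) {l : G.Lab} (hl : G.Reach l) (g : Fin G.K) (i : ι) :
    G.SplitF l g i ↔ SpF (G.ball i) (G.st l g) := by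
  constructor
  · intro h
    exact ⟨h.1, h.2, j2_disj_near hW hl g i h.1⟩
  · intro h
    exact ⟨h.1, h.2.1⟩

/-- window of the anchors of the terms split on the near side -/
theorem j2_windowN (hW : G.WF) {l : G.Lab} (hl : G.Reach l) (g : Fin G.K) {i : ι}
    (h : G.SplitN l g i) :
    G.jN l g - G.r0 ≤ (G.dp (G.anc i) : ℤ) ∧ (G.dp (G.anc i) : ℤ) ≤ G.jN l g + G.D + 2 * G.r0 := by
  have hZ := inZoneN hW g (l.off g) (reach_len hl)
  rw [← sideCs_length G g true l.cs] at hZ
  have := Side.splits_window (nearSide_wf hW) hZ l.fl h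
  rw [sideCs_length] at this
  exact this

/-- window of the anchors of the terms split on the far side -/
theorem j2_windowF (hW : G.WF) {l : G.Lab} (hl : G.Reach l) (g : Fin G.K) {i : ι}
    (h : G.SplitF l g i) :
    G.jF l g - G.r0 ≤ -(G.dp (G.anc i) : ℤ) ∧ -(G.dp (G.anc i) : ℤ) ≤ G.jF l g + G.D + 2 * G.r0 := by
  have hZ := inZoneF hW g (l.off g) (reach_len hl)
  rw [← sideCs_length G g false l.cs] at hZ
  have := Side.splits_window (farSide_wf hW) hZ l.fl h
  rw [sideCs_length] at this
  exact this

omit [Fintype ι] in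
/-- trichotomy for one band -/
theorem j2_tri (l : G.Lab) (g : Fin G.K) (i : ι) :
    Ins (G.ball i) (G.st l g) ∨ G.SplitN l g i ∨ G.SplitF l g i := by
  by_cases h1 : (G.ball i ∩ G.near l g).Nonempty
  · by_cases h2 : G.ball i ⊆ G.near l g
    · exact Or.inl (Or.inl h2)
    · exact Or.inr (Or.inl ⟨h1, h2⟩)
  · have d1 : Disjoint (G.ball i) (G.near l g) := by
      rw [disjoint_iff_inter_eq_empty]
      exact not_nonempty_iff_eq_empty.1 h1
    by_cases h3 : (G.ball i ∩ G.far l g).Nonempty
    · by_cases h4 : G.ball i ⊆ G.far l g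
      · exact Or.inl (Or.inr (Or.inl h4))
      · exact Or.inr (Or.inr ⟨h3, h4⟩)
    · have d2 : Disjoint (G.ball i) (G.far l g) := by
        rw [disjoint_iff_inter_eq_empty]
        exact not_nonempty_iff_eq_empty.1 h3
      exact Or.inl (Or.inr (Or.inr ⟨d1, d2⟩))

/-- the anchor of a term split in band `g` lies in the core of the band -/
theorem j2_core (hW : G.WF) {l : G.Lab} (hl : G.Reach l) (g : Fin G.K) {i : ι}
    (h : G.SplitN l g i ∨ G.SplitF l g i) :
    8 * g * G.m + G.m + 1 ≤ G.dp (G.anc i) + G.r0 ∧ G.dp (G.anc i) ≤ 8 * g * G.m + 6 * G.m + G.r0 := by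
  have b1 := jN_bounds hW hl g
  have b2 := jF_bounds hW hl g
  have h3 := hW.sep
  push_cast at b1 b2
  rcases h with h | h
  · have w := j2_windowN hW hl g h
    constructor
    · zify; omega
    · zify; omega
  · have w := j2_windowF hW hl g h
    constructor
    · zify; omega
    · zify; omega

/-- Lemma 8.1 (1): a designated support splits at most one band, on exactly one side -/
theorem split_structure (hW : G.WF) {l : G.Lab} (hl : G.Reach l) (i : ι) :
    (∀ g, Ins (G.ball i) (G.st l g)) ∨
      ∃ g0, (SpN (G.ball i) (G.st l g0) ∨ SpF (G.ball i) (G.st l g0)) ∧ G.dp (G.anc i) ≤ G.L ∧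
        ∀ g, g ≠ g0 → Ins (G.ball i) (G.st l g) := by
  by_cases hall : ∀ g, Ins (G.ball i) (G.st l g)
  · exact Or.inl hall
  · right
    push Not at hall
    obtain ⟨g0, hg0⟩ := hall
    have hs : G.SplitN l g0 i ∨ G.SplitF l g0 i := (j2_tri l g0 i).resolve_left hg0
    have hc := j2_core hW hl g0 hs
    have h3 := hW.sep
    refine ⟨g0, ?_, ?_, ?_⟩
    · rcases hs with hs | hs
      · exact Or.inl ((splitN_iff hW hl g0 i).1 hs)
      · exact Or.inr ((splitF_iff hW hl g0 i).1 hs)
    · have := band_le hW g0
      omega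
    · intro g hg
      rcases lt_or_gt_of_ne hg with hlt | hgt
      · -- `g < g0`: the ball lies in the far part of `g`
        refine Or.inr (Or.inl ?_)
        intro x hx
        apply mem_far_of_lt hW hl g
        have b1 := (jF_bounds hW hl g).1
        have c := hW.ball_dp i x hx
        have hgg : (g : ℕ) + 1 ≤ (g0 : ℕ) := hlt
        have h2 : ((g : ℕ) + 1) * G.m ≤ (g0 : ℕ) * G.m := Nat.mul_le_mul_right _ hgg
        have h4 : 8 * (g : ℕ) * G.m + 6 * G.m < G.dp x := by nlinarith
        have h5 : ((8 * (g : ℕ) * G.m + 6 * G.m : ℕ) : ℤ) < (G.dp x : ℤ) := by exact_mod_cast h4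
        omega
      · -- `g0 < g`: the ball lies in the near part of `g`
        refine Or.inl ?_
        intro x hx
        apply mem_near_of_lt hW hl g
        have b1 := (jN_bounds hW hl g).1
        have c := hW.ball_dp i x hx
        have hgg : (g0 : ℕ) + 1 ≤ (g : ℕ) := hgt
        have h2 : ((g0 : ℕ) + 1) * G.m ≤ (g : ℕ) * G.m := Nat.mul_le_mul_right _ hgg
        have h4 : G.dp x < 8 * (g : ℕ) * G.m + G.m + 1 := by nlinarith
        have h5 : (G.dp x : ℤ) < ((8 * (g : ℕ) * G.m + G.m + 1 : ℕ) : ℤ) := by exact_mod_cast h4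
        omega

omit [DecidableEq Λ] [Fintype Λ] [Fintype ι] in
/-- the successors of a history which is not at the end of the schedule are reachable -/
theorem reach_Ch {l : G.Lab} (hl : 2 * l.cs.length + (if l.fl then 1 else 0) < 2 * (G.n * G.m)) :
    (G.Ch l).All G.Reach := by
  unfold Ch
  by_cases hf : l.fl
  · rw [if_pos hf]
    rw [if_pos hf] at hl
    apply MTree.all_unifD
    · unfold Reach
      rw [if_pos hf]
      omega
    · intro c
      unfold Reach
      simp only [List.length_cons]
      simp
      omega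
  · rw [if_neg hf]
    rw [if_neg hf] at hl
    change G.Reach _
    unfold Reach
    simp
    omega

omit [Fintype ι] in
/-- a fill adds at most one site -/
theorem j2_fill_card (S : Side Λ ι) (j0 : ℤ) (par : Bool) (f : ℕ) (A : Finset Λ) :
    (S.fillStep j0 par f A \ A).card ≤ 1 := by
  unfold Side.fillStep
  split_ifs
  · split
    · rename_i x _
      refine le_trans (card_le_card ?_) (card_singleton x).le
      intro y hy
      rw [mem_sdiff, mem_insert] at hy
      rcases hy.1 with h | h
      · exact mem_singleton.2 h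
      · exact absurd h hy.2
    · simp
  · simp

omit [Fintype Λ] [Fintype ι] in
/-- a fill of the wrong parity does nothing -/
theorem j2_fill_ne (S : Side Λ ι) (j0 : ℤ) (par : Bool) (f : ℕ) (A : Finset Λ)
    (h : ¬ (f % 2 == 0) = par) : S.fillStep j0 par f A = A := by
  unfold Side.fillStep
  rw [if_neg h]

/-- a charge adds at most one ball of the look-ahead list -/
theorem j2_charge_card {S : Side Λ ι} (hW : S.WF) {j0 : ℤ} {par : Bool} {f : ℕ}
    (hZ : S.InZone j0 par f) (c : Option ℕ) (A : Finset Λ) :
    (S.chargeStep j0 par f c A \ A).card ≤ S.V0 := by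
  unfold Side.chargeStep
  split
  · simp
  · split
    · rename_i a i hi
      split_ifs
      · have h1 := hW.lst_some _ _ _ (hZ.lo_le _) (hZ.front_le le_rfl) hi
        have h2 := hZ.lo_le (Side.nfill par (f + 1))
        have h3 := hZ.front_le (t := Side.nfill par (f + 1)) le_rfl
        refine le_trans (card_le_card ?_) (hW.ball_card i (by omega) (by omega))
        intro y hy
        rw [mem_sdiff, mem_union] at hy
        rcases hy.1 with h | h
        · exact absurd h hy.2
        · exact h
      · simp
    · simp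

/-- every transition of the scan is legal and moves at most `V0 + 1` sites -/
theorem legal (hW : G.WF) {l : G.Lab} (hl : G.Reach l) :
    (G.Ch l).All fun l' => ∀ g, LegalG (G.V0 + 1) (G.st l g) (G.st l' g) := by
  unfold Ch
  by_cases hf : l.fl
  · rw [if_pos hf]
    apply MTree.all_unifD
    · intro g
      exact Or.inl rfl
    · intro c g
      have hlen := reach_len hl
      by_cases hc : (c g).1 = true
      · -- the near side is charged
        right; left
        have hfar : G.far ⟨l.off, c :: l.cs, false⟩ g = G.far l g := by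
          unfold far Side.runB
          rw [if_pos hf]
          simp only [sideCs, List.map_cons, hc, Bool.true_eq_false, if_false, Side.run,
            Side.chargeStep, Side.runF, Bool.false_eq_true]
        have hnear : G.near ⟨l.off, c :: l.cs, false⟩ g =
            G.nearSide.chargeStep (G.j0N g (l.off g)) true (G.sideCs g true l.cs).length
              (some ((c g).2 : ℕ)) (G.near l g) := by
          unfold near Side.runB
          rw [if_pos hf]
          simp only [sideCs, List.map_cons, hc, if_true, Side.run, Side.runF, Bool.false_eq_true,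
            if_false]
        refine ⟨hfar, ?_, ?_⟩
        · change G.near l g ⊆ G.near ⟨l.off, c :: l.cs, false⟩ g
          rw [hnear]
          exact Side.subset_chargeStep _ _ _ _ _ _
        · change (G.near ⟨l.off, c :: l.cs, false⟩ g \ G.near l g).card ≤ G.V0 + 1
          rw [hnear, sideCs_length]
          have := j2_charge_card (nearSide_wf hW) (inZoneN hW g (l.off g) hlen).of_succ
            (some ((c g).2 : ℕ)) (G.near l g)
          exact le_trans this (Nat.le_succ _)
      · -- the far side is charged
        have hc' : (c g).1 = false := by simpa using hc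
        right; right
        have hnear : G.near ⟨l.off, c :: l.cs, false⟩ g = G.near l g := by
          unfold near Side.runB
          rw [if_pos hf]
          simp only [sideCs, List.map_cons, hc', Bool.false_eq_true, if_false, Side.run,
            Side.chargeStep, Side.runF]
        have hfar : G.far ⟨l.off, c :: l.cs, false⟩ g =
            G.farSide.chargeStep (G.j0F g (l.off g)) false (G.sideCs g false l.cs).length
              (some ((c g).2 : ℕ)) (G.far l g) := by
          unfold far Side.runB
          rw [if_pos hf]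
          simp only [sideCs, List.map_cons, hc', if_true, Side.run, Side.runF, Bool.false_eq_true,
            if_false]
        refine ⟨hnear, ?_, ?_⟩
        · change G.far l g ⊆ G.far ⟨l.off, c :: l.cs, false⟩ g
          rw [hfar]
          exact Side.subset_chargeStep _ _ _ _ _ _
        · change (G.far ⟨l.off, c :: l.cs, false⟩ g \ G.far l g).card ≤ G.V0 + 1
          rw [hfar, sideCs_length]
          have := j2_charge_card (farSide_wf hW) (inZoneF hW g (l.off g) hlen).of_succ
            (some ((c g).2 : ℕ)) (G.far l g)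
          exact le_trans this (Nat.le_succ _)
  · rw [if_neg hf]
    intro g
    have hf' : l.fl = false := by simpa using hf
    have hnear : G.near ⟨l.off, l.cs, true⟩ g =
        G.nearSide.fillStep (G.j0N g (l.off g)) true l.cs.length (G.near l g) := by
      unfold near Side.runB
      rw [if_neg hf]
      simp only [if_true, Side.runF, sideCs_length]
    have hfar : G.far ⟨l.off, l.cs, true⟩ g =
        G.farSide.fillStep (G.j0F g (l.off g)) false l.cs.length (G.far l g) := by
      unfold far Side.runB
      rw [if_neg hf]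
      simp only [if_true, Side.runF, sideCs_length]
    by_cases hp : (l.cs.length % 2 == 0) = true
    · right; left
      refine ⟨?_, ?_, ?_⟩
      · change G.far ⟨l.off, l.cs, true⟩ g = G.far l g
        rw [hfar]
        exact j2_fill_ne _ _ _ _ _ (by simp [hp])
      · change G.near l g ⊆ G.near ⟨l.off, l.cs, true⟩ g
        rw [hnear]
        exact Side.subset_fillStep _ _ _ _ _
      · change (G.near ⟨l.off, l.cs, true⟩ g \ G.near l g).card ≤ G.V0 + 1
        rw [hnear]
        exact le_trans (j2_fill_card _ _ _ _ _) (by omega)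
    · right; right
      refine ⟨?_, ?_, ?_⟩
      · change G.near ⟨l.off, l.cs, true⟩ g = G.near l g
        rw [hnear]
        exact j2_fill_ne _ _ _ _ _ hp
      · change G.far l g ⊆ G.far ⟨l.off, l.cs, true⟩ g
        rw [hfar]
        exact Side.subset_fillStep _ _ _ _ _
      · change (G.far ⟨l.off, l.cs, true⟩ g \ G.far l g).card ≤ G.V0 + 1
        rw [hfar]
        exact le_trans (j2_fill_card _ _ _ _ _) (by omega)

omit [DecidableEq Λ] [Fintype Λ] in
/-- a sum of indicators is the cardinality of a filter -/
theorem j2_sum_ind (P : ι → Prop) [DecidablePred P] :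
    ∑ i, ind (P i) = ((univ.filter P).card : ℝ) := by
  rw [card_filter]
  push_cast
  refine sum_congr rfl fun i _ => ?_
  unfold ind
  by_cases h : P i <;> simp [h]

/-- Lemma 8.1 (2): at most `3 Mn` terms split on one side of one band -/
theorem sum_ind_splitN_le (hW : G.WF) {l : G.Lab} (hl : G.Reach l) (g : Fin G.K) :
    ∑ i, ind (G.SplitN l g i) ≤ 3 * (G.Mn : ℝ) := by
  classical
  rw [j2_sum_ind]
  have b := jN_bounds hW hl g
  have hb := band_le hW g
  have h3 := hW.sep
  push_cast at b
  have hb' : (8 * (g : ℤ) * G.m) + 8 * G.m ≤ G.L := by exact_mod_cast hb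
  have h0 : (0 : ℤ) ≤ 8 * (g : ℤ) * G.m := by positivity
  have key := hW.win_card (G.jN l g - G.r0).toNat (by omega) (by omega)
  have : (univ.filter fun i => G.SplitN l g i).card ≤ 3 * G.Mn := by
    refine le_trans (card_le_card ?_) key
    intro i hi
    rw [mem_filter] at hi ⊢
    have w := j2_windowN hW hl g hi.2
    exact ⟨mem_univ _, by omega, by omega⟩
  exact_mod_cast this

theorem sum_ind_splitF_le (hW : G.WF) {l : G.Lab} (hl : G.Reach l) (g : Fin G.K) :
    ∑ i, ind (G.SplitF l g i) ≤ 3 * (G.Mn : ℝ) := by
  classical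
  rw [j2_sum_ind]
  have b := jF_bounds hW hl g
  have hb := band_le hW g
  have h3 := hW.sep
  push_cast at b
  have hb' : (8 * (g : ℤ) * G.m) + 8 * G.m ≤ G.L := by exact_mod_cast hb
  have h0 : (0 : ℤ) ≤ 8 * (g : ℤ) * G.m := by positivity
  have key := hW.win_card (-G.jF l g - G.D - 2 * G.r0).toNat (by omega) (by omega)
  have : (univ.filter fun i => G.SplitF l g i).card ≤ 3 * G.Mn := by
    refine le_trans (card_le_card ?_) key
    intro i hi
    rw [mem_filter] at hi ⊢
    have w := j2_windowF hW hl g hi.2
    exact ⟨mem_univ _, by omega, by omega⟩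
  exact_mod_cast this

/-- a depth row has at most `n` sites -/
theorem row_card_le (hW : G.WF) {j : ℕ} (h1 : 1 ≤ j) (h2 : j ≤ G.L) :
    (univ.filter fun x => G.dp x = j).card ≤ G.n := by
  have hsub : (univ.filter fun x => G.dp x = j).image some ⊆ (range G.n).image (G.slot j) := by
    intro o ho
    obtain ⟨x, hx, rfl⟩ := mem_image.1 ho
    rw [mem_filter] at hx
    obtain ⟨c, hc, hs⟩ := hW.slot_surj j x h1 h2 hx.2
    exact mem_image.2 ⟨c, mem_range.2 hc, hs⟩
  calc (univ.filter fun x => G.dp x = j).card
      = ((univ.filter fun x => G.dp x = j).image some).card :=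
        (card_image_of_injective _ (Option.some_injective _)).symm
    _ ≤ ((range G.n).image (G.slot j)).card := card_le_card hsub
    _ ≤ (range G.n).card := card_image_le
    _ = G.n := card_range _

/-- a strip of `k` rows has at most `n k` sites -/
theorem j2_strip_card_le (hW : G.WF) {a k : ℕ} (h1 : 1 ≤ a) (h2 : a + k ≤ G.L + 1) :
    (univ.filter fun x => a ≤ G.dp x ∧ G.dp x < a + k).card ≤ G.n * k := by
  have hsub : (univ.filter fun x => a ≤ G.dp x ∧ G.dp x < a + k) ⊆
      (range k).biUnion fun e => univ.filter fun x => G.dp x = a + e := by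
    intro x hx
    rw [mem_filter] at hx
    rw [mem_biUnion]
    exact ⟨G.dp x - a, mem_range.2 (by omega), mem_filter.2 ⟨mem_univ _, by omega⟩⟩
  refine le_trans (card_le_card hsub) (le_trans card_biUnion_le ?_)
  calc ∑ e ∈ range k, (univ.filter fun x => G.dp x = a + e).card
      ≤ ∑ _e ∈ range k, G.n := by
        refine sum_le_sum fun e he => ?_
        rw [mem_range] at he
        exact row_card_le hW (by omega) (by omega)
    _ = G.n * k := by rw [sum_const, card_range, smul_eq_mul, Nat.mul_comm]

/-- Lemma 8.1 (2): the matched prefix of `U = near \ X` -/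
theorem prefix_near (hW : G.WF) {l : G.Lab} (hl : G.Reach l) (g : Fin G.K) :
    ∃ j, j ≤ G.L ∧ G.Pre j ⊆ G.near l g \ G.X ∧
      ((G.near l g \ G.X) \ G.Pre j).card ≤ G.n * (G.D + G.r0 + 1) := by
  have b := jN_bounds hW hl g
  have hb := band_le hW g
  have h3 := hW.sep
  push_cast at b
  have hb' : (8 * (g : ℤ) * G.m) + 8 * G.m ≤ G.L := by exact_mod_cast hb
  have h0 : (0 : ℤ) ≤ 8 * (g : ℤ) * G.m := by positivity
  refine ⟨(G.jN l g - 1).toNat, by omega, ?_, ?_⟩
  · intro x hx
    simp only [Pre, mem_filter, mem_univ, true_and] at hx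
    rw [mem_sdiff]
    refine ⟨mem_near_of_lt hW hl g (by omega), ?_⟩
    simp only [X, mem_filter, mem_univ, true_and]
    omega
  · refine le_trans (card_le_card ?_)
      (j2_strip_card_le hW (a := (G.jN l g).toNat) (k := G.D + G.r0 + 1) (by omega) (by omega))
    intro x hx
    simp only [Pre, X, mem_sdiff, mem_filter, mem_univ, true_and] at hx
    have := near_dp_le hW hl g hx.1.1
    rw [mem_filter]
    exact ⟨mem_univ _, by omega, by omega⟩

/-- Lemma 8.1 (2): the matched prefix of `U ∪ Y = farᶜ \ X` -/
theorem prefix_far (hW : G.WF) {l : G.Lab} (hl : G.Reach l) (g : Fin G.K) :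
    ∃ j, j ≤ G.L ∧ (G.far l g)ᶜ \ G.X ⊆ G.Pre j ∧
      (G.Pre j \ ((G.far l g)ᶜ \ G.X)).card ≤ G.n * (G.D + G.r0 + 1) := by
  have b := jF_bounds hW hl g
  have hb := band_le hW g
  have h3 := hW.sep
  push_cast at b
  have hb' : (8 * (g : ℤ) * G.m) + 8 * G.m ≤ G.L := by exact_mod_cast hb
  have h0 : (0 : ℤ) ≤ 8 * (g : ℤ) * G.m := by positivity
  refine ⟨(-G.jF l g).toNat, by omega, ?_, ?_⟩
  · intro x hx
    simp only [X, mem_sdiff, mem_compl, mem_filter, mem_univ, true_and] at hx
    have h1 : ¬ (-(G.dp x : ℤ) < G.jF l g) := fun h => hx.1 (mem_far_of_lt hW hl g h)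
    simp only [Pre, mem_filter, mem_univ, true_and]
    omega
  · refine le_trans (card_le_card ?_)
      (j2_strip_card_le hW (a := (-G.jF l g - G.D - G.r0).toNat) (k := G.D + G.r0 + 1)
        (by omega) (by omega))
    intro x hx
    simp only [Pre, X, mem_sdiff, mem_compl, mem_filter, mem_univ, true_and, not_and,
      not_not] at hx
    have hxf : x ∈ G.far l g := by
      by_contra hcon
      have := hx.2 hcon
      omega
    have := far_dp_ge hW hl g hxf
    rw [mem_filter]
    exact ⟨mem_univ _, by omega, by omega⟩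

end Claimed.Agent.R296.Scan.Geom
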