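import Claimed.Agent.R296.Scan.TplGeo

/-!
# Row 296, paper 1, Section 8: physical regions of rectangular templates (Lemma 8.4 (a), (c))

Rows, sizes and edge boundaries of `X = A ∩ T`, `S₀ = A ∩ T_L`, `S₀ \ X` inside the domain `Λ`,
from the ambient counts of `TplGeo.lean`.  Prefix `tpl_`.
-/

set_option autoImplicit false

namespace Claimed.Agent.R296.Scan

open Matrix Claims.C0473 Finset

section Physical

variable {Λ : Finset (ℤ × ℤ)} {A : Finset Λ} {T U : Finset (ℤ × ℤ)} {j : ℕ}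

theorem tpl_tplS_eq : tplS A T j = tplX A (dilF T j) := by
  ext x
  simp only [tplS, tplX, mem_filter, tpl_mem_dilF]

theorem tpl_tplX_mono (h : T ⊆ U) : tplX A T ⊆ tplX A U := by
  intro x hx
  simp only [tplX, mem_filter] at hx ⊢
  exact ⟨hx.1, h hx.2⟩

/-- physical rows are not larger than ambient rows -/
theorem tpl_phys_row_card : (tplS A T j \ tplS A T (j - 1)).card ≤
    (dilF T j \ dilF T (j - 1)).card := by
  rw [tpl_tplS_eq, tpl_tplS_eq, ← bx_tplX_sdiff]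
  exact bx_tplX_card _ _

/-- the four lattice neighbours of a point -/
noncomputable def tplNbr (y : ℤ × ℤ) : Finset (ℤ × ℤ) :=
  {(y.1 + 1, y.2), (y.1 - 1, y.2), (y.1, y.2 + 1), (y.1, y.2 - 1)}

theorem tpl_card_tplNbr (y : ℤ × ℤ) : (tplNbr y).card ≤ 4 := by
  unfold tplNbr
  exact card_le_four

theorem tpl_mem_tplNbr {x y : ℤ × ℤ} (h : |x.1 - y.1| + |x.2 - y.2| = 1) : x ∈ tplNbr y := by
  unfold tplNbr
  obtain ⟨x1, x2⟩ := x
  simp only [mem_insert, mem_singleton, Prod.mk.injEq]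
  simp only at h
  rcases abs_cases (x1 - y.1) with ⟨h1, _⟩ | ⟨h1, _⟩ <;>
  rcases abs_cases (x2 - y.2) with ⟨h2, _⟩ | ⟨h2, _⟩ <;> rw [h1, h2] at h <;> omega

/-- Lemma 8.4 (c): a region `A ∩ U` without cut end has at most `4 |U_1 \ U|` boundary edges -/
theorem tpl_edgeBoundary_le (hU : ∀ x ∈ U, x ∉ cutEnds Λ A) :
    edgeBoundary Λ (tplX A U) ≤ 4 * (dilF U 1 \ U).card := by
  unfold edgeBoundary
  set E := univ.filter fun p : Λ × Λ => p.1 ∈ tplX A U ∧ p.2 ∉ tplX A U ∧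
    |(p.1 : ℤ × ℤ).1 - (p.2 : ℤ × ℤ).1| + |(p.1 : ℤ × ℤ).2 - (p.2 : ℤ × ℤ).2| = 1 with hE
  have hmem : ∀ p ∈ E, p.1 ∈ tplX A U ∧ p.2 ∉ tplX A U ∧
      |(p.1 : ℤ × ℤ).1 - (p.2 : ℤ × ℤ).1| + |(p.1 : ℤ × ℤ).2 - (p.2 : ℤ × ℤ).2| = 1 := by
    intro p hp
    simpa [hE] using hp
  have himg : E.image (fun p : Λ × Λ => (p.2 : ℤ × ℤ)) ⊆ dilF U 1 \ U := by
    intro y hy
    obtain ⟨p, hp, rfl⟩ := mem_image.mp hy
    obtain ⟨h1, h2, h3⟩ := hmem p hp
    simp only [tplX, mem_filter] at h1 h2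
    have hA : p.2 ∈ A := by
      by_contra hA
      exact hU _ h1.2 (tg_mem_cutEnds (ct_adj_dOne.mpr h3) h1.1 hA)
    rw [mem_sdiff, tpl_mem_dilF]
    refine ⟨⟨_, h1.2, ?_⟩, fun h => h2 ⟨hA, h⟩⟩
    have := ct_dInf_le_dOne (p.1 : ℤ × ℤ) (p.2 : ℤ × ℤ)
    have h3' : dOne (p.1 : ℤ × ℤ) (p.2 : ℤ × ℤ) = 1 := h3
    rw [h3'] at this
    exact_mod_cast this
  refine (card_le_mul_card_image (f := fun p : Λ × Λ => (p.2 : ℤ × ℤ)) E 4 fun y _ => ?_).trans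
    (Nat.mul_le_mul_left 4 (card_le_card himg))
  refine le_trans ?_ (tpl_card_tplNbr y)
  apply card_le_card_of_injOn (fun p : Λ × Λ => (p.1 : ℤ × ℤ))
  · intro p hp
    have hp' : p ∈ E ∧ (p.2 : ℤ × ℤ) = y := by simpa using hp
    obtain ⟨_, _, h3⟩ := hmem p hp'.1
    have hy : (p.2 : ℤ × ℤ) = y := hp'.2
    rw [hy] at h3
    simpa using tpl_mem_tplNbr h3
  · intro p hp p' hp' hpp
    have h1 : (p.2 : ℤ × ℤ) = y := (show p ∈ E ∧ (p.2 : ℤ × ℤ) = y by simpa using hp).2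
    have h2 : (p'.2 : ℤ × ℤ) = y := (show p' ∈ E ∧ (p'.2 : ℤ × ℤ) = y by simpa using hp').2
    have e1 : p.1 = p'.1 := Subtype.ext hpp
    have e2 : p.2 = p'.2 := Subtype.ext (h1.trans h2.symm)
    exact Prod.ext e1 e2

theorem tpl_edgeBoundary_sdiff {S X : Finset Λ} (h : X ⊆ S) :
    edgeBoundary Λ (S \ X) ≤ edgeBoundary Λ S + edgeBoundary Λ X := by
  have _ := h
  unfold edgeBoundary
  set ES := univ.filter fun p : Λ × Λ => p.1 ∈ S ∧ p.2 ∉ S ∧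
    |(p.1 : ℤ × ℤ).1 - (p.2 : ℤ × ℤ).1| + |(p.1 : ℤ × ℤ).2 - (p.2 : ℤ × ℤ).2| = 1 with hES
  set EX := univ.filter fun p : Λ × Λ => p.1 ∈ X ∧ p.2 ∉ X ∧
    |(p.1 : ℤ × ℤ).1 - (p.2 : ℤ × ℤ).1| + |(p.1 : ℤ × ℤ).2 - (p.2 : ℤ × ℤ).2| = 1 with hEX
  have hsub : (univ.filter fun p : Λ × Λ => p.1 ∈ S \ X ∧ p.2 ∉ S \ X ∧
      |(p.1 : ℤ × ℤ).1 - (p.2 : ℤ × ℤ).1| + |(p.1 : ℤ × ℤ).2 - (p.2 : ℤ × ℤ).2| = 1) ⊆
      ES ∪ EX.image Prod.swap := by
    intro p hp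
    simp only [mem_filter, mem_univ, true_and, mem_sdiff, not_and, not_not] at hp
    obtain ⟨⟨h1, h1'⟩, h2, h3⟩ := hp
    rw [mem_union]
    by_cases hS : p.2 ∈ S
    · right
      rw [mem_image]
      refine ⟨(p.2, p.1), ?_, rfl⟩
      simp only [hEX, mem_filter, mem_univ, true_and]
      refine ⟨h2 hS, h1', ?_⟩
      rw [abs_sub_comm, abs_sub_comm (p.2 : ℤ × ℤ).2]
      exact h3
    · left
      simp only [hES, mem_filter, mem_univ, true_and]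
      exact ⟨h1, hS, h3⟩
  exact (card_le_card hsub).trans ((card_union_le _ _).trans
    (Nat.add_le_add_left card_image_le _))

/-- all geometric assertions of Proposition 8.6 and the geometric hypotheses of the scanner;
the clearance `3 L < dist(T, Z)` follows from the template clearance (`tpl_clear_of_template`)
and, for large scales, from the safety of a rectangle -/
theorem tpl_collar_geo {Ctpl n s0 L : ℕ} (hC : 12 ≤ Ctpl) (hT : IsTemplate Ctpl T n s0)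
    (hclear : ∀ x ∈ T, ∀ z ∈ cutEnds Λ A, (3 * L : ℤ) < dInf x z) (hL : L ≤ s0) :
    (tplS A T L).card ≤ n ^ 2 ∧
    (∀ j, 1 ≤ j → j ≤ L → (tplS A T j \ tplS A T (j - 1)).card ≤ n) ∧
    edgeBoundary Λ (tplX A T) ≤ 4 * n ∧
    edgeBoundary Λ (tplS A T L \ tplX A T) ≤ 8 * n ∧
    edgeBoundary Λ (tplS A T L) ≤ 4 * n := by
  have hL0 : (0 : ℤ) ≤ L := Int.natCast_nonneg L
  have hX : edgeBoundary Λ (tplX A T) ≤ 4 * n := by
    refine (tpl_edgeBoundary_le fun x hx hz => ?_).trans (Nat.mul_le_mul_left 4 ?_)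
    · have := hclear x hx x hz
      rw [ct_dInf_self] at this
      linarith
    · have := tpl_row_card (j := 1) hC hT le_rfl (by omega)
      simpa [tpl_dilF_zero] using this
  have hS : edgeBoundary Λ (tplS A T L) ≤ 4 * n := by
    rw [tpl_tplS_eq]
    refine (tpl_edgeBoundary_le fun x hx hz => ?_).trans (Nat.mul_le_mul_left 4 ?_)
    · obtain ⟨t, ht, htx⟩ := tpl_mem_dilF.mp hx
      have := hclear t ht x hz
      linarith
    · have := tpl_row_card (j := L + 1) hC hT (by omega) (by omega)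
      rw [tpl_dilF_dilF]
      simpa using this
  refine ⟨?_, ?_, hX, ?_, hS⟩
  · rw [tpl_tplS_eq]
    exact (bx_tplX_card _ _).trans (tpl_dil_card hC hT hL)
  · intro j h1 hj
    exact tpl_phys_row_card.trans (tpl_row_card hC hT h1 (by omega))
  · have hsub : tplX A T ⊆ tplS A T L := by
      rw [tpl_tplS_eq]
      exact tpl_tplX_mono tpl_subset_dilF
    have := tpl_edgeBoundary_sdiff hsub
    omega

theorem tpl_clear_of_template {Z : Finset (ℤ × ℤ)} {D0 s0 L : ℕ} (hD0 : 1 ≤ D0) (hL : L ≤ s0)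
    (hclear : ∀ x ∈ T, ∀ z ∈ Z, (4 * D0 * s0 : ℤ) < dInf x z) :
    ∀ x ∈ T, ∀ z ∈ Z, (3 * L : ℤ) < dInf x z := by
  intro x hx z hz
  have h1 := hclear x hx z hz
  have h2 : (L : ℤ) ≤ s0 := by exact_mod_cast hL
  have h3 : (1 : ℤ) ≤ D0 := by exact_mod_cast hD0
  have h4 : (0 : ℤ) ≤ s0 := by positivity
  nlinarith

end Physical

end Claimed.Agent.R296.Scan
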