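import Claimed.Agent.R296.Scan.Canon
import Claimed.Agent.R296.Scan.Joint
import Claimed.Agent.R296.Sec3Trunc
import Claimed.Agent.R296.TopGlue
import Claimed.Agent.R296.Scan.TplPhys

/-!
# Row 296, P1 Section 8: the scan geometry of a lattice target (package S8-G1)

`Λ ⊆ ℤ²` finite, `A` the cut, `T` the ambient target, `S₀ = tplS A T L`.

* capped depth `latDp x = #{j ≤ L : x ∉ tplS A T j}` (`= min (dist_∞ (x, T)) (L+1)` inside `A`,
  `L + 1` outside `A`), so that `latDp x ≤ j ↔ x ∈ tplS A T j` for `j ≤ L`;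
* labelled terms `AdmIx Λ R`, anchors `latAnc`, designated supports `latSup` (= `lrTSupp`);
* `latDp` is 1-Lipschitz along the edges of `Λ` because the cut ends are farther than `L` from `T`.
-/

set_option autoImplicit false

namespace Claimed.Agent.R296.Scan

open Finset Claims.C0473

variable {Λ : Finset (ℤ × ℤ)}

/-- capped depth -/
def latDp (A : Finset Λ) (T : Finset (ℤ × ℤ)) (L : ℕ) (x : Λ) : ℕ :=
  ((range (L + 1)).filter fun j => x ∉ tplS A T j).card

/-- a fixed anchor in every admissible support -/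
noncomputable def latAnc {R : ℕ} (X : AdmIx Λ R) : Λ := (admIx_nonempty X).choose

/-- the designated supports of the truncated terms -/
noncomputable def latSup (R r0 : ℕ) (S0 : Finset Λ) (X : AdmIx Λ R) : Finset Λ :=
  lrTSupp (latticeGraph Λ) r0 S0 (latAnc X)

/-- the scan geometry of a lattice target -/
noncomputable def latGeom (R : ℕ) (A : Finset Λ) (T : Finset (ℤ × ℤ)) (n L m K D r0 : ℕ) :
    Geom Λ (AdmIx Λ R) :=
  Geom.ofData n L m K D r0 (muR R * n * (D + r0 + 1)) (muR R * (2 * r0 + 1) ^ 2) (latDp A T L)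
    latAnc (latSup R r0 (tplS A T L))

variable {A : Finset Λ} {T : Finset (ℤ × ℤ)} {L : ℕ}

theorem latAnc_mem {R : ℕ} (X : AdmIx Λ R) : latAnc X ∈ X.1 := (admIx_nonempty X).choose_spec

theorem tplS_mono {j j' : ℕ} (h : j ≤ j') : tplS A T j ⊆ tplS A T j' := by
  intro x hx
  simp only [tplS, mem_filter] at hx ⊢
  obtain ⟨hA, t, ht, htx⟩ := hx
  have : (j : ℤ) ≤ j' := by exact_mod_cast h
  exact ⟨hA, t, ht, htx.trans this⟩

theorem tplS_zero : tplS A T 0 = tplX A T := by
  rw [tpl_tplS_eq, tpl_dilF_zero]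

theorem latDp_le (x : Λ) : latDp A T L x ≤ L + 1 := by
  unfold latDp
  exact (card_filter_le _ _).trans (by simp)

theorem latDp_le_iff {j : ℕ} (hj : j ≤ L) (x : Λ) : latDp A T L x ≤ j ↔ x ∈ tplS A T j := by
  unfold latDp
  constructor
  · intro h
    by_contra hx
    have hsub : range (j + 1) ⊆ (range (L + 1)).filter fun i => x ∉ tplS A T i := by
      intro i hi
      rw [mem_range] at hi
      rw [mem_filter, mem_range]
      exact ⟨by omega, fun h' => hx (tplS_mono (by omega) h')⟩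
    have := card_le_card hsub
    rw [card_range] at this
    omega
  · intro hx
    have hsub : ((range (L + 1)).filter fun i => x ∉ tplS A T i) ⊆ range j := by
      intro i hi
      rw [mem_filter] at hi
      rw [mem_range]
      by_contra hij
      exact hi.2 (tplS_mono (by omega) hx)
    have := card_le_card hsub
    rwa [card_range] at this

theorem latDp_eq_zero_iff (x : Λ) : latDp A T L x = 0 ↔ x ∈ tplX A T := by
  rw [← tplS_zero, ← latDp_le_iff (Nat.zero_le L), Nat.le_zero]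

theorem latDp_eq_succ_iff (x : Λ) : latDp A T L x = L + 1 ↔ x ∉ tplS A T L := by
  rw [← latDp_le_iff le_rfl]
  have := latDp_le (A := A) (T := T) (L := L) x
  omega

/-- the rows of the capped depth are the layers of the dilations -/
theorem filter_latDp_eq {j : ℕ} (h1 : 1 ≤ j) (hj : j ≤ L) :
    (univ.filter fun x => latDp A T L x = j) = tplS A T j \ tplS A T (j - 1) := by
  ext x
  rw [mem_filter, mem_sdiff, ← latDp_le_iff hj, ← latDp_le_iff (by omega : j - 1 ≤ L)]
  simp only [mem_univ, true_and]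
  omega

/-- the capped depth is 1-Lipschitz along the edges of `Λ` -/
theorem latDp_adj (hcl : ∀ x ∈ T, ∀ z ∈ cutEnds Λ A, (L : ℤ) < dInf x z) {x y : Λ}
    (h : (latticeGraph Λ).Adj x y) : latDp A T L y ≤ latDp A T L x + 1 := by
  by_cases hx : L ≤ latDp A T L x
  · exact (latDp_le y).trans (by omega)
  · have hlt : latDp A T L x + 1 ≤ L := by omega
    rw [latDp_le_iff hlt]
    have hx' := (latDp_le_iff (by omega : latDp A T L x ≤ L) x).mp le_rfl
    simp only [tplS, mem_filter] at hx' ⊢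
    obtain ⟨hA, t, ht, htx⟩ := hx'
    have hyA : y ∈ A := by
      by_contra hyA
      have h1 := hcl t ht _ (tg_mem_cutEnds h hA hyA)
      have h2 : ((latDp A T L x : ℕ) : ℤ) + 1 ≤ L := by exact_mod_cast hlt
      linarith
    refine ⟨hyA, t, ht, ?_⟩
    have h3 := ct_dInf_triangle t (x : ℤ × ℤ) (y : ℤ × ℤ)
    have h4 := ct_dInf_le_dOne (x : ℤ × ℤ) (y : ℤ × ℤ)
    rw [ct_adj_dOne.mp h] at h4
    push_cast
    linarith

theorem latDp_walk (hcl : ∀ x ∈ T, ∀ z ∈ cutEnds Λ A, (L : ℤ) < dInf x z) {x y : Λ}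
    (w : (latticeGraph Λ).Walk x y) : latDp A T L y ≤ latDp A T L x + w.length := by
  induction w with
  | nil => simp
  | @cons u v w' hadj p ih =>
    have h1 := latDp_adj hcl hadj
    rw [SimpleGraph.Walk.length_cons]
    omega

theorem latDp_edist (hcl : ∀ x ∈ T, ∀ z ∈ cutEnds Λ A, (L : ℤ) < dInf x z) {x y : Λ} {r : ℕ}
    (h : (latticeGraph Λ).edist x y ≤ (r : ℕ∞)) : latDp A T L y ≤ latDp A T L x + r := by
  obtain ⟨w, hw⟩ := ct_exists_walk h
  have := latDp_walk hcl w
  omega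

theorem lat_lrBall_eq (a : Λ) (r : ℕ) : lrBall (latticeGraph Λ) a r = gBall Λ a r := by
  ext y
  rw [mem_lrBall, ct_mem_gBall]

/-- a designated support either avoids `S₀` or is the ball of radius `r0` -/
theorem latSup_cases (R r0 : ℕ) (S0 : Finset Λ) (X : AdmIx Λ R) :
    Disjoint (latSup R r0 S0 X) S0 ∨ latSup R r0 S0 X = gBall Λ (latAnc X) r0 := by
  by_cases hd : Disjoint (latSup R r0 S0 X) S0
  · exact Or.inl hd
  · right
    rw [not_disjoint_iff] at hd
    obtain ⟨x, hx1, hx2⟩ := hd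
    rw [← lat_lrBall_eq]
    exact lr_cross_radius hx2 hx1

theorem latAnc_mem_latSup (R r0 : ℕ) (S0 : Finset Λ) (X : AdmIx Λ R) :
    latAnc X ∈ latSup R r0 S0 X := by
  unfold latSup lrTSupp
  split_ifs
  · rw [mem_lrComp, SimpleGraph.edist_self]
    exact ENat.zero_ne_top
  · rw [mem_lrBall, SimpleGraph.edist_self]
    exact zero_le

/-- number of labelled terms with anchor in a set of sites -/
theorem card_anchors_le (R : ℕ) (B : Finset Λ) :
    (univ.filter fun X : AdmIx Λ R => latAnc X ∈ B).card ≤ muR R * B.card := by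
  have hsub : (univ.filter fun X : AdmIx Λ R => latAnc X ∈ B) ⊆
      B.biUnion fun a => univ.filter fun X : AdmIx Λ R => latAnc X = a := by
    intro X hX
    rw [mem_filter] at hX
    rw [mem_biUnion]
    exact ⟨latAnc X, hX.2, by simp⟩
  refine (card_le_card hsub).trans ?_
  rw [mul_comm]
  exact card_biUnion_le_card_mul _ _ _ fun a _ => admIx_anchor_mult latAnc latAnc_mem a

theorem lat_muR_pos (R : ℕ) : 0 < muR R := by
  unfold muR
  positivity

/-- a window of `w + 1` rows contains at most `n (w + 1)` sites -/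
theorem lat_window_card {n : ℕ}
    (hrow : ∀ j, 1 ≤ j → j ≤ L → (tplS A T j \ tplS A T (j - 1)).card ≤ n) (lo w : ℕ)
    (h1 : 1 ≤ lo) (h2 : lo + w ≤ L) :
    (univ.filter fun x : Λ => lo ≤ latDp A T L x ∧ latDp A T L x ≤ lo + w).card ≤ n * (w + 1) := by
  have hsub : (univ.filter fun x : Λ => lo ≤ latDp A T L x ∧ latDp A T L x ≤ lo + w) ⊆
      (Icc lo (lo + w)).biUnion fun j => univ.filter fun x : Λ => latDp A T L x = j := by
    intro x hx
    rw [mem_filter] at hx
    rw [mem_biUnion]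
    exact ⟨latDp A T L x, mem_Icc.mpr hx.2, by simp⟩
  refine (card_le_card hsub).trans ?_
  have hc : (Icc lo (lo + w)).card = w + 1 := by
    rw [Nat.card_Icc]
    omega
  rw [mul_comm, ← hc]
  apply card_biUnion_le_card_mul
  intro j hj
  rw [mem_Icc] at hj
  rw [filter_latDp_eq (by omega) (by omega)]
  exact hrow j (by omega) (by omega)

/-- number of labelled terms with anchor in a window of rows -/
theorem lat_window_anchors (R : ℕ) {n : ℕ}
    (hrow : ∀ j, 1 ≤ j → j ≤ L → (tplS A T j \ tplS A T (j - 1)).card ≤ n) (lo w : ℕ)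
    (h1 : 1 ≤ lo) (h2 : lo + w ≤ L) :
    (univ.filter fun X : AdmIx Λ R => lo ≤ latDp A T L (latAnc X) ∧
      latDp A T L (latAnc X) ≤ lo + w).card ≤ muR R * n * (w + 1) := by
  have h3 := card_anchors_le R
    (univ.filter fun x : Λ => lo ≤ latDp A T L x ∧ latDp A T L x ≤ lo + w)
  have h4 := lat_window_card hrow lo w h1 h2
  have e : (univ.filter fun X : AdmIx Λ R => latAnc X ∈
      (univ.filter fun x : Λ => lo ≤ latDp A T L x ∧ latDp A T L x ≤ lo + w)) =
      (univ.filter fun X : AdmIx Λ R => lo ≤ latDp A T L (latAnc X) ∧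
      latDp A T L (latAnc X) ≤ lo + w) := by
    ext X
    simp
  rw [e] at h3
  refine h3.trans ?_
  rw [mul_assoc]
  exact Nat.mul_le_mul_left _ h4

/-- a designated support whose anchor lies in `S₀` is a ball -/
theorem latSup_eq_ball (R r0 : ℕ) (X : AdmIx Λ R) (h : latDp A T L (latAnc X) ≤ L) :
    latSup R r0 (tplS A T L) X = gBall Λ (latAnc X) r0 := by
  rcases latSup_cases R r0 (tplS A T L) X with hd | he
  · exact absurd ((latDp_le_iff le_rfl _).mp h)
      (disjoint_left.mp hd (latAnc_mem_latSup R r0 _ X))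
  · exact he

/-- **well-formedness of the lattice scan geometry** -/
theorem latGeom_ok (R : ℕ) {n m K D r0 : ℕ} (hn : 0 < n) (hK : 0 < K) (hm : 0 < m)
    (hfit : 8 * m * K ≤ L) (hsep : 100 * (D + r0 + 1) ≤ m) (hr0 : 2 * r0 ≤ D)
    (hrow : ∀ j, 1 ≤ j → j ≤ L → (tplS A T j \ tplS A T (j - 1)).card ≤ n)
    (hcl : ∀ x ∈ T, ∀ z ∈ cutEnds Λ A, (L : ℤ) < dInf x z) :
    (latGeom R A T n L m K D r0).WF := by
  have hmu := lat_muR_pos R
  apply Geom.ofData_wf
  refine ⟨hn, hK, hm, by positivity, hfit, hsep, hr0, latDp_le, fun X => latAnc_mem_latSup R r0 _ X,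
    ?_, ?_, ?_, ?_, ?_, ?_⟩
  · -- ball_dp
    intro X x hx
    rcases latSup_cases R r0 (tplS A T L) X with hd | he
    · have h1 := (latDp_eq_succ_iff x).mpr (disjoint_left.mp hd hx)
      have h2 := (latDp_eq_succ_iff (latAnc X)).mpr
        (disjoint_left.mp hd (latAnc_mem_latSup R r0 _ X))
      omega
    · rw [he, ct_mem_gBall] at hx
      refine ⟨latDp_edist hcl hx, ?_⟩
      rw [SimpleGraph.edist_comm] at hx
      exact latDp_edist hcl hx
  · -- row_card
    intro j h1 hj
    rw [filter_latDp_eq h1 hj]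
    exact hrow j h1 hj
  · -- lst_card
    intro lo h1 h2
    have := lat_window_anchors R hrow lo (D + r0) h1 (by omega)
    simpa only [add_assoc] using this
  · -- ball_card
    intro X hX
    rw [latSup_eq_ball R r0 X hX]
    refine (ct_ball_card _ _).trans ?_
    exact Nat.le_mul_of_pos_left _ hmu
  · -- ball_deg
    intro x
    have hsub : (univ.filter fun X : AdmIx Λ R => latDp A T L (latAnc X) ≤ L ∧
        x ∈ latSup R r0 (tplS A T L) X) ⊆
        univ.filter fun X : AdmIx Λ R => latAnc X ∈ gBall Λ x r0 := by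
      intro X hX
      rw [mem_filter] at hX ⊢
      refine ⟨mem_univ _, ?_⟩
      obtain ⟨_, h1, h2⟩ := hX
      rw [latSup_eq_ball R r0 X h1, ct_mem_gBall] at h2
      rw [ct_mem_gBall, SimpleGraph.edist_comm]
      exact h2
    refine (card_le_card hsub).trans ((card_anchors_le R _).trans ?_)
    exact Nat.mul_le_mul_left _ (ct_ball_card _ _)
  · -- win_card
    intro lo h1 h2
    have := lat_window_anchors R hrow lo (D + 3 * r0) h1 (by omega)
    have h3 : muR R * n * (D + 3 * r0 + 1) ≤ 3 * (muR R * n * (D + r0 + 1)) := by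
      have : D + 3 * r0 + 1 ≤ 3 * (D + r0 + 1) := by omega
      calc muR R * n * (D + 3 * r0 + 1) ≤ muR R * n * (3 * (D + r0 + 1)) :=
            Nat.mul_le_mul_left _ this
        _ = 3 * (muR R * n * (D + r0 + 1)) := by ring
    refine le_trans ?_ h3
    simpa only [add_assoc] using this

theorem latGeom_X (R n m K D r0 : ℕ) : (latGeom R A T n L m K D r0).X = tplX A T := by
  ext x
  unfold Geom.X
  rw [mem_filter]
  simp only [mem_univ, true_and]
  exact latDp_eq_zero_iff x

theorem latGeom_Pre (R n m K D r0 : ℕ) {j : ℕ} (hj : j ≤ L) :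
    (latGeom R A T n L m K D r0).Pre j = tplS A T j \ tplX A T := by
  ext x
  unfold Geom.Pre
  rw [mem_filter, mem_sdiff, ← latDp_le_iff hj, ← latDp_eq_zero_iff (L := L)]
  simp only [mem_univ, true_and]
  show 1 ≤ latDp A T L x ∧ latDp A T L x ≤ j ↔ _
  omega

/-- the target cut has at most `4 n` edges -/
theorem edgeBoundary_tplX_le {n : ℕ} (hL : 1 ≤ L)
    (hrow : (tplS A T 1 \ tplS A T 0).card ≤ n)
    (hcl : ∀ x ∈ T, ∀ z ∈ cutEnds Λ A, (L : ℤ) < dInf x z) :
    edgeBoundary Λ (tplX A T) ≤ 4 * n := by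
  have _ := hL
  unfold edgeBoundary
  set E := univ.filter fun p : Λ × Λ => p.1 ∈ tplX A T ∧ p.2 ∉ tplX A T ∧
    |(p.1 : ℤ × ℤ).1 - (p.2 : ℤ × ℤ).1| + |(p.1 : ℤ × ℤ).2 - (p.2 : ℤ × ℤ).2| = 1 with hE
  have hmem : ∀ p ∈ E, p.1 ∈ tplX A T ∧ p.2 ∉ tplX A T ∧
      |(p.1 : ℤ × ℤ).1 - (p.2 : ℤ × ℤ).1| + |(p.1 : ℤ × ℤ).2 - (p.2 : ℤ × ℤ).2| = 1 := by
    intro p hp
    simpa [hE] using hp
  have himg : E.image (fun p : Λ × Λ => p.2) ⊆ tplS A T 1 \ tplS A T 0 := by
    intro y hy
    obtain ⟨p, hp, rfl⟩ := mem_image.mp hy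
    obtain ⟨h1, h2, h3⟩ := hmem p hp
    rw [mem_sdiff, tplS_zero]
    refine ⟨?_, h2⟩
    simp only [tplX, mem_filter] at h1
    have hA : p.2 ∈ A := by
      by_contra hA
      have h4 := hcl _ h1.2 _ (tg_mem_cutEnds (ct_adj_dOne.mpr h3) h1.1 hA)
      rw [ct_dInf_self] at h4
      have : (0 : ℤ) ≤ L := Int.natCast_nonneg L
      linarith
    simp only [tplS, mem_filter]
    refine ⟨hA, _, h1.2, ?_⟩
    have := ct_dInf_le_dOne (p.1 : ℤ × ℤ) (p.2 : ℤ × ℤ)
    have h3' : dOne (p.1 : ℤ × ℤ) (p.2 : ℤ × ℤ) = 1 := h3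
    rw [h3'] at this
    exact_mod_cast this
  refine (card_le_mul_card_image (f := fun p : Λ × Λ => p.2) E 4 fun y _ => ?_).trans
    (Nat.mul_le_mul_left 4 ((card_le_card himg).trans hrow))
  refine le_trans ?_ (tpl_card_tplNbr (y : ℤ × ℤ))
  apply card_le_card_of_injOn (fun p : Λ × Λ => (p.1 : ℤ × ℤ))
  · intro p hp
    have hp' : p ∈ E ∧ p.2 = y := by simpa using hp
    obtain ⟨_, _, h3⟩ := hmem p hp'.1
    rw [hp'.2] at h3
    simpa using tpl_mem_tplNbr h3
  · intro p hp p' hp' hpp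
    have h1 : p.2 = y := (show p ∈ E ∧ p.2 = y by simpa using hp).2
    have h2 : p'.2 = y := (show p' ∈ E ∧ p'.2 = y by simpa using hp').2
    have e1 : p.1 = p'.1 := Subtype.ext hpp
    exact Prod.ext e1 (h1.trans h2.symm)

end Claimed.Agent.R296.Scan
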