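import Mathlib

/-!
# Row 296, P1 Section 8: the two scalar tools of the scanner estimate (package S8-H1)

* `sel_round`: telescoping over the rounds + mean value inequality: selection of a charge round and of
  an interpolation parameter in `(ε/2, ε)` (no integral, no continuity of `Q` is needed);
* `hol_sum`: the finite Hoelder inequality with exponent `1/8`.
-/

set_option autoImplicit false
set_option linter.unusedVariables false

namespace Claimed.Agent.R296.Scan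

open Finset Set

/-- mean value inequality -/
theorem sel_mvt {f f' : ℝ → ℝ} {a b c : ℝ} (hab : a ≤ b) (hc : ContinuousOn f (Icc a b))
    (hd : ∀ p ∈ Ioo a b, HasDerivAt f (f' p) p) (hlow : ∀ p ∈ Ioo a b, c ≤ f' p) :
    c * (b - a) ≤ f b - f a := by
  rcases hab.eq_or_lt with rfl | hlt
  · simp
  · obtain ⟨p, hp, hs⟩ := exists_hasDerivAt_eq_slope f f' hlt hc hd
    have h1 := hlow p hp
    rw [hs, le_div_iff₀ (by linarith)] at h1
    exact h1

/-- telescoping sum -/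
theorem sel_tele (g h : ℕ → ℝ) (n : ℕ) (hch : ∀ r, r + 1 < n + 1 → g r = h (r + 1)) :
    ∑ r ∈ Finset.range (n + 1), (g r - h r) = g n - h 0 := by
  induction n with
  | zero => simp
  | succ n ih =>
    rw [Finset.sum_range_succ, ih fun r hr => hch r (by omega), hch n (by omega)]
    ring

/-- selection of a charge round and a parameter -/
theorem sel_round {R : ℕ} (f f' Q : ℕ → ℝ → ℝ) (chg : ℕ → Prop) [DecidablePred chg]
    {err c ε : ℝ} (hε0 : 0 < ε) (hε1 : ε ≤ 1)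
    (hcont : ∀ r < R, ContinuousOn (f r) (Icc 0 1))
    (hder : ∀ r < R, ∀ p ∈ Ioo (0 : ℝ) 1, HasDerivAt (f r) (f' r p) p)
    (hlow : ∀ r < R, ∀ p ∈ Ioo (0 : ℝ) 1, -err ≤ f' r p)
    (hgain : ∀ r < R, chg r → ∀ p ∈ Ioo (0 : ℝ) 1, c * Q r p - err ≤ f' r p)
    (hchain : ∀ r, r + 1 < R → f r 1 = f (r + 1) 0)
    (hN : 0 < ((Finset.range R).filter chg).card) :
    ∃ r < R, chg r ∧ ∃ p ∈ Ioo (ε / 2) ε,
      c * (ε / 2) * (((Finset.range R).filter chg).card : ℝ) * Q r p ≤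
        f (R - 1) 1 - f 0 0 + R * err := by
  set S := (Finset.range R).filter chg with hS
  have hSne : S.Nonempty := Finset.card_pos.mp hN
  have hR : 1 ≤ R := by
    obtain ⟨r, hr⟩ := hSne
    have := (Finset.mem_filter.mp hr).1
    rw [Finset.mem_range] at this
    omega
  have hsub : Ioo (ε / 2) ε ⊆ Ioo (0 : ℝ) 1 := fun p hp => ⟨by linarith [hp.1], by linarith [hp.2]⟩
  -- the mean value points
  have hex : ∀ r, r < R → ∃ p ∈ Ioo (ε / 2) ε, f' r p * (ε / 2) = f r ε - f r (ε / 2) := by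
    intro r hr
    obtain ⟨p, hp, hs⟩ := exists_hasDerivAt_eq_slope (f r) (f' r) (show ε / 2 < ε by linarith)
      ((hcont r hr).mono (Icc_subset_Icc (by linarith) hε1))
      (fun p hp => hder r hr p (hsub hp))
    refine ⟨p, hp, ?_⟩
    rw [hs]
    field_simp
    ring
  choose! p hp hpe using hex
  -- lower bounds round by round
  have hA : ∀ r, r < R → -err * (ε / 2 - 0) ≤ f r (ε / 2) - f r 0 := fun r hr =>
    sel_mvt (by linarith) ((hcont r hr).mono (Icc_subset_Icc le_rfl (by linarith)))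
      (fun q hq => hder r hr q ⟨hq.1, by linarith [hq.2]⟩)
      (fun q hq => hlow r hr q ⟨hq.1, by linarith [hq.2]⟩)
  have hC : ∀ r, r < R → -err * (1 - ε) ≤ f r 1 - f r ε := fun r hr =>
    sel_mvt hε1 ((hcont r hr).mono (Icc_subset_Icc hε0.le le_rfl))
      (fun q hq => hder r hr q ⟨by linarith [hq.1], hq.2⟩)
      (fun q hq => hlow r hr q ⟨by linarith [hq.1], hq.2⟩)
  have hround : ∀ r ∈ Finset.range R,
      (if chg r then c * (ε / 2) * Q r (p r) else 0) - err ≤ f r 1 - f r 0 := by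
    intro r hr
    rw [Finset.mem_range] at hr
    have h1 := hA r hr
    have h2 := hC r hr
    have h3 := hpe r hr
    have hpr := hsub (hp r hr)
    split_ifs with hchg
    · have h4 := hgain r hr hchg (p r) hpr
      nlinarith
    · have h4 := hlow r hr (p r) hpr
      nlinarith
  have htele : ∑ r ∈ Finset.range R, (f r 1 - f r 0) = f (R - 1) 1 - f 0 0 := by
    obtain ⟨n, rfl⟩ : ∃ n, R = n + 1 := ⟨R - 1, by omega⟩
    exact sel_tele (fun r => f r 1) (fun r => f r 0) n hchain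
  have hsum : ∑ r ∈ S, c * (ε / 2) * Q r (p r) ≤ f (R - 1) 1 - f 0 0 + R * err := by
    have h1 := Finset.sum_le_sum hround
    rw [htele, Finset.sum_sub_distrib, ← Finset.sum_filter, Finset.sum_const, Finset.card_range,
      nsmul_eq_mul] at h1
    linarith
  have hNpos : (0 : ℝ) < (S.card : ℝ) := by exact_mod_cast hN
  obtain ⟨r, hrS, hr⟩ := Finset.exists_le_of_sum_le hSne
    (f := fun r => c * (ε / 2) * Q r (p r))
    (g := fun _ => (f (R - 1) 1 - f 0 0 + R * err) / (S.card : ℝ)) (by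
      rw [Finset.sum_const, nsmul_eq_mul, mul_div_cancel₀ _ hNpos.ne']
      exact hsum)
  have hrR : r < R := Finset.mem_range.mp (Finset.mem_filter.mp hrS).1
  refine ⟨r, hrR, (Finset.mem_filter.mp hrS).2, p r, hp r hrR, ?_⟩
  rw [le_div_iff₀ hNpos] at hr
  linarith

/-- weighted form: indicator weights `c j ∈ [0,1]` of total mass at most `N` -/
theorem hol_sum_ind {J : Type} (s : Finset J) (c e : J → ℝ) (hc0 : ∀ j ∈ s, 0 ≤ c j)
    (hc1 : ∀ j ∈ s, c j ≤ 1) (he : ∀ j ∈ s, 0 ≤ e j) {N : ℝ} (hN : ∑ j ∈ s, c j ≤ N) :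
    ∑ j ∈ s, c j * (e j) ^ ((1 : ℝ) / 8) ≤
      N ^ ((7 : ℝ) / 8) * (∑ j ∈ s, c j * e j) ^ ((1 : ℝ) / 8) := by
  have hpq : ((8 : ℝ) / 7).HolderConjugate 8 := by
    rw [Real.holderConjugate_iff]
    constructor <;> norm_num
  have h := Real.inner_le_Lp_mul_Lq_of_nonneg s hpq
    (f := fun j => (c j) ^ ((7 : ℝ) / 8)) (g := fun j => (c j * e j) ^ ((1 : ℝ) / 8))
    (fun j hj => Real.rpow_nonneg (hc0 j hj) _)
    (fun j hj => Real.rpow_nonneg (mul_nonneg (hc0 j hj) (he j hj)) _)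
  have e1 : ∑ j ∈ s, (c j) ^ ((7 : ℝ) / 8) * (c j * e j) ^ ((1 : ℝ) / 8)
      = ∑ j ∈ s, c j * (e j) ^ ((1 : ℝ) / 8) := by
    refine Finset.sum_congr rfl fun j hj => ?_
    rw [Real.mul_rpow (hc0 j hj) (he j hj), ← mul_assoc,
      ← Real.rpow_add_of_nonneg (hc0 j hj) (by norm_num) (by norm_num)]
    norm_num
  have e2 : ∑ j ∈ s, ((c j) ^ ((7 : ℝ) / 8)) ^ ((8 : ℝ) / 7) = ∑ j ∈ s, c j := by
    refine Finset.sum_congr rfl fun j hj => ?_
    rw [← Real.rpow_mul (hc0 j hj)]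
    norm_num
  have e3 : ∑ j ∈ s, ((c j * e j) ^ ((1 : ℝ) / 8)) ^ (8 : ℝ) = ∑ j ∈ s, c j * e j := by
    refine Finset.sum_congr rfl fun j hj => ?_
    rw [← Real.rpow_mul (mul_nonneg (hc0 j hj) (he j hj))]
    norm_num
  rw [e1, e2, e3] at h
  have e4 : (1 : ℝ) / (8 / 7) = 7 / 8 := by norm_num
  rw [e4] at h
  refine h.trans ?_
  have h5 : (∑ j ∈ s, c j) ^ ((7 : ℝ) / 8) ≤ N ^ ((7 : ℝ) / 8) :=
    Real.rpow_le_rpow (Finset.sum_nonneg hc0) hN (by norm_num)
  exact mul_le_mul_of_nonneg_right h5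
    (Real.rpow_nonneg (Finset.sum_nonneg fun j hj => mul_nonneg (hc0 j hj) (he j hj)) _)

/-- finite Hoelder inequality with exponent `1/8` -/
theorem hol_sum {J : Type} (s : Finset J) (e : J → ℝ) (he : ∀ j ∈ s, 0 ≤ e j) {N : ℝ}
    (hN : (s.card : ℝ) ≤ N) :
    ∑ j ∈ s, (e j) ^ ((1 : ℝ) / 8) ≤ N ^ ((7 : ℝ) / 8) * (∑ j ∈ s, e j) ^ ((1 : ℝ) / 8) := by
  have h := hol_sum_ind s (fun _ => 1) e (fun _ _ => zero_le_one) (fun _ _ => le_rfl) he (N := N)
    (by simpa using hN)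
  simpa using h

end Claimed.Agent.R296.Scan
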