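import Claimed.Agent.R296.Scan.Pot
import Claimed.Agent.R296.Scan.Sel

/-!
# Row 296, P1 Section 8: the scanner estimate on an abstract scan geometry (Proposition 8.2)

Level B of the plan: a one-copy system `S` (truncated Hamiltonian, exact ground vector) on an
arbitrary finite set of sites, a well-formed scan geometry `G` whose balls are the designated
supports of `S`, and the output of `ReplicaStmt` for the data `scanData`.  The results are two
closed inequalities between one-copy quantities, without trees, replicas or limits: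

* `scan_rough`  (used by `prop:small-box`),
* `scan_sharp`  (used by `prop:collar`).
-/

set_option autoImplicit false

namespace Claimed.Agent.R296.Scan

open Finset

variable {Λ ι : Type} [Fintype Λ] [DecidableEq Λ] [Fintype ι]
variable {io : Λ → Type} [∀ x, Fintype (io x)] [∀ x, DecidableEq (io x)]

/-- the real parameters of the scanner -/
structure Par where
  /-- width of the typical set -/
  w : ℝ
  /-- metric weight per band -/
  a : ℝ
  /-- parameter of the lower comparisons -/
  τ : ℝ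
  /-- bound for `log (e dim)` of moved sets and split supports -/
  ell : ℝ
  /-- shell entropy bound -/
  Bsh : ℝ
  /-- mismatch bound -/
  Bexc : ℝ
  /-- marginal moment parameter -/
  BB : ℝ
  /-- upper end of the interval of interpolation parameters -/
  ε : ℝ
  /-- bound for the probability of the bad histories -/
  Pbad : ℝ
  /-- bound for the logarithm of the local dimensions -/
  lq : ℝ

/-- the fixed data handed to `ReplicaStmt` -/
noncomputable def scanData (S : Sys Λ ι io) (G : Geom Λ ι) (d : G.Lab) (P : Par) :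
    RepData Λ ι G.Lab io where
  S := S
  X := G.X
  w := P.w
  K := G.K
  a := P.a
  τ := P.τ
  ell := P.ell
  st := G.st
  Al := G.Reach
  R := 2 * (G.n * G.m)
  Hs r := G.HT d r
  Ch _ := G.Ch
  Rc := (range (G.L + 1)).image G.Pre
  Bsh := P.Bsh
  Bexc := P.Bexc
  BB := P.BB

/-- compatibility of the system, the geometry and the parameters -/
structure Compat (S : Sys Λ ι io) (G : Geom Λ ι) (P : Par) (a0 : ℝ) : Prop where
  sys : S.WF
  geo : G.WF
  sup_eq : ∀ i, S.sup i = G.ball i
  lq : ∀ x, Real.log (Fintype.card (io x)) ≤ P.lq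
  lq_nonneg : 0 ≤ P.lq
  ell_ge : 1 + ((G.V0 : ℝ) + 1) * P.lq ≤ P.ell
  Bexc_ge : 1 + (G.n : ℝ) * ((G.D : ℝ) + G.r0 + 1) * P.lq ≤ P.Bexc
  Bsh_ge : ∀ j, j ≤ G.L → ent S.rho (G.Pre j) ≤ P.Bsh
  w_nonneg : 0 ≤ P.w
  typ_pos : 0 < typZ (ptr G.X S.rho) P.w
  a_pos : 0 < P.a
  a_le : P.a ≤ a0
  a_ell : P.a * P.ell ≤ a0
  tau_pos : 0 < P.τ
  tau_lt : P.τ < 1 / 2
  eps_pos : 0 < P.ε
  eps_le : P.ε ≤ 1
  bad : ∀ (d : G.Lab) (ρ : ℕ), ρ ≤ 2 * (G.n * G.m) →
    (G.HT d ρ).E (fun l => ind (¬ G.GoodL l)) ≤ P.Pbad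

/-- the entropy calculus used at level B, for a pure state -/
structure EntOK (ρ : Matrix (Cfg io) (Cfg io) ℂ) : Prop where
  empty : ent ρ ∅ = 0
  nonneg : ∀ B, 0 ≤ ent ρ B
  compl : ∀ B, ent ρ Bᶜ = ent ρ B
  ssa : ∀ B B', ent ρ (B ∪ B') + ent ρ (B ∩ B') ≤ ent ρ B + ent ρ B'
  le_ldim : ∀ B, ent ρ B ≤ ldim io B

section

variable (S : Sys Λ ι io) (G : Geom Λ ι) (d : G.Lab) (P : Par)

/-- bound for the split probability of one term -/
noncomputable def Wmax : ℝ := ((G.D : ℝ) + 3 * G.r0 + 1) / G.m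

/-- bound for the number of split occurrences in a joint status -/
noncomputable def Nsp : ℝ := 6 * G.K * G.Mn

/-- the entropy budget: right side of the rough upper comparison -/
noncomputable def Bud : ℝ :=
  2 * (scanData S G d P).ld - Real.log (scanData S G d P).z +
    (scanData S G d P).W / 2 * (2 * P.Bsh / (scanData S G d P).z + 2 * P.Bexc)

/-- the selected density `δ` (with tolerance `ζ`) -/
noncomputable def delta (C ζ : ℝ) : ℝ :=
  4 / 3 * (Bud S G d P + 2 * ζ +
      2 * (G.n * G.m : ℝ) * (C * P.a * G.K * P.a ^ ((1 : ℝ) / 4) * P.ell ^ C + ζ)) /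
    ((G.n * G.m : ℝ) * P.ε * (scanData S G d P).W)

/-- the bound for the defect energy (with tolerance `ζ`) -/
noncomputable def Ebd (C ζ : ℝ) : ℝ :=
  (S.E0 + C * P.a ^ 2 * P.ell ^ C * Wmax G * Nsp G *
      ((delta S G d P C ζ) ^ ((1 : ℝ) / 8) + (P.Pbad + P.ε) * (2 * P.ell) ^ ((1 : ℝ) / 8)) + ζ) /
    S.gap

/-- the entropy cost of the old good splits, at an annotated old leaf -/
noncomputable def qAt (y : G.Lab × Ann Λ G.K) : ℝ :=
  ind (G.GoodL y.1) * ∑ i, ∑ g,
    (ind (G.SplitN y.1 g i) * y.2.1 g true (G.ball i \ G.near y.1 g) +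
      ind (G.SplitF y.1 g i) * y.2.1 g false (G.ball i \ G.far y.1 g))

end

end Claimed.Agent.R296.Scan
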