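import Claimed.Agent.R296.Scan.Main

/-!
# Row 296, P1 Section 8, level B: entropy gain and energy sum (package S8-B3)
-/

set_option autoImplicit false

namespace Claimed.Agent.R296.Scan

open Finset

/-! ### small tools -/

theorem mb_all_of_map {α β : Type} {Q : β → Prop} {g : α → β} :
    ∀ {t : MTree α}, (t.map g).All Q → t.All (fun a => Q (g a))
  | .leaf _, h => h
  | .node _ _ _, h => ⟨mb_all_of_map h.1, mb_all_of_map h.2⟩

theorem mb_all_and {α : Type} {P Q : α → Prop} :
    ∀ {t : MTree α}, t.All P → t.All Q → t.All (fun a => P a ∧ Q a)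
  | .leaf _, h, h' => ⟨h, h'⟩
  | .node _ _ _, h, h' => ⟨mb_all_and h.1 h'.1, mb_all_and h.2 h'.2⟩

theorem mb_ind_pos {P : Prop} (h : P) : ind P = 1 := by
  unfold ind; simp [h]

theorem mb_ind_neg {P : Prop} (h : ¬ P) : ind P = 0 := by
  unfold ind; simp [h]

theorem mb_ind_nonneg (P : Prop) : 0 ≤ ind P := by
  by_cases h : P
  · rw [mb_ind_pos h]; exact zero_le_one
  · rw [mb_ind_neg h]

theorem mb_ind_le_one (P : Prop) : ind P ≤ 1 := by
  by_cases h : P
  · rw [mb_ind_pos h]
  · rw [mb_ind_neg h]; exact zero_le_one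

theorem mb_ind_congr {P Q : Prop} (h : P ↔ Q) : ind P = ind Q := by
  rw [propext h]

/-- the real power `1/8` is nonnegative on the whole line -/
theorem mb_rpow8_nonneg (x : ℝ) : 0 ≤ x ^ ((1 : ℝ) / 8) := by
  rcases le_or_gt 0 x with h | h
  · exact Real.rpow_nonneg h _
  · rw [Real.rpow_def_of_neg h]
    exact mul_nonneg (Real.exp_pos _).le (Real.cos_nonneg_of_neg_pi_div_two_le_of_le
      (by nlinarith [Real.pi_pos]) (by nlinarith [Real.pi_pos]))

variable {Λ ι : Type} [Fintype Λ] [DecidableEq Λ] [Fintype ι]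
variable {io : Λ → Type} [∀ x, Fintype (io x)] [∀ x, DecidableEq (io x)]
variable {S : Sys Λ ι io} {G : Geom Λ ι} {P : Par} {a0 : ℝ}

theorem mb_gainAt_nonneg (d : G.Lab) (r : Fin (2 * (G.n * G.m))) (y : G.Lab × Ann Λ G.K)
    (hy : AnnOK io y.2) : 0 ≤ (scanData S G d P).gainAt r y := by
  unfold RepData.gainAt
  refine Finset.sum_nonneg fun g _ => MTree.E_nonneg (Geom.svalid_Ch _).valid fun l' => ?_
  exact add_nonneg (hy g true _).1 (hy g false _).1

theorem mb_valid {d : G.Lab} {ρ : ℕ} {An : MTree (G.Lab × Ann Λ G.K)}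
    (h1 : An.map Prod.fst = G.HT d ρ) : An.Valid :=
  MTree.valid_of_map (g := Prod.fst) (by rw [h1]; exact (Geom.svalid_HT d ρ).valid)

/-- (B3) the entropy gain is nonnegative in every round -/
theorem scan_gain_nonneg (h : Compat S G P a0) (d : G.Lab) (r : Fin (2 * (G.n * G.m)))
    {An : MTree (G.Lab × Ann Λ G.K)} (h1 : An.map Prod.fst = G.HT d r)
    (h2 : An.All fun y => AnnOK io y.2) :
    0 ≤ An.E ((scanData S G d P).gainAt r) :=
  MTree.E_nonneg_of_all (mb_valid h1) (h2.imp fun y hy => mb_gainAt_nonneg d r y hy)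

/-- (B3) at a charge round the entropy gain dominates the cost of the old good splits -/
theorem scan_gain_charge (h : Compat S G P a0) (d : G.Lab) (r : Fin (2 * (G.n * G.m)))
    (hr : (r : ℕ) % 2 = 1) {An : MTree (G.Lab × Ann Λ G.K)} (h1 : An.map Prod.fst = G.HT d r)
    (h2 : An.All fun y => AnnOK io y.2) :
    (2 * (G.Mn : ℝ))⁻¹ * An.E (qAt G) ≤ An.E ((scanData S G d P).gainAt r) := by
  rw [← MTree.E_mul_left]
  have hT : An.All fun y => Geom.time y.1 = r := mb_all_of_map (g := Prod.fst)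
    (Q := fun l : G.Lab => Geom.time l = r) (by rw [h1]; exact Geom.all_time_HT h.geo d r)
  have hRe : An.All fun y => G.Reach y.1 := mb_all_of_map (g := Prod.fst)
    (Q := G.Reach) (by rw [h1]; exact Geom.all_reach_HT h.geo d r.2.le)
  refine MTree.E_le_E_of_all (mb_valid h1) ((mb_all_and (mb_all_and hT hRe) h2).imp ?_)
  rintro y ⟨⟨ht, hre⟩, hy⟩
  by_cases hg : G.GoodL y.1
  · have hfl : y.1.fl = true := by
      unfold Geom.time at ht
      by_contra hc
      simp only [hc] at ht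
      simp at ht
      omega
    have := Geom.gain_good h.geo hre hfl hg y.2.1 (fun g s x => (hy g s x).1)
    unfold qAt
    rw [mb_ind_pos hg, one_mul]
    exact this
  · unfold qAt
    rw [mb_ind_neg hg, zero_mul, mul_zero]
    exact mb_gainAt_nonneg d r y hy

/-! ### the energy sum -/

/-- on reachable histories the abstract notion of a split term is the one of the scan -/
theorem mb_split_iff (h : Compat S G P a0) (d : G.Lab) {l : G.Lab} (hl : G.Reach l) (i : ι) :
    (scanData S G d P).SplitAt i l ↔ G.Split l i := by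
  unfold RepData.SplitAt Geom.Split
  refine exists_congr fun g => ?_
  show SpN (S.sup i) (G.st l g) ∨ SpF (S.sup i) (G.st l g) ↔ _
  rw [h.sup_eq i, ← Geom.splitN_iff h.geo hl g i, ← Geom.splitF_iff h.geo hl g i]

theorem mb_count (hW : G.WF) {l : G.Lab} (hl : G.Reach l) :
    ∑ i, ∑ g, (ind (G.SplitN l g i) + ind (G.SplitF l g i)) ≤ Nsp G := by
  rw [Finset.sum_comm]
  calc ∑ g, ∑ i, (ind (G.SplitN l g i) + ind (G.SplitF l g i))
      ≤ ∑ _g : Fin G.K, (6 * (G.Mn : ℝ)) := by
        refine Finset.sum_le_sum fun g _ => ?_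
        rw [Finset.sum_add_distrib]
        linarith [Geom.sum_ind_splitN_le hW hl g, Geom.sum_ind_splitF_le hW hl g]
    _ = Nsp G := by simp [Nsp]; ring

omit [Fintype ι] in
theorem mb_ind_split_le (l : G.Lab) (i : ι) :
    ind (G.Split l i) ≤ ∑ g, (ind (G.SplitN l g i) + ind (G.SplitF l g i)) := by
  by_cases hs : G.Split l i
  · obtain ⟨g, hg⟩ := hs
    refine le_trans (mb_ind_le_one _) ?_
    refine le_trans ?_ (Finset.single_le_sum
      (f := fun g => ind (G.SplitN l g i) + ind (G.SplitF l g i))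
      (fun g _ => add_nonneg (mb_ind_nonneg _) (mb_ind_nonneg _)) (Finset.mem_univ g))
    rcases hg with hg | hg
    · show 1 ≤ ind (G.SplitN l g i) + ind (G.SplitF l g i)
      rw [mb_ind_pos hg]; linarith [mb_ind_nonneg (G.SplitF l g i)]
    · show 1 ≤ ind (G.SplitN l g i) + ind (G.SplitF l g i)
      rw [mb_ind_pos hg]; linarith [mb_ind_nonneg (G.SplitN l g i)]
  · rw [mb_ind_neg hs]
    exact Finset.sum_nonneg fun g _ => add_nonneg (mb_ind_nonneg _) (mb_ind_nonneg _)

/-- the logarithmic dimension of a part of a split ball -/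
theorem mb_ldim_le [∀ x, Nonempty (io x)] (h : Compat S G P a0) {l : G.Lab} (hl : G.Reach l)
    {g : Fin G.K} {i : ι} (hs : G.SplitN l g i ∨ G.SplitF l g i) (A : Finset Λ) :
    ldim io (G.ball i \ A) ≤ P.ell := by
  have hlq : 0 ≤ P.lq := le_trans (Real.log_natCast_nonneg _) (h.lq (G.anc i))
  have hc := Geom.j2_core h.geo hl g hs
  have hb := Geom.band_le h.geo g
  have h3 := h.geo.sep
  have hcard : (G.ball i \ A).card ≤ G.V0 :=
    le_trans (Finset.card_le_card Finset.sdiff_subset) (h.geo.ball_card i (by omega))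
  have h1 : ldim io (G.ball i \ A) ≤ ((G.ball i \ A).card : ℝ) * P.lq := by
    unfold ldim
    have := Finset.sum_le_card_nsmul (G.ball i \ A) (fun y => Real.log (Fintype.card (io y))) P.lq
      (fun y _ => h.lq y)
    simpa [nsmul_eq_mul] using this
  have h2 : ((G.ball i \ A).card : ℝ) * P.lq ≤ (G.V0 : ℝ) * P.lq :=
    mul_le_mul_of_nonneg_right (by exact_mod_cast hcard) hlq
  have := h.ell_ge
  nlinarith

/-- the sum of the costs at one annotated old leaf -/
theorem mb_cost_point [∀ x, Nonempty (io x)] (h : Compat S G P a0) (d : G.Lab)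
    {y : G.Lab × Ann Λ G.K} (hre : G.Reach y.1) (hy : AnnOK io y.2) :
    ∑ i, (scanData S G d P).costAt i y ≤ Nsp G ^ ((7 : ℝ) / 8) * (qAt G y) ^ ((1 : ℝ) / 8) +
      ind (¬ G.GoodL y.1) * (Nsp G * (2 * P.ell) ^ ((1 : ℝ) / 8)) := by
  classical
  let c : ι × Fin G.K × Bool → ℝ := fun j =>
    bif j.2.2 then ind (G.SplitN y.1 j.2.1 j.1) else ind (G.SplitF y.1 j.2.1 j.1)
  let e : ι × Fin G.K × Bool → ℝ := fun j =>
    bif j.2.2 then y.2.1 j.2.1 true (G.ball j.1 \ G.near y.1 j.2.1)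
    else y.2.1 j.2.1 false (G.ball j.1 \ G.far y.1 j.2.1)
  let e8 : ι × Fin G.K × Bool → ℝ := fun j =>
    bif j.2.2 then y.2.2 j.2.1 true (G.ball j.1 \ G.near y.1 j.2.1)
    else y.2.2 j.2.1 false (G.ball j.1 \ G.far y.1 j.2.1)
  have hsum : ∀ f : ι × Fin G.K × Bool → ℝ,
      ∑ j, f j = ∑ i, ∑ g, (f (i, g, true) + f (i, g, false)) := by
    intro f
    rw [Fintype.sum_prod_type]
    refine Finset.sum_congr rfl fun i _ => ?_
    rw [Fintype.sum_prod_type]
    refine Finset.sum_congr rfl fun g _ => ?_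
    rw [Fintype.sum_bool]
  have hcost : ∑ i, (scanData S G d P).costAt i y = ∑ j, c j * e8 j := by
    rw [hsum]
    refine Finset.sum_congr rfl fun i _ => ?_
    unfold RepData.costAt
    refine Finset.sum_congr rfl fun g _ => ?_
    show ind (SpN (S.sup i) (G.st y.1 g)) * y.2.2 g true (S.sup i \ G.near y.1 g) +
      ind (SpF (S.sup i) (G.st y.1 g)) * y.2.2 g false (S.sup i \ G.far y.1 g) =
      ind (G.SplitN y.1 g i) * y.2.2 g true (G.ball i \ G.near y.1 g) +
      ind (G.SplitF y.1 g i) * y.2.2 g false (G.ball i \ G.far y.1 g)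
    rw [h.sup_eq i, mb_ind_congr (Geom.splitN_iff h.geo hre g i),
      mb_ind_congr (Geom.splitF_iff h.geo hre g i)]
  have hq : ∑ j, c j * e j = ∑ i, ∑ g,
      (ind (G.SplitN y.1 g i) * y.2.1 g true (G.ball i \ G.near y.1 g) +
        ind (G.SplitF y.1 g i) * y.2.1 g false (G.ball i \ G.far y.1 g)) := hsum _
  have hc : ∑ j, c j ≤ Nsp G := by
    rw [hsum]; exact mb_count h.geo hre
  have hc0 : ∀ j, 0 ≤ c j := by
    rintro ⟨i, g, b⟩
    cases b
    · exact mb_ind_nonneg _
    · exact mb_ind_nonneg _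
  have hc1 : ∀ j, c j ≤ 1 := by
    rintro ⟨i, g, b⟩
    cases b
    · exact mb_ind_le_one _
    · exact mb_ind_le_one _
  have he0 : ∀ j, 0 ≤ e j := by
    rintro ⟨i, g, b⟩
    cases b
    · exact (hy g false _).1
    · exact (hy g true _).1
  have he8 : ∀ j, e8 j ≤ e j ^ ((1 : ℝ) / 8) := by
    rintro ⟨i, g, b⟩
    cases b
    · exact (hy g false _).2.2.2
    · exact (hy g true _).2.2.2
  have hN0 : 0 ≤ Nsp G := by unfold Nsp; positivity
  rw [hcost]
  have hstep : ∑ j, c j * e8 j ≤ ∑ j, c j * e j ^ ((1 : ℝ) / 8) :=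
    Finset.sum_le_sum fun j _ => mul_le_mul_of_nonneg_left (he8 j) (hc0 j)
  by_cases hg : G.GoodL y.1
  · rw [mb_ind_neg (not_not.2 hg), zero_mul, add_zero]
    refine hstep.trans ?_
    have := hol_sum_ind univ c e (fun j _ => hc0 j) (fun j _ => hc1 j) (fun j _ => he0 j) hc
    rw [hq] at this
    unfold qAt
    rw [mb_ind_pos hg, one_mul]
    exact this
  · rw [mb_ind_pos hg, one_mul]
    have h0 : 0 ≤ Nsp G ^ ((7 : ℝ) / 8) * (qAt G y) ^ ((1 : ℝ) / 8) :=
      mul_nonneg (Real.rpow_nonneg hN0 _) (mb_rpow8_nonneg _)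
    refine le_trans ?_ (le_add_of_nonneg_left h0)
    refine hstep.trans ?_
    have hb : ∀ j, c j * e j ^ ((1 : ℝ) / 8) ≤ c j * (2 * P.ell) ^ ((1 : ℝ) / 8) := by
      rintro ⟨i, g, b⟩
      cases b
      · show ind (G.SplitF y.1 g i) * _ ≤ ind (G.SplitF y.1 g i) * _
        by_cases hs : G.SplitF y.1 g i
        · refine mul_le_mul_of_nonneg_left ?_ (mb_ind_nonneg _)
          refine Real.rpow_le_rpow (he0 (i, g, false)) ?_ (by norm_num)
          have := mb_ldim_le h hre (Or.inr hs) (G.far y.1 g)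
          have h5 := (hy g false (G.ball i \ G.far y.1 g)).2.1
          show y.2.1 g false (G.ball i \ G.far y.1 g) ≤ _
          linarith
        · rw [mb_ind_neg hs, zero_mul, zero_mul]
      · show ind (G.SplitN y.1 g i) * _ ≤ ind (G.SplitN y.1 g i) * _
        by_cases hs : G.SplitN y.1 g i
        · refine mul_le_mul_of_nonneg_left ?_ (mb_ind_nonneg _)
          refine Real.rpow_le_rpow (he0 (i, g, true)) ?_ (by norm_num)
          have := mb_ldim_le h hre (Or.inl hs) (G.near y.1 g)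
          have h5 := (hy g true (G.ball i \ G.near y.1 g)).2.1
          show y.2.1 g true (G.ball i \ G.near y.1 g) ≤ _
          linarith
        · rw [mb_ind_neg hs, zero_mul, zero_mul]
    refine (Finset.sum_le_sum fun j _ => hb j).trans ?_
    rw [← Finset.sum_mul]
    exact mul_le_mul_of_nonneg_right hc (mb_rpow8_nonneg _)

theorem mb_qAt_nonneg {y : G.Lab × Ann Λ G.K} (hy : AnnOK io y.2) : 0 ≤ qAt G y := by
  unfold qAt
  refine mul_nonneg (mb_ind_nonneg _) (Finset.sum_nonneg fun i _ => Finset.sum_nonneg fun g _ => ?_)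
  exact add_nonneg (mul_nonneg (mb_ind_nonneg _) (hy g true _).1)
    (mul_nonneg (mb_ind_nonneg _) (hy g false _).1)

theorem mb_costAt_nonneg (d : G.Lab) (i : ι) {y : G.Lab × Ann Λ G.K} (hy : AnnOK io y.2) :
    0 ≤ (scanData S G d P).costAt i y := by
  unfold RepData.costAt
  refine Finset.sum_nonneg fun g _ => ?_
  exact add_nonneg (mul_nonneg (mb_ind_nonneg _) (hy g true _).2.2.1)
    (mul_nonneg (mb_ind_nonneg _) (hy g false _).2.2.1)

/-- (B4) the energy sum: dilution, count of the split terms, Hoelder, bad histories, new leaves -/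
theorem scan_cost [∀ x, Nonempty (io x)] (h : Compat S G P a0) (d : G.Lab)
    (r : Fin (2 * (G.n * G.m))) {p : ℝ} (hp0 : 0 ≤ p) (hp1 : p ≤ 1)
    {An : MTree (G.Lab × Ann Λ G.K)} (h1 : An.map Prod.fst = G.HT d r)
    (h2 : An.All fun y => AnnOK io y.2) :
    ∑ i, ((scanData S G d P).tree r p).E (fun l => ind ((scanData S G d P).SplitAt i l)) *
        ((1 - p) * An.E ((scanData S G d P).costAt i) +
          p * ((G.HT d r).bind G.Ch).E (fun l => ind ((scanData S G d P).SplitAt i l)) *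
            (2 * P.ell) ^ ((1 : ℝ) / 8)) ≤
      Wmax G * Nsp G * ((An.E (qAt G) / Nsp G) ^ ((1 : ℝ) / 8) +
        (P.Pbad + p) * (2 * P.ell) ^ ((1 : ℝ) / 8)) := by
  set t := (2 * P.ell) ^ ((1 : ℝ) / 8) with ht
  have ht0 : 0 ≤ t := mb_rpow8_nonneg _
  have hV := mb_valid h1
  have hRe : An.All fun y => G.Reach y.1 := mb_all_of_map (g := Prod.fst)
    (Q := G.Reach) (by rw [h1]; exact Geom.all_reach_HT h.geo d r.2.le)
  have hr1 : (r : ℕ) + 1 ≤ 2 * (G.n * G.m) := r.2
  have hN0 : 0 < Nsp G := by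
    unfold Nsp
    have := h.geo.K_pos
    have := h.geo.Mn_pos
    positivity
  have hW0 : 0 ≤ Wmax G := by unfold Wmax; positivity
  have hE : ∀ ρ, ρ ≤ 2 * (G.n * G.m) → ∀ i,
      (G.HT d ρ).E (fun l => ind ((scanData S G d P).SplitAt i l)) =
        (G.HT d ρ).E (fun l => ind (G.Split l i)) := by
    intro ρ hρ i
    exact MTree.E_congr_of_all ((Geom.all_reach_HT h.geo d hρ).imp fun l hl =>
      mb_ind_congr (mb_split_iff h d hl i))
  have hE2 : ∀ i, ((G.HT d r).bind G.Ch).E (fun l => ind ((scanData S G d P).SplitAt i l)) =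
      (G.HT d (r + 1)).E (fun l => ind (G.Split l i)) := fun i => hE (r + 1) hr1 i
  have hT : ∀ i, ((scanData S G d P).tree r p).E
      (fun l => ind ((scanData S G d P).SplitAt i l)) ≤ Wmax G := by
    intro i
    show (MTree.interp p (G.HT d r) G.Ch).E _ ≤ _
    rw [MTree.E_interp, hE2 i, hE r r.2.le i]
    have d1 := Geom.dilution_HT h.geo d r.2.le i
    have d2 := Geom.dilution_HT h.geo d hr1 i
    unfold Wmax
    nlinarith [mul_le_mul_of_nonneg_left d1 (sub_nonneg.2 hp1), mul_le_mul_of_nonneg_left d2 hp0]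
  have hE20 : ∀ i, 0 ≤ (G.HT d (r + 1)).E (fun l => ind (G.Split l i)) := fun i =>
    MTree.E_nonneg (Geom.svalid_HT d _).valid fun l => mb_ind_nonneg _
  have hC0 : ∀ i, 0 ≤ An.E ((scanData S G d P).costAt i) := fun i =>
    MTree.E_nonneg_of_all hV (h2.imp fun y hy => mb_costAt_nonneg d i hy)
  -- the new leaves
  have hB : ∑ i, (G.HT d (r + 1)).E (fun l => ind (G.Split l i)) ≤ Nsp G := by
    rw [← MTree.E_finset_sum]
    refine MTree.E_le_of_all (Geom.svalid_HT d _).valid
      ((Geom.all_reach_HT h.geo d hr1).imp fun l hl => ?_)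
    exact (Finset.sum_le_sum fun i _ => mb_ind_split_le l i).trans (mb_count h.geo hl)
  -- the bad histories
  have hbad : An.E (fun y => ind (¬ G.GoodL y.1)) ≤ P.Pbad := by
    have := MTree.E_map (Prod.fst : G.Lab × Ann Λ G.K → G.Lab) An (fun l => ind (¬ G.GoodL l))
    rw [← this, h1]
    exact h.bad d r r.2.le
  have hP0 : 0 ≤ P.Pbad := le_trans
    (MTree.E_nonneg hV fun y => mb_ind_nonneg _) hbad
  -- Jensen
  have hq0 : 0 ≤ An.E (qAt G) := MTree.E_nonneg_of_all hV (h2.imp fun y hy => mb_qAt_nonneg hy)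
  have hJ : An.E (fun y => (qAt G y) ^ ((1 : ℝ) / 8)) ≤ (An.E (qAt G)) ^ ((1 : ℝ) / 8) := by
    have e1 : An.E (fun y => (qAt G y) ^ ((1 : ℝ) / 8)) =
        An.E (fun y => (max (qAt G y) 0) ^ ((1 : ℝ) / 8)) :=
      MTree.E_congr_of_all (h2.imp fun y hy => by rw [max_eq_left (mb_qAt_nonneg hy)])
    have e2 : An.E (qAt G) = An.E (fun y => max (qAt G y) 0) :=
      MTree.E_congr_of_all (h2.imp fun y hy => by rw [max_eq_left (mb_qAt_nonneg hy)])
    rw [e1, e2]
    exact MTree.E_rpow_le hV (by norm_num) (by norm_num) fun y => le_max_right _ _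
  -- the old leaves
  have hA : ∑ i, An.E ((scanData S G d P).costAt i) ≤
      Nsp G ^ ((7 : ℝ) / 8) * (An.E (qAt G)) ^ ((1 : ℝ) / 8) + P.Pbad * (Nsp G * t) := by
    have e0 : ∑ i, An.E ((scanData S G d P).costAt i) =
        An.E (fun y => ∑ i, (scanData S G d P).costAt i y) :=
      (MTree.E_finset_sum An univ (fun i y => (scanData S G d P).costAt i y)).symm
    rw [e0]
    refine (MTree.E_le_E_of_all hV ((mb_all_and hRe h2).imp fun y hy =>
      mb_cost_point h d hy.1 hy.2)).trans ?_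
    rw [MTree.E_add, MTree.E_mul_left, MTree.E_mul_right]
    refine add_le_add (mul_le_mul_of_nonneg_left hJ (Real.rpow_nonneg hN0.le _))
      (mul_le_mul_of_nonneg_right hbad (mul_nonneg hN0.le ht0))
  have hpow : Nsp G ^ ((7 : ℝ) / 8) * (An.E (qAt G)) ^ ((1 : ℝ) / 8) =
      Nsp G * (An.E (qAt G) / Nsp G) ^ ((1 : ℝ) / 8) := by
    rw [Real.div_rpow hq0 hN0.le]
    have : Nsp G = Nsp G ^ ((7 : ℝ) / 8) * Nsp G ^ ((1 : ℝ) / 8) := by
      rw [← Real.rpow_add hN0]; norm_num
    have h8 : 0 < Nsp G ^ ((1 : ℝ) / 8) := Real.rpow_pos_of_pos hN0 _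
    generalize Nsp G ^ ((1 : ℝ) / 8) = b at this h8 ⊢
    generalize Nsp G ^ ((7 : ℝ) / 8) = c at this ⊢
    rw [this]
    field_simp
  rw [hpow] at hA
  set u := (An.E (qAt G) / Nsp G) ^ ((1 : ℝ) / 8) with hu
  have hu0 : 0 ≤ u := mb_rpow8_nonneg _
  calc ∑ i, ((scanData S G d P).tree r p).E (fun l => ind ((scanData S G d P).SplitAt i l)) *
        ((1 - p) * An.E ((scanData S G d P).costAt i) +
          p * ((G.HT d r).bind G.Ch).E (fun l => ind ((scanData S G d P).SplitAt i l)) * t)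
      ≤ ∑ i, Wmax G * ((1 - p) * An.E ((scanData S G d P).costAt i) +
          p * (G.HT d (r + 1)).E (fun l => ind (G.Split l i)) * t) := by
        refine Finset.sum_le_sum fun i _ => ?_
        rw [hE2 i]
        refine mul_le_mul_of_nonneg_right (hT i) ?_
        have := hC0 i
        have := hE20 i
        have : 0 ≤ 1 - p := sub_nonneg.2 hp1
        positivity
    _ = Wmax G * ((1 - p) * ∑ i, An.E ((scanData S G d P).costAt i) +
          p * (∑ i, (G.HT d (r + 1)).E (fun l => ind (G.Split l i))) * t) := by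
        rw [← Finset.mul_sum, Finset.sum_add_distrib, ← Finset.mul_sum]
        congr 2
        rw [Finset.mul_sum, Finset.sum_mul]
    _ ≤ Wmax G * ((1 - p) * (Nsp G * u + P.Pbad * (Nsp G * t)) + p * Nsp G * t) := by
        refine mul_le_mul_of_nonneg_left ?_ hW0
        refine add_le_add (mul_le_mul_of_nonneg_left hA (sub_nonneg.2 hp1)) ?_
        exact mul_le_mul_of_nonneg_right (mul_le_mul_of_nonneg_left hB hp0) ht0
    _ ≤ Wmax G * Nsp G * (u + (P.Pbad + p) * t) := by
        rw [mul_assoc (Wmax G)]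
        refine mul_le_mul_of_nonneg_left ?_ hW0
        have k1 : 0 ≤ p * (Nsp G * u + P.Pbad * (Nsp G * t)) := by positivity
        nlinarith

end Claimed.Agent.R296.Scan
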