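import Claimed.Agent.R296.Scan.MainA
import Claimed.Agent.R296.Scan.MainB

/-!
# Row 296, P1 Section 8, level B: Proposition 8.2, selection of a low-energy interpolation (package S8-B5)
-/

set_option autoImplicit false
set_option linter.unusedSectionVars false

namespace Claimed.Agent.R296.Scan

open Finset

/-- the number of odd rounds -/
theorem sel_card_odd (N : ℕ) : ((Finset.range (2 * N)).filter fun r => r % 2 = 1).card = N := by
  induction N with
  | zero => simp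
  | succ N ih =>
    have : 2 * (N + 1) = 2 * N + 1 + 1 := by ring
    rw [this, Finset.range_add_one, Finset.filter_insert, if_pos (by omega), Finset.range_add_one,
      Finset.filter_insert, if_neg (by omega), Finset.card_insert_of_notMem (by simp), ih]

variable {Λ ι : Type} [Fintype Λ] [DecidableEq Λ] [Fintype ι]
variable {io : Λ → Type} [∀ x, Fintype (io x)] [∀ x, DecidableEq (io x)]
variable {S : Sys Λ ι io} {G : Geom Λ ι} {P : Par} {a0 : ℝ}

/-- the cost of the old good splits is nonnegative -/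
theorem qAt_nonneg {y : G.Lab × Ann Λ G.K} (hy : AnnOK io y.2) : 0 ≤ qAt G y := by
  unfold qAt
  apply mul_nonneg (prob_ind_nonneg _)
  apply Finset.sum_nonneg
  intro i _
  apply Finset.sum_nonneg
  intro g _
  exact add_nonneg (mul_nonneg (prob_ind_nonneg _) (hy g true _).1)
    (mul_nonneg (prob_ind_nonneg _) (hy g false _).1)

/-- (B5) **Proposition 8.2**: selection of a low-energy interpolation -/
theorem scan_select [∀ x, Nonempty (io x)] (h : Compat S G P a0) (d : G.Lab)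
    {C0 c0 C ζ : ℝ} (hC : 1 ≤ C) (hζ : 0 < ζ) {F Ed : MTree G.Lab → ℝ}
    (hO : (scanData S G d P).Out C0 c0 C a0 ζ F Ed) :
    ∃ (r : Fin (2 * (G.n * G.m))) (p : ℝ), p ∈ Set.Ioo (P.ε / 2) P.ε ∧
      Ed ((scanData S G d P).tree r p) ≤ Ebd S G d P C ζ := by
  classical
  have hWF := scanData_wf h d
  have hell : 1 ≤ P.ell := hWF.ell_ge
  have hnm : 0 < G.n * G.m := Nat.mul_pos h.geo.n_pos h.geo.m_pos
  have hnmR : (0 : ℝ) < (G.n : ℝ) * G.m := by exact_mod_cast hnm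
  have hMn : (0 : ℝ) < G.Mn := by exact_mod_cast h.geo.Mn_pos
  have hK : (0 : ℝ) < G.K := by exact_mod_cast h.geo.K_pos
  have hmR : (0 : ℝ) < G.m := by exact_mod_cast h.geo.m_pos
  have ha := h.a_pos
  have hε := h.eps_pos
  have : Nonempty (MTree (G.Lab × Ann Λ G.K)) :=
    ⟨MTree.leaf (d, (fun _ _ _ => 0, fun _ _ _ => 0))⟩
  have htr : ∀ (r : Fin (2 * (G.n * G.m))) (p : ℝ), p ∈ Set.Ioo (0 : ℝ) 1 →
      ∃ (An : MTree (G.Lab × Ann Λ G.K)) (F' : ℝ),
      An.map Prod.fst = G.HT d r ∧ An.All (fun y => AnnOK io y.2) ∧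
      HasDerivAt (fun p => F ((scanData S G d P).tree r p)) F' p ∧
      P.a / 2 * An.E ((scanData S G d P).gainAt r) -
        C * P.a * G.K * P.a ^ ((1 : ℝ) / 4) * P.ell ^ C - ζ ≤ F' ∧
      S.gap * Ed ((scanData S G d P).tree r p) ≤ S.E0 + C * P.a ^ 2 * P.ell ^ C *
        ∑ i, ((scanData S G d P).tree r p).E (fun l => ind ((scanData S G d P).SplitAt i l)) *
          ((1 - p) * An.E ((scanData S G d P).costAt i) +
            p * ((G.HT d r).bind G.Ch).E (fun l => ind ((scanData S G d P).SplitAt i l)) *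
              (2 * P.ell) ^ ((1 : ℝ) / 8)) + ζ := hO.transport
  choose! An F' hA1 hA2 hA3 hA4 hA5 using htr
  set err := C * P.a * G.K * P.a ^ ((1 : ℝ) / 4) * P.ell ^ C + ζ with herr
  let f : ℕ → ℝ → ℝ := fun r p =>
    if hr : r < 2 * (G.n * G.m) then F ((scanData S G d P).tree ⟨r, hr⟩ p) else 0
  let f' : ℕ → ℝ → ℝ := fun r p => if hr : r < 2 * (G.n * G.m) then F' ⟨r, hr⟩ p else 0
  let Q : ℕ → ℝ → ℝ := fun r p =>
    if hr : r < 2 * (G.n * G.m) then (An ⟨r, hr⟩ p).E (qAt G) else 0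
  have hf : ∀ r (hr : r < 2 * (G.n * G.m)), f r = fun p => F ((scanData S G d P).tree ⟨r, hr⟩ p) := by
    intro r hr
    funext p
    simp only [f, dif_pos hr]
  have hsel := sel_round (R := 2 * (G.n * G.m)) f f' Q (fun r => r % 2 = 1) (err := err)
    (c := P.a / 2 * (2 * (G.Mn : ℝ))⁻¹) h.eps_pos h.eps_le
    (by
      intro r hr
      rw [hf r hr]
      exact hO.cont ⟨r, hr⟩)
    (by
      intro r hr p hp
      rw [hf r hr]
      simp only [f', dif_pos hr]
      exact hA3 ⟨r, hr⟩ p hp)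
    (by
      intro r hr p hp
      simp only [f', dif_pos hr]
      have h1 := hA4 ⟨r, hr⟩ p hp
      have h2 := scan_gain_nonneg (P := P) h d ⟨r, hr⟩ (hA1 ⟨r, hr⟩ p hp) (hA2 ⟨r, hr⟩ p hp)
      have h3 := mul_nonneg (show (0 : ℝ) ≤ P.a / 2 by linarith) h2
      linarith)
    (by
      intro r hr hodd p hp
      simp only [f', Q, dif_pos hr]
      have h1 := hA4 ⟨r, hr⟩ p hp
      have h2 := scan_gain_charge (P := P) h d ⟨r, hr⟩ hodd (hA1 ⟨r, hr⟩ p hp) (hA2 ⟨r, hr⟩ p hp)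
      have h3 := mul_le_mul_of_nonneg_left h2 (show 0 ≤ P.a / 2 by linarith)
      rw [← mul_assoc] at h3
      linarith)
    (by
      intro r hr
      have hr' : r < 2 * (G.n * G.m) := by omega
      simp only [f, dif_pos hr, dif_pos hr']
      rw [hO.end1 ⟨r, hr'⟩, hO.end0 ⟨r + 1, hr⟩]
      rfl)
    (by
      rw [sel_card_odd]
      exact hnm)
  obtain ⟨r, hr, hodd, p, hp, hQ⟩ := hsel
  rw [sel_card_odd] at hQ
  have hp01 : p ∈ Set.Ioo (0 : ℝ) 1 := ⟨by linarith [hp.1], by linarith [hp.2, h.eps_le]⟩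
  refine ⟨⟨r, hr⟩, p, hp, ?_⟩
  simp only [Q, dif_pos hr] at hQ
  set q := (An ⟨r, hr⟩ p).E (qAt G) with hq
  -- end points
  have hlast : 2 * (G.n * G.m) - 1 < 2 * (G.n * G.m) := by omega
  have hzero : 0 < 2 * (G.n * G.m) := by omega
  have hup : f (2 * (G.n * G.m) - 1) 1 ≤ Bud S G d P + ζ := by
    simp only [f, dif_pos hlast]
    exact hO.rough_upper (scanData_prefix h d) ⟨_, hlast⟩ 1 ⟨zero_le_one, le_rfl⟩
  have hlo : -ζ ≤ f 0 0 := by
    simp only [f, dif_pos hzero]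
    rw [hO.end0 ⟨0, hzero⟩]
    exact hO.floor ⟨0, hzero⟩
  set T := Bud S G d P + 2 * ζ + 2 * ((G.n : ℝ) * G.m) * err with hT
  have hQT : P.a / 2 * (2 * (G.Mn : ℝ))⁻¹ * (P.ε / 2) * ((G.n * G.m : ℕ) : ℝ) * q ≤ T := by
    refine le_trans hQ ?_
    rw [hT]
    push_cast
    linarith
  -- nonnegativity of the cost
  have hvalid : (An ⟨r, hr⟩ p).Valid := by
    apply MTree.valid_of_map (g := Prod.fst)
    rw [hA1 ⟨r, hr⟩ p hp01]
    exact (Geom.svalid_HT d r).valid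
  have hq0 : 0 ≤ q :=
    MTree.E_nonneg_of_all hvalid (MTree.All.imp (fun y hy => qAt_nonneg hy) (hA2 ⟨r, hr⟩ p hp01))
  have hNsp : 0 < Nsp G := by
    unfold Nsp
    positivity
  have hWmax : 0 ≤ Wmax G := by
    unfold Wmax
    positivity
  -- the density
  have hdelta : q / Nsp G ≤ delta S G d P C ζ := by
    have hW : (scanData S G d P).W = P.a * G.K := rfl
    unfold delta
    rw [hW, ← herr, ← hT, div_le_div_iff₀ hNsp (by positivity)]
    unfold Nsp
    have h8 : P.a * P.ε * ((G.n : ℝ) * G.m) * q =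
        8 * G.Mn * (P.a / 2 * (2 * (G.Mn : ℝ))⁻¹ * (P.ε / 2) * ((G.n * G.m : ℕ) : ℝ) * q) := by
      push_cast
      field_simp
      ring
    have h9 : P.a * P.ε * ((G.n : ℝ) * G.m) * q ≤ 8 * G.Mn * T := by
      rw [h8]
      exact mul_le_mul_of_nonneg_left hQT (by positivity)
    have h10 := mul_le_mul_of_nonneg_left h9 hK.le
    nlinarith
  -- the energy
  have hcost := scan_cost (P := P) h d ⟨r, hr⟩ hp01.1.le hp01.2.le (hA1 ⟨r, hr⟩ p hp01)
    (hA2 ⟨r, hr⟩ p hp01)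
  have hen := hA5 ⟨r, hr⟩ p hp01
  have hpre : 0 ≤ C * P.a ^ 2 * P.ell ^ C := by
    have : 0 ≤ P.ell ^ C := Real.rpow_nonneg (by linarith) _
    have : 0 ≤ C := by linarith
    positivity
  have h2ell : 0 ≤ (2 * P.ell) ^ ((1 : ℝ) / 8) := Real.rpow_nonneg (by linarith) _
  have hpow : (q / Nsp G) ^ ((1 : ℝ) / 8) ≤ (delta S G d P C ζ) ^ ((1 : ℝ) / 8) :=
    Real.rpow_le_rpow (div_nonneg hq0 hNsp.le) hdelta (by norm_num)
  have hinner : (q / Nsp G) ^ ((1 : ℝ) / 8) + (P.Pbad + p) * (2 * P.ell) ^ ((1 : ℝ) / 8) ≤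
      (delta S G d P C ζ) ^ ((1 : ℝ) / 8) + (P.Pbad + P.ε) * (2 * P.ell) ^ ((1 : ℝ) / 8) := by
    have : (P.Pbad + p) * (2 * P.ell) ^ ((1 : ℝ) / 8) ≤
        (P.Pbad + P.ε) * (2 * P.ell) ^ ((1 : ℝ) / 8) :=
      mul_le_mul_of_nonneg_right (by linarith [hp.2]) h2ell
    linarith
  have hfin := mul_le_mul_of_nonneg_left
    (le_trans hcost (mul_le_mul_of_nonneg_left hinner (mul_nonneg hWmax hNsp.le))) hpre
  unfold Ebd
  rw [le_div_iff₀ h.sys.gap_pos, mul_comm]
  refine le_trans hen ?_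
  have e : C * P.a ^ 2 * P.ell ^ C * Wmax G * Nsp G *
      ((delta S G d P C ζ) ^ ((1 : ℝ) / 8) + (P.Pbad + P.ε) * (2 * P.ell) ^ ((1 : ℝ) / 8)) =
      C * P.a ^ 2 * P.ell ^ C * (Wmax G * Nsp G *
      ((delta S G d P C ζ) ^ ((1 : ℝ) / 8) + (P.Pbad + P.ε) * (2 * P.ell) ^ ((1 : ℝ) / 8))) := by
    ring
  rw [e]
  linarith

end Claimed.Agent.R296.Scan
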