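import Claimed.Agent.R296.Scan.MainC
import Claimed.Agent.R296.Scan.Typ

/-!
# Row 296, P1 Section 8, level B: closed forms of the rough and of the sharp comparison (package S8-B6)

Proofs: helper46; auxiliary lemmas carry the prefix `md_`.
-/

set_option autoImplicit false
set_option linter.unusedSectionVars false

namespace Claimed.Agent.R296.Scan

open Finset Filter Topology

variable {Λ ι : Type} [Fintype Λ] [DecidableEq Λ] [Fintype ι]
variable {io : Λ → Type} [∀ x, Fintype (io x)] [∀ x, DecidableEq (io x)]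
variable {S : Sys Λ ι io} {G : Geom Λ ι} {P : Par} {a0 : ℝ}

theorem md_continuous_Ebd (S : Sys Λ ι io) (G : Geom Λ ι) (d : G.Lab) (P : Par) (C : ℝ) :
    Continuous fun ζ : ℝ => Ebd S G d P C ζ := by
  have hdelta : Continuous fun ζ : ℝ => delta S G d P C ζ := by
    unfold delta
    fun_prop
  unfold Ebd
  exact ((continuous_const.add (continuous_const.mul
    ((hdelta.rpow_const (fun _ => Or.inr (by norm_num))).add continuous_const))).add
      continuous_id).div_const _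

/-- passage to the limit `ζ → 0` -/
theorem md_limit {f : ℝ → ℝ} (hf : Continuous f) {B : ℝ} (h : ∀ ζ, 0 < ζ → f ζ ≤ B) : f 0 ≤ B := by
  have h1 : Tendsto f (𝓝[>] (0 : ℝ)) (𝓝 (f 0)) := (hf.tendsto 0).mono_left nhdsWithin_le_nhds
  exact le_of_tendsto h1 (eventually_nhdsWithin_of_forall fun ζ hζ => h ζ hζ)

/-- (B6) the closed form of the rough comparison -/
theorem scan_rough [∀ x, Nonempty (io x)] (h : Compat S G P a0) (d : G.Lab)
    {C0 c0 C : ℝ} (hC : 1 ≤ C)
    (hR : ∀ ζ : ℝ, 0 < ζ → ∃ F Ed : MTree G.Lab → ℝ, (scanData S G d P).Out C0 c0 C a0 ζ F Ed) :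
    (scanData S G d P).W / 2 * (2 * (scanData S G d P).S' -
        C * (P.τ * (scanData S G d P).ld + Real.binEntropy P.τ / P.a) -
        C * (Ebd S G d P C 0 / P.τ) * (scanData S G d P).S') ≤ Bud S G d P := by
  have hPre := scanData_prefix h d
  have hW0 : 0 ≤ (scanData S G d P).W := mul_nonneg h.a_pos.le (Nat.cast_nonneg _)
  have hS0 : 0 ≤ (scanData S G d P).S' := typS_nonneg _ _
  have hC0 : 0 ≤ C := by linarith
  have hτ := h.tau_pos
  have key : ∀ ζ : ℝ, 0 < ζ → (scanData S G d P).W / 2 * (2 * (scanData S G d P).S' -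
        C * (P.τ * (scanData S G d P).ld + Real.binEntropy P.τ / P.a) -
        C * (Ebd S G d P C ζ / P.τ) * (scanData S G d P).S') - 2 * ζ ≤ Bud S G d P := by
    intro ζ hζ
    obtain ⟨F, Ed, hO⟩ := hR ζ hζ
    obtain ⟨r, p, hp, hE⟩ := scan_select h d hC hζ hO
    have hp' : p ∈ Set.Icc (0 : ℝ) 1 :=
      ⟨by linarith [hp.1, h.eps_pos], by linarith [hp.2, h.eps_le]⟩
    have h1 := hO.rough_lower r p hp'
    have h2 := hO.rough_upper hPre r p hp'
    have h3 : C * (Ed ((scanData S G d P).tree r p) / P.τ) * (scanData S G d P).S'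
        ≤ C * (Ebd S G d P C ζ / P.τ) * (scanData S G d P).S' := by gcongr
    have h4 : (scanData S G d P).W / 2 * (2 * (scanData S G d P).S' -
        C * (P.τ * (scanData S G d P).ld + Real.binEntropy P.τ / P.a) -
        C * (Ebd S G d P C ζ / P.τ) * (scanData S G d P).S') ≤
        (scanData S G d P).W / 2 * (2 * (scanData S G d P).S' -
        C * (P.τ * (scanData S G d P).ld + Real.binEntropy P.τ / P.a) -
        C * (Ed ((scanData S G d P).tree r p) / P.τ) * (scanData S G d P).S') := by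
      apply mul_le_mul_of_nonneg_left _ (by linarith)
      linarith
    have h5 : Bud S G d P = 2 * (scanData S G d P).ld - Real.log (scanData S G d P).z +
      (scanData S G d P).W / 2 * (2 * P.Bsh / (scanData S G d P).z + 2 * P.Bexc) := rfl
    have h1' : (scanData S G d P).W / 2 * (2 * (scanData S G d P).S' -
        C * (P.τ * (scanData S G d P).ld + Real.binEntropy P.τ / P.a) -
        C * (Ed ((scanData S G d P).tree r p) / P.τ) * (scanData S G d P).S') - ζ
        ≤ F ((scanData S G d P).tree r p) := h1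
    have h2' : F ((scanData S G d P).tree r p) ≤ Bud S G d P + ζ := h2
    linarith
  have hcont : Continuous fun ζ : ℝ => (scanData S G d P).W / 2 * (2 * (scanData S G d P).S' -
        C * (P.τ * (scanData S G d P).ld + Real.binEntropy P.τ / P.a) -
        C * (Ebd S G d P C ζ / P.τ) * (scanData S G d P).S') - 2 * ζ := by
    have := md_continuous_Ebd S G d P C
    fun_prop
  have := md_limit hcont key
  simpa using this


/-- monotonicity of the mutual information -/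
theorem md_minfo_mono {ρ : Matrix (Cfg io) (Cfg io) ℂ} (hE : EntOK ρ) {X B B' : Finset Λ}
    (hB : B ⊆ B') (hX : Disjoint X B') : minfo ρ X B ≤ minfo ρ X B' := by
  have h := hE.ssa (X ∪ B) B'
  have e1 : (X ∪ B) ∪ B' = X ∪ B' := by rw [union_assoc, union_eq_right.2 hB]
  have e2 : (X ∪ B) ∩ B' = B := by
    rw [union_inter_distrib_right, disjoint_iff_inter_eq_empty.1 hX, empty_union,
      inter_eq_left.2 hB]
  rw [e1, e2] at h
  unfold minfo
  linarith

/-- the entropy identity `2 S(X) + g^pre - g^post = I(X:V) + I(X:YV)` -/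
theorem md_gpre_sub_gpost {α : Type} (𝔇 : RepData Λ ι α io) (hE : EntOK 𝔇.S.rho)
    (s : Finset Λ × Finset Λ) :
    𝔇.gpre s - 𝔇.gpost s
      = minfo 𝔇.S.rho 𝔇.X s.2 + minfo 𝔇.S.rho 𝔇.X s.1ᶜ - 2 * ent 𝔇.S.rho 𝔇.X := by
  have e1 : ent 𝔇.S.rho (𝔇.X ∪ s.2) = ent 𝔇.S.rho (s.2ᶜ \ 𝔇.X) := by
    rw [← hE.compl (𝔇.X ∪ s.2)]
    congr 1
    ext x
    simp only [Finset.mem_compl, Finset.mem_union, Finset.mem_sdiff]
    tauto
  have e2 : ent 𝔇.S.rho (𝔇.X ∪ s.1ᶜ) = ent 𝔇.S.rho (s.1 \ 𝔇.X) := by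
    rw [← hE.compl (𝔇.X ∪ s.1ᶜ)]
    congr 1
    ext x
    simp only [Finset.mem_compl, Finset.mem_union, Finset.mem_sdiff]
    tauto
  unfold RepData.gpre RepData.gpost minfo
  rw [e1, e2, hE.compl s.1]
  ring

theorem md_gpre_nonneg {α : Type} (𝔇 : RepData Λ ι α io) (hE : EntOK 𝔇.S.rho)
    {s : Finset Λ × Finset Λ} (hs : Disjoint s.1 s.2) : 0 ≤ 𝔇.gpre s := by
  have h := hE.ssa s.1 s.2
  rw [disjoint_iff_inter_eq_empty.1 hs, hE.empty, add_zero] at h
  unfold RepData.gpre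
  rw [hE.compl]
  linarith

/-- the leafwise lower bound -/
theorem md_leaf {α : Type} (𝔇 : RepData Λ ι α io) (hE : EntOK 𝔇.S.rho)
    {s : Finset Λ × Finset Λ} (hX : 𝔇.X ⊆ s.1) (hs : Disjoint s.1 s.2) {Fx : Finset Λ}
    (hF : Fx ⊆ s.2) :
    2 * minfo 𝔇.S.rho 𝔇.X Fx - 2 * ent 𝔇.S.rho 𝔇.X ≤ 𝔇.gpre s - 𝔇.gpost s := by
  rw [md_gpre_sub_gpost 𝔇 hE]
  have h1 : minfo 𝔇.S.rho 𝔇.X Fx ≤ minfo 𝔇.S.rho 𝔇.X s.2 :=
    md_minfo_mono hE hF (disjoint_of_subset_left hX hs)
  have h2 : minfo 𝔇.S.rho 𝔇.X Fx ≤ minfo 𝔇.S.rho 𝔇.X s.1ᶜ := by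
    refine md_minfo_mono hE (hF.trans ?_) ?_
    · intro x hx
      rw [mem_compl]
      exact fun h => disjoint_left.1 hs h hx
    · exact disjoint_of_subset_left hX disjoint_compl_right
  linarith

/-- the averaged lower bound -/
theorem md_av {α : Type} (𝔇 : RepData Λ ι α io) (hK : 0 < 𝔇.K) {T : MTree α} (hv : T.Valid)
    (hτ : 0 ≤ 𝔇.τ) {c gmax : ℝ}
    (h1 : T.All fun l => ∀ g, c ≤ 𝔇.gpre (𝔇.st l g) - 𝔇.gpost (𝔇.st l g))
    (h2 : T.All fun l => ∀ g, 𝔇.gpre (𝔇.st l g) ≤ gmax) :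
    c - 𝔇.τ * gmax ≤ (1 - 𝔇.τ) * 𝔇.av 𝔇.gpre T - 𝔇.av 𝔇.gpost T := by
  have hK' : (0 : ℝ) < 𝔇.K := by exact_mod_cast hK
  have e : (1 - 𝔇.τ) * 𝔇.av 𝔇.gpre T - 𝔇.av 𝔇.gpost T
      = (𝔇.K : ℝ)⁻¹ * ∑ g, ((1 - 𝔇.τ) * T.E (fun l => 𝔇.gpre (𝔇.st l g)) -
          T.E (fun l => 𝔇.gpost (𝔇.st l g))) := by
    unfold RepData.av
    rw [Finset.sum_sub_distrib, ← Finset.mul_sum]
    ring
  have hg : ∀ g : Fin 𝔇.K, c - 𝔇.τ * gmax ≤ (1 - 𝔇.τ) * T.E (fun l => 𝔇.gpre (𝔇.st l g)) -
      T.E (fun l => 𝔇.gpost (𝔇.st l g)) := by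
    intro g
    have a1 : c ≤ T.E (fun l => 𝔇.gpre (𝔇.st l g) - 𝔇.gpost (𝔇.st l g)) :=
      MTree.le_E_of_all hv (h1.imp fun l hl => hl g)
    rw [MTree.E_sub] at a1
    have a2 : T.E (fun l => 𝔇.gpre (𝔇.st l g)) ≤ gmax :=
      MTree.E_le_of_all hv (h2.imp fun l hl => hl g)
    have a3 := mul_le_mul_of_nonneg_left a2 hτ
    linarith
  rw [e]
  have h3 : ∑ _g : Fin 𝔇.K, (c - 𝔇.τ * gmax) ≤ ∑ g, ((1 - 𝔇.τ) * T.E (fun l => 𝔇.gpre (𝔇.st l g)) -
      T.E (fun l => 𝔇.gpost (𝔇.st l g))) := Finset.sum_le_sum fun g _ => hg g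
  rw [Finset.sum_const, Finset.card_univ, Fintype.card_fin, nsmul_eq_mul] at h3
  calc c - 𝔇.τ * gmax = (𝔇.K : ℝ)⁻¹ * ((𝔇.K : ℝ) * (c - 𝔇.τ * gmax)) := by
        field_simp
    _ ≤ _ := mul_le_mul_of_nonneg_left h3 (inv_nonneg.2 hK'.le)


theorem md_valid_Ch (G : Geom Λ ι) (l : G.Lab) : (G.Ch l).Valid := by
  unfold Geom.Ch
  split_ifs
  · exact MTree.valid_unifD _ _ _
  · trivial

theorem md_tree_valid [∀ x, Nonempty (io x)] (h : Compat S G P a0) (d : G.Lab)
    (r : Fin (2 * (G.n * G.m))) {p : ℝ} (hp : p ∈ Set.Icc (0 : ℝ) 1) :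
    ((scanData S G d P).tree r p).Valid :=
  MTree.valid_interp hp.1 hp.2 ((scanData_wf h d).hs_valid r).valid (md_valid_Ch G)

theorem md_tree_all [∀ x, Nonempty (io x)] (h : Compat S G P a0) (d : G.Lab)
    (r : Fin (2 * (G.n * G.m))) (p : ℝ) : ((scanData S G d P).tree r p).All G.Reach := by
  have hW := scanData_wf h d
  have h1 : ((scanData S G d P).Hs r).All
      (fun l => G.Reach l ∧ ((scanData S G d P).Ch r l).All G.Reach) := by
    rw [MTree.all_iff_leaves]
    intro a ha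
    exact ⟨(MTree.all_iff_leaves _).1 (hW.hs_al r) a ha,
      ((MTree.all_iff_leaves _).1 (hW.ch_ok r) a ha).2.1⟩
  exact MTree.all_bind h1 (fun a ha => ⟨ha.1, ha.2⟩)

/-- (B7) the closed form of the sharp comparison; `Fx` is any set of sites of capped depth `L + 1` -/
theorem scan_sharp [∀ x, Nonempty (io x)] (h : Compat S G P a0) (d : G.Lab) (hE : EntOK S.rho)
    {C0 c0 C : ℝ} (hC : 1 ≤ C)
    (hR : ∀ ζ : ℝ, 0 < ζ → ∃ F Ed : MTree G.Lab → ℝ, (scanData S G d P).Out C0 c0 C a0 ζ F Ed)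
    (hM : (scanData S G d P).MgfData C0 c0) (haB : P.a * Real.sqrt P.BB ≤ a0) {gmax : ℝ}
    (hg : ∀ l, G.Reach l → ∀ g, (scanData S G d P).gpre (G.st l g) ≤ gmax)
    {Fx : Finset Λ} (hFx : ∀ x ∈ Fx, G.dp x = G.L + 1) :
    (scanData S G d P).W / 2 * (2 * (scanData S G d P).S' + 2 * minfo S.rho G.X Fx -
        2 * ent S.rho G.X - P.τ * gmax -
        C * (P.τ * (scanData S G d P).ld + Real.binEntropy P.τ / P.a + P.a * P.BB) -
        C * (Ebd S G d P C 0 / P.τ) * ((scanData S G d P).S' + gmax) -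
        C * (P.a * P.BB + |Real.log (scanData S G d P).z| / P.a)) ≤
      2 * (scanData S G d P).ld - Real.log (scanData S G d P).z := by
  have hW0 : 0 ≤ (scanData S G d P).W := mul_nonneg h.a_pos.le (Nat.cast_nonneg _)
  have hS0 : 0 ≤ (scanData S G d P).S' := typS_nonneg _ _
  have hC0 : 0 ≤ C := by linarith
  have hτ := h.tau_pos
  have hE' : EntOK (scanData S G d P).S.rho := hE
  -- `gmax` is nonnegative
  have hg0 : 0 ≤ gmax := by
    let l₀ : G.Lab := ⟨fun _ => ⟨0, h.geo.m_pos⟩, [], false⟩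
    have hl₀ : G.Reach l₀ := by simp [Geom.Reach, l₀]
    have := md_gpre_nonneg (scanData S G d P) hE' (s := G.st l₀ ⟨0, h.geo.K_pos⟩)
      (Geom.disjoint_near_far h.geo hl₀ _)
    exact this.trans (hg l₀ hl₀ _)
  have key : ∀ ζ : ℝ, 0 < ζ → (scanData S G d P).W / 2 * (2 * (scanData S G d P).S' +
        2 * minfo S.rho G.X Fx - 2 * ent S.rho G.X - P.τ * gmax -
        C * (P.τ * (scanData S G d P).ld + Real.binEntropy P.τ / P.a + P.a * P.BB) -
        C * (Ebd S G d P C ζ / P.τ) * ((scanData S G d P).S' + gmax) -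
        C * (P.a * P.BB + |Real.log (scanData S G d P).z| / P.a)) - 2 * ζ ≤
      2 * (scanData S G d P).ld - Real.log (scanData S G d P).z := by
    intro ζ hζ
    obtain ⟨F, Ed, hO⟩ := hR ζ hζ
    obtain ⟨r, p, hp, hEd⟩ := scan_select h d hC hζ hO
    have hp' : p ∈ Set.Icc (0 : ℝ) 1 :=
      ⟨by linarith [hp.1, h.eps_pos], by linarith [hp.2, h.eps_le]⟩
    set T := (scanData S G d P).tree r p with hT
    have h1 : (scanData S G d P).W / 2 * (2 * (scanData S G d P).S' +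
        (1 - P.τ) * (scanData S G d P).av (scanData S G d P).gpre T -
        C * (P.τ * (scanData S G d P).ld + Real.binEntropy P.τ / P.a + P.a * P.BB) -
        C * (Ed T / P.τ) * ((scanData S G d P).S' + gmax)) - ζ ≤ F T :=
      hO.sharp_lower hM haB gmax hg r p hp'
    have h2 : F T ≤ 2 * (scanData S G d P).ld - Real.log (scanData S G d P).z +
        (scanData S G d P).W / 2 * ((scanData S G d P).av (scanData S G d P).gpost T +
          C * (P.a * P.BB + |Real.log (scanData S G d P).z| / P.a)) + ζ :=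
      hO.sharp_upper hM haB r p hp'
    have hall := md_tree_all h d r p
    have h3 : 2 * minfo S.rho G.X Fx - 2 * ent S.rho G.X - P.τ * gmax ≤
        (1 - P.τ) * (scanData S G d P).av (scanData S G d P).gpre T -
          (scanData S G d P).av (scanData S G d P).gpost T := by
      refine md_av (scanData S G d P) h.geo.K_pos (md_tree_valid h d r hp') hτ.le
        (hall.imp fun l hl g => ?_) (hall.imp fun l hl g => hg l hl g)
      exact md_leaf (scanData S G d P) hE' (s := G.st l g) (Geom.X_subset_near h.geo hl g)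
        (Geom.disjoint_near_far h.geo hl g) (fun x hx => Geom.deep_mem_far h.geo hl g (hFx x hx))
    have h4 : C * (Ed T / P.τ) * ((scanData S G d P).S' + gmax)
        ≤ C * (Ebd S G d P C ζ / P.τ) * ((scanData S G d P).S' + gmax) := by gcongr
    have hW2 : 0 ≤ (scanData S G d P).W / 2 := by linarith
    have h5 := mul_le_mul_of_nonneg_left h3 hW2
    have h6 := mul_le_mul_of_nonneg_left h4 hW2
    nlinarith [h1, h2, h5, h6]
  have hcont : Continuous fun ζ : ℝ => (scanData S G d P).W / 2 * (2 * (scanData S G d P).S' +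
        2 * minfo S.rho G.X Fx - 2 * ent S.rho G.X - P.τ * gmax -
        C * (P.τ * (scanData S G d P).ld + Real.binEntropy P.τ / P.a + P.a * P.BB) -
        C * (Ebd S G d P C ζ / P.τ) * ((scanData S G d P).S' + gmax) -
        C * (P.a * P.BB + |Real.log (scanData S G d P).z| / P.a)) - 2 * ζ := by
    have := md_continuous_Ebd S G d P C
    fun_prop
  have := md_limit hcont key
  simpa using this

end Claimed.Agent.R296.Scan
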