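import Claimed.Agent.R296.Scan.Concl

/-!
# Row 296, paper 1, Section 8: numerics of the exponent audits (package NUM)

Pure real analysis: powers of the scale `n` against constants and logarithms, the sizes of the
scales `L m K D a`, the bound `Ē ≤ n^(-ν/2)` for the energy output of the scanner, and the two
scalar manipulations which solve `RoughIneq` for `S(X)` and `SharpIneq` for `I(X : far)`.
Prefix `num_`.  No lattice, no matrices.
-/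

set_option autoImplicit false

namespace Claimed.Agent.R296.Scan

open Filter

/-- N1: a power of the logarithm is below every positive power -/
theorem num_log_pow_le (Cl : ℕ) {ι : ℝ} (hι : 0 < ι) :
    ∃ n0 : ℕ, ∀ n : ℕ, n0 ≤ n → Real.log n ^ Cl ≤ (n : ℝ) ^ ι := by
  have h := ((isLittleO_log_rpow_rpow_atTop (Cl : ℝ) hι).comp_tendsto
    tendsto_natCast_atTop_atTop).bound one_pos
  obtain ⟨n0, h0⟩ := eventually_atTop.1 h
  refine ⟨n0, fun n hn => ?_⟩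
  have h1 := h0 n hn
  simp only [Function.comp_apply, Real.norm_eq_abs, one_mul, Real.rpow_natCast] at h1
  rw [abs_of_nonneg (Real.rpow_nonneg (Nat.cast_nonneg n) ι)] at h1
  exact (le_abs_self _).trans h1

theorem num_rpow_ge (C : ℝ) {ι : ℝ} (hι : 0 < ι) :
    ∃ n0 : ℕ, ∀ n : ℕ, n0 ≤ n → C ≤ (n : ℝ) ^ ι := by
  have h := ((tendsto_rpow_atTop hι).comp tendsto_natCast_atTop_atTop).eventually_ge_atTop C
  obtain ⟨n0, h0⟩ := eventually_atTop.1 h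
  exact ⟨n0, fun n hn => h0 n hn⟩

/-- N2: constants and logarithms are absorbed by a strict gap of exponents -/
theorem num_absorb (C : ℝ) (Cl : ℕ) {α β : ℝ} (h : α < β) :
    ∃ n0 : ℕ, ∀ n : ℕ, n0 ≤ n → C * Real.log n ^ Cl * (n : ℝ) ^ α ≤ (n : ℝ) ^ β := by
  have hι : 0 < (β - α) / 2 := by linarith
  obtain ⟨n1, h1⟩ := num_log_pow_le Cl hι
  obtain ⟨n2, h2⟩ := num_rpow_ge C hι
  refine ⟨max 1 (max n1 n2), fun n hn => ?_⟩
  have hn1 : 1 ≤ n := le_trans (le_max_left _ _) hn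
  have hn0 : (0 : ℝ) < n := by exact_mod_cast hn1
  have a1 := h1 n (le_trans (le_trans (le_max_left _ _) (le_max_right _ _)) hn)
  have a2 := h2 n (le_trans (le_trans (le_max_right _ _) (le_max_right _ _)) hn)
  have hlog : 0 ≤ Real.log n ^ Cl := pow_nonneg (Real.log_natCast_nonneg n) _
  have hp : 0 ≤ (n : ℝ) ^ ((β - α) / 2) := Real.rpow_nonneg hn0.le _
  have e : (n : ℝ) ^ β = (n : ℝ) ^ ((β - α) / 2) * (n : ℝ) ^ ((β - α) / 2) * (n : ℝ) ^ α := by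
    rw [← Real.rpow_add hn0, ← Real.rpow_add hn0]
    congr 1; ring
  rw [e]
  refine mul_le_mul_of_nonneg_right ?_ (Real.rpow_nonneg hn0.le _)
  calc C * Real.log n ^ Cl ≤ (n : ℝ) ^ ((β - α) / 2) * Real.log n ^ Cl :=
        mul_le_mul_of_nonneg_right a2 hlog
    _ ≤ (n : ℝ) ^ ((β - α) / 2) * (n : ℝ) ^ ((β - α) / 2) := mul_le_mul_of_nonneg_left a1 hp

/-- N2': constants are absorbed by a strict gap of exponents -/
theorem num_absorb_const (C : ℝ) {α β : ℝ} (h : α < β) :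
    ∃ n0 : ℕ, ∀ n : ℕ, n0 ≤ n → C * (n : ℝ) ^ α ≤ (n : ℝ) ^ β := by
  obtain ⟨n0, h0⟩ := num_absorb C 0 h
  exact ⟨n0, fun n hn => by simpa using h0 n hn⟩

/-- N3: a negative power is eventually below every positive constant -/
theorem num_small (C : ℝ) {α c : ℝ} (hα : 0 < α) (hc : 0 < c) :
    ∃ n0 : ℕ, ∀ n : ℕ, n0 ≤ n → C * (n : ℝ) ^ (-α) ≤ c := by
  obtain ⟨n1, h1⟩ := num_rpow_ge (C / c) hα
  refine ⟨max 1 n1, fun n hn => ?_⟩
  have hn1 : 1 ≤ n := le_trans (le_max_left _ _) hn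
  have hn0 : (0 : ℝ) < n := by exact_mod_cast hn1
  have a1 := h1 n (le_trans (le_max_right _ _) hn)
  have hp : 0 < (n : ℝ) ^ α := Real.rpow_pos_of_pos hn0 _
  rw [Real.rpow_neg hn0.le, ← div_eq_mul_inv, div_le_iff₀ hp]
  rwa [div_le_iff₀ hc, mul_comm] at a1

/-- the sizes of the scales -/
structure ScaleBds (s : Scales) : Prop where
  n_ge : 2 ≤ s.n
  L_le : (s.L : ℝ) ≤ (s.n : ℝ) ^ (1 - s.l)
  L_ge : (s.n : ℝ) ^ (1 - s.l) / 2 ≤ s.L
  L_two : 2 ≤ s.L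
  K_ge : (s.n : ℝ) ^ (1 - s.l - s.μ) / 32 ≤ s.K
  K_le : (s.K : ℝ) ≤ (s.n : ℝ) ^ (1 - s.l - s.μ) / 4
  K_pos : 1 ≤ s.K
  D_ge : (s.n : ℝ) ^ s.κ ≤ s.D
  D_le : (s.D : ℝ) ≤ 2 * (s.n : ℝ) ^ s.κ

/-- N4: the scales have their nominal sizes for large `n` -/
theorem num_scaleBds {l μ κ : ℝ} (hl : 0 < l) (hκ : 0 < κ) (hμ0 : 0 < μ) (hμ : μ < 1 - l) :
    ∃ n0 : ℕ, ∀ n : ℕ, n0 ≤ n → ∀ W : ℝ, ScaleBds ⟨n, l, μ, κ, W⟩ := by
  obtain ⟨n1, h1⟩ := num_rpow_ge 2 (by linarith : 0 < 1 - l)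
  obtain ⟨n2, h2⟩ := num_rpow_ge 2 hμ0
  obtain ⟨n3, h3⟩ := num_rpow_ge 32 (by linarith : 0 < 1 - l - μ)
  obtain ⟨n4, h4⟩ := num_rpow_ge 1 hκ
  refine ⟨max 2 (max (max n1 n2) (max n3 n4)), fun n hn W => ?_⟩
  have hn2 : 2 ≤ n := le_trans (le_max_left _ _) hn
  have hn' := le_trans (le_max_right _ _) hn
  have a1 := h1 n (le_trans (le_trans (le_max_left _ _) (le_max_left _ _)) hn')
  have a2 := h2 n (le_trans (le_trans (le_max_right _ _) (le_max_left _ _)) hn')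
  have a3 := h3 n (le_trans (le_trans (le_max_left _ _) (le_max_right _ _)) hn')
  have a4 := h4 n (le_trans (le_trans (le_max_right _ _) (le_max_right _ _)) hn')
  have hn0 : (0 : ℝ) < n := by positivity
  set x : ℝ := (n : ℝ) ^ (1 - l) with hx
  set y : ℝ := (n : ℝ) ^ μ with hy
  set e : ℝ := (n : ℝ) ^ (1 - l - μ) with he
  have hxy : x = e * y := by rw [hx, he, hy, ← Real.rpow_add hn0]; congr 1; ring
  have hL1 : ((⌊x⌋₊ : ℕ) : ℝ) ≤ x := Nat.floor_le (by linarith)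
  have hL2 : x - 1 < ((⌊x⌋₊ : ℕ) : ℝ) := Nat.sub_one_lt_floor x
  have hm1 : ((⌊y⌋₊ : ℕ) : ℝ) ≤ y := Nat.floor_le (by linarith)
  have hm2 : y - 1 < ((⌊y⌋₊ : ℕ) : ℝ) := Nat.sub_one_lt_floor y
  have hmpos : (0 : ℝ) < ((⌊y⌋₊ : ℕ) : ℝ) := by linarith
  have hK1 : ((⌊x⌋₊ / (8 * ⌊y⌋₊) : ℕ) : ℝ) ≤ (⌊x⌋₊ : ℝ) / ((8 * ⌊y⌋₊ : ℕ) : ℝ) := Nat.cast_div_le
  have hK2 : (⌊x⌋₊ : ℝ) / ((8 * ⌊y⌋₊ : ℕ) : ℝ) < ((⌊x⌋₊ / (8 * ⌊y⌋₊) : ℕ) : ℝ) + 1 := by
    have hpos : 0 < 8 * ⌊y⌋₊ := by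
      have : 0 < ⌊y⌋₊ := by exact_mod_cast hmpos
      omega
    have h5 := Nat.lt_div_mul_add (a := ⌊x⌋₊) hpos
    have hposR : (0 : ℝ) < ((8 * ⌊y⌋₊ : ℕ) : ℝ) := by exact_mod_cast hpos
    rw [div_lt_iff₀ hposR]
    have h6 : ((⌊x⌋₊ : ℕ) : ℝ) < ((⌊x⌋₊ / (8 * ⌊y⌋₊) * (8 * ⌊y⌋₊) + 8 * ⌊y⌋₊ : ℕ) : ℝ) := by
      exact_mod_cast h5
    push_cast at h6 ⊢
    linarith
  have hKge : e / 32 ≤ ((⌊x⌋₊ / (8 * ⌊y⌋₊) : ℕ) : ℝ) := by
    have h7 : e / 16 ≤ (⌊x⌋₊ : ℝ) / ((8 * ⌊y⌋₊ : ℕ) : ℝ) := by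
      push_cast
      rw [div_le_div_iff₀ (by norm_num) (by positivity)]
      have hepos : 0 ≤ e := by linarith
      nlinarith
    linarith
  have hKle : ((⌊x⌋₊ / (8 * ⌊y⌋₊) : ℕ) : ℝ) ≤ e / 4 := by
    refine hK1.trans ?_
    push_cast
    rw [div_le_div_iff₀ (by positivity) (by norm_num)]
    have hepos : 0 ≤ e := by linarith
    nlinarith
  have hLge : x / 2 ≤ ((⌊x⌋₊ : ℕ) : ℝ) := by linarith
  refine ⟨hn2, hL1, hLge, Nat.le_floor (by exact_mod_cast a1), hKge, hKle, ?_,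
    Nat.le_ceil _, ?_⟩
  · have : (1 : ℝ) ≤ ((⌊x⌋₊ / (8 * ⌊y⌋₊) : ℕ) : ℝ) := by linarith
    exact_mod_cast this
  · have := (Nat.ceil_lt_add_one (Real.rpow_nonneg hn0.le κ)).le
    show ((⌈(n : ℝ) ^ κ⌉₊ : ℕ) : ℝ) ≤ 2 * (n : ℝ) ^ κ
    linarith

/-- N5: upper bound for the weight per band -/
theorem ScaleBds.num_a_le {s : Scales} (h : ScaleBds s) (hW : 0 ≤ s.W) :
    s.a ≤ 32 * s.W * (s.n : ℝ) ^ (-(1 - s.l - s.μ)) := by
  have hn0 : (0 : ℝ) < s.n := by have := h.n_ge; positivity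
  have hK : (0 : ℝ) < s.K := by exact_mod_cast h.K_pos
  have hp : 0 < (s.n : ℝ) ^ (1 - s.l - s.μ) := Real.rpow_pos_of_pos hn0 _
  unfold Scales.a
  rw [Real.rpow_neg hn0.le, ← div_eq_mul_inv, div_le_div_iff₀ hK hp]
  have := h.K_ge
  nlinarith

/-- N5': positivity of the weight per band -/
theorem ScaleBds.num_a_pos {s : Scales} (h : ScaleBds s) (hW : 0 < s.W) : 0 < s.a := by
  have hK : (0 : ℝ) < s.K := by exact_mod_cast h.K_pos
  unfold Scales.a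
  positivity

/-- N5'': upper bound for the inverse weight per band -/
theorem ScaleBds.num_inv_a_le {s : Scales} (h : ScaleBds s) (hW : 1 ≤ s.W) :
    1 / s.a ≤ (s.n : ℝ) ^ (1 - s.l - s.μ) / 4 := by
  have hK : (0 : ℝ) < s.K := by exact_mod_cast h.K_pos
  refine le_trans ?_ h.K_le
  unfold Scales.a
  rw [one_div_div, div_le_iff₀ (by linarith)]
  nlinarith

/-- N7: `|log z| ≤ 2 x` for `1 - x ≤ z ≤ 1`, `x ≤ 1/2` -/
theorem num_abs_log_le {z x : ℝ} (hx : x ≤ 1 / 2) (h1 : 1 - x ≤ z) (h2 : z ≤ 1) :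
    |Real.log z| ≤ 2 * x := by
  have hz : 0 < z := by linarith
  rw [abs_of_nonpos (Real.log_nonpos hz.le h2)]
  have h3 := Real.log_le_sub_one_of_pos (inv_pos.2 hz)
  rw [Real.log_inv] at h3
  refine h3.trans ?_
  rw [inv_eq_one_div, sub_le_iff_le_add, div_le_iff₀ hz]
  nlinarith

theorem num_binEntropy_le_one (τ : ℝ) : Real.binEntropy τ ≤ 1 :=
  Real.binEntropy_le_log_two.trans (by have := Real.log_two_lt_d9; linarith)

/-- N8: solving the rough comparison with `W = 4` for the entropy of the target -/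
theorem num_rough_solve {s : Scales} {N : ConclNums} {C Eb Bsh Bexc τ w : ℝ} (hW : s.W = 4)
    (ha : 0 < s.a) (hC : 1 ≤ C) (hτ0 : 0 < τ) (hτ1 : τ < 1 / 2) (hτ : C * τ ≤ 1 / 4)
    (hEb0 : 0 ≤ Eb) (hEb : C * (Eb / τ) ≤ 1 / 4) (hz : 1 / 2 ≤ N.z) (hz1 : N.z ≤ 1)
    (hld : |N.ld - N.SX| ≤ w) (hS1 : |N.S1 - N.SX| ≤ w) (hBsh : 0 ≤ Bsh) (hBexc : 0 ≤ Bexc)
    (h : RoughIneq s N C Eb Bsh Bexc τ) :
    N.SX ≤ 7 * w + 2 * C * (1 / s.a) + 1 + 8 * Bsh + 4 * Bexc := by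
  have hw : 0 ≤ w := (abs_nonneg _).trans hld
  have hCa : 0 ≤ C * (1 / s.a) := by positivity
  rcases lt_or_ge N.SX 0 with hneg | hpos
  · nlinarith
  unfold RoughIneq at h
  rw [hW] at h
  obtain ⟨l1, l2⟩ := abs_le.1 hld
  obtain ⟨s1, s2⟩ := abs_le.1 hS1
  set c1 := C * τ with hc1
  set c2 := C * (Eb / τ) with hc2
  have hc1' : 0 ≤ c1 := by positivity
  have hc2' : 0 ≤ c2 := by positivity
  have hzpos : 0 < N.z := by linarith
  have hlogz : -Real.log N.z ≤ 1 := by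
    have := num_abs_log_le (z := N.z) (x := 1 / 2) le_rfl (by linarith) hz1
    have h5 := neg_abs_le (Real.log N.z)
    linarith
  have hB : 2 * Bsh / N.z ≤ 4 * Bsh := by
    rw [div_le_iff₀ hzpos]; nlinarith
  have hh : C * (Real.binEntropy τ / s.a) ≤ C * (1 / s.a) := by
    refine mul_le_mul_of_nonneg_left ?_ (by linarith)
    exact div_le_div_of_nonneg_right (num_binEntropy_le_one τ) ha.le
  have e1 : C * (τ * N.ld + Real.binEntropy τ / s.a) = c1 * N.ld + C * (Real.binEntropy τ / s.a) := by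
    rw [hc1]; ring
  rw [e1] at h
  have p1 : c1 * N.ld ≤ c1 * (N.SX + w) := mul_le_mul_of_nonneg_left (by linarith) hc1'
  have p2 : c2 * N.S1 ≤ c2 * (N.SX + w) := mul_le_mul_of_nonneg_left (by linarith) hc2'
  have p3 : c1 * (N.SX + w) ≤ 1 / 4 * (N.SX + w) := mul_le_mul_of_nonneg_right hτ (by linarith)
  have p4 : c2 * (N.SX + w) ≤ 1 / 4 * (N.SX + w) := mul_le_mul_of_nonneg_right hEb (by linarith)
  linarith

/-- N9: solving the sharp comparison for the mutual information -/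
theorem num_sharp_solve {s : Scales} {N : ConclNums} {C Eb gmax BB τ w : ℝ} (hW : 1 ≤ s.W)
    (ha : 0 < s.a) (hC : 1 ≤ C) (hτ0 : 0 < τ) (hτ1 : τ < 1 / 2) (hEb0 : 0 ≤ Eb)
    (hld : |N.ld - N.SX| ≤ w) (hS1 : |N.S1 - N.SX| ≤ w)
    (h : SharpIneq s N C Eb gmax BB τ) :
    2 * N.I1 ≤ 2 * w + τ * gmax + C * (τ * (N.SX + w) + 1 / s.a + s.a * BB) +
      C * (Eb / τ) * (N.SX + w + gmax) + (4 * (N.SX + w) + 2 * |Real.log N.z|) / s.W +
      C * (s.a * BB + |Real.log N.z| * (1 / s.a)) := by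
  unfold SharpIneq at h
  obtain ⟨l1, l2⟩ := abs_le.1 hld
  obtain ⟨s1, s2⟩ := abs_le.1 hS1
  have hWpos : 0 < s.W := by linarith
  have hC0 : 0 ≤ C := by linarith
  -- divide by `W / 2`
  have h' : 2 * N.S1 + 2 * N.I1 - 2 * N.SX - τ * gmax -
      C * (τ * N.ld + Real.binEntropy τ / s.a + s.a * BB) - C * (Eb / τ) * (N.S1 + gmax)
      ≤ (4 * N.ld - 2 * Real.log N.z) / s.W + C * (s.a * BB + |Real.log N.z| / s.a) := by
    have e : (4 * N.ld - 2 * Real.log N.z) / s.W + C * (s.a * BB + |Real.log N.z| / s.a)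
        = (2 * N.ld - Real.log N.z + s.W / 2 * (C * (s.a * BB + |Real.log N.z| / s.a)))
          / (s.W / 2) := by
      field_simp
      ring
    rw [e, le_div_iff₀ (by linarith)]
    linarith
  have q1 : C * (τ * N.ld + Real.binEntropy τ / s.a + s.a * BB)
      ≤ C * (τ * (N.SX + w) + 1 / s.a + s.a * BB) := by
    refine mul_le_mul_of_nonneg_left ?_ hC0
    have a1 : τ * N.ld ≤ τ * (N.SX + w) := mul_le_mul_of_nonneg_left (by linarith) hτ0.le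
    have a2 : Real.binEntropy τ / s.a ≤ 1 / s.a :=
      div_le_div_of_nonneg_right (num_binEntropy_le_one τ) ha.le
    linarith
  have q2 : C * (Eb / τ) * (N.S1 + gmax) ≤ C * (Eb / τ) * (N.SX + w + gmax) :=
    mul_le_mul_of_nonneg_left (by linarith) (by positivity)
  have q3 : (4 * N.ld - 2 * Real.log N.z) / s.W ≤ (4 * (N.SX + w) + 2 * |Real.log N.z|) / s.W := by
    refine div_le_div_of_nonneg_right ?_ hWpos.le
    have := neg_abs_le (Real.log N.z)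
    linarith
  have q4 : |Real.log N.z| / s.a = |Real.log N.z| * (1 / s.a) := by ring
  rw [q4] at h'
  linarith

end Claimed.Agent.R296.Scan
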