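import Claimed.Agent.R296.Scan.Num

/-!
# Row 296, paper 1, Section 8: the energy output of the scanner is a negative power of `n`

One statement (`num_Ebar_le`), the exponent audit common to Propositions 8.5 and 8.6.
Plan: with `b := 1 - l - μ`, `ScaleBds` gives `a ≤ 32 W n^(-b) ≤ 32 n^(ω - b)`, `D ≤ 2 n^κ`.
(1) `δ = C n^ν (n^(e-μ) + a^(1/4) log^Cl) ≤ n^(-8ν)` by `num_absorb` (strict gaps `h1`, `h2`);
(2) `δ^(1/8) ≤ n^(-ν)`; the bracket is `≤ 3 n^(-ν)`;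
(3) the prefactor is `≤ 4 C log^Cl n^(l + 2κ + 2ω)`, so the first summand is `≤ n^(-ν/2) / 2` by `h3`
    and `num_absorb`; the second summand `C n^(-1000) ≤ n^(-ν/2) / 2` since `ν ≤ 1`.
-/

set_option autoImplicit false

namespace Claimed.Agent.R296.Scan

/-- N6: the energy output of the scanner is at most `n^(-ν/2)`.
`h1, h2` make both terms of `δ_n` smaller than `n^(-8ν)`, `h3` controls the prefactor. -/
theorem num_Ebar_le {l μ κ ν ω e : ℝ} (h : ExpOK l μ κ ν ω e) (hν : ν ≤ 1)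
    (h1 : 9 * ν + e < μ) (h2 : 36 * ν + ω < 1 - l - μ) (h3 : l + 2 * κ + 2 * ω < ν / 2)
    (C : ℝ) (hC : 1 ≤ C) (Cl : ℕ) :
    ∃ n0 : ℕ, ∀ n : ℕ, n0 ≤ n → ∀ W : ℝ, 1 ≤ W → W ≤ (n : ℝ) ^ ω →
      0 ≤ scEbar ⟨n, l, μ, κ, W⟩ C Cl e ν ∧
      scEbar ⟨n, l, μ, κ, W⟩ C Cl e ν ≤ (n : ℝ) ^ (-(ν / 2)) := by
  have hν0 := h.ν_pos
  have hμ0 : 0 < μ := h.κ_pos.trans h.κ_lt
  have hμ1 : μ < 1 - l := by have := h.μ_lt; have := h.ω_nonneg; linarith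
  obtain ⟨nA, hA⟩ := num_scaleBds (κ := κ) h.l_pos h.κ_pos hμ0 hμ1
  obtain ⟨nB, hB⟩ := num_absorb_const (2 * C) (α := ν + (e - μ)) (β := -(8 * ν)) (by linarith)
  obtain ⟨nC, hCC⟩ := num_absorb (2 * C * (32 : ℝ) ^ ((1 : ℝ) / 4)) Cl
    (α := ν + (ω - (1 - l - μ)) / 4) (β := -(8 * ν)) (by linarith)
  obtain ⟨nD, hD⟩ := num_absorb (24 * C) Cl (α := l + 2 * κ + 2 * ω - ν) (β := -(ν / 2))
    (by linarith)
  obtain ⟨nE, hE⟩ := num_absorb_const (2 * C) (α := -1000) (β := -(ν / 2)) (by linarith)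
  refine ⟨max (max (max nA nB) (max nC nD)) nE, fun n hn W hW1 hWω => ?_⟩
  have hnA : nA ≤ n := le_trans (by simp) hn
  have hnB : nB ≤ n := le_trans (by simp) hn
  have hnC : nC ≤ n := le_trans (by simp) hn
  have hnD : nD ≤ n := le_trans (by simp) hn
  have hnE : nE ≤ n := le_trans (by simp) hn
  have hS := hA n hnA W
  set s : Scales := ⟨n, l, μ, κ, W⟩ with hs
  have hn2 : (2 : ℝ) ≤ (n : ℝ) := by exact_mod_cast hS.n_ge
  set x : ℝ := (n : ℝ) with hx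
  have hx0 : 0 < x := by linarith
  have hx1 : 1 ≤ x := by linarith
  have hlog : 0 ≤ Real.log x := Real.log_nonneg hx1
  set lg : ℝ := Real.log x ^ Cl with hlg
  have hlg0 : 0 ≤ lg := pow_nonneg hlog Cl
  have hC0 : 0 < C := by linarith
  have hW0 : 0 < W := by linarith
  -- the weight per band
  have ha0 : 0 < s.a := hS.num_a_pos hW0
  have ha1 : s.a ≤ 32 * x ^ (ω - (1 - l - μ)) := by
    have e1 : s.a ≤ 32 * W * x ^ (-(1 - l - μ)) := hS.num_a_le hW0.le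
    have e2 : 32 * W * x ^ (-(1 - l - μ)) ≤ 32 * x ^ ω * x ^ (-(1 - l - μ)) := by gcongr
    have e3 : 32 * x ^ ω * x ^ (-(1 - l - μ)) = 32 * x ^ (ω - (1 - l - μ)) := by
      rw [mul_assoc, ← Real.rpow_add hx0]; ring_nf
    linarith
  have ha4 : s.a ^ ((1 : ℝ) / 4) ≤ (32 : ℝ) ^ ((1 : ℝ) / 4) * x ^ ((ω - (1 - l - μ)) / 4) := by
    calc s.a ^ ((1 : ℝ) / 4) ≤ (32 * x ^ (ω - (1 - l - μ))) ^ ((1 : ℝ) / 4) :=
          Real.rpow_le_rpow ha0.le ha1 (by norm_num)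
      _ = (32 : ℝ) ^ ((1 : ℝ) / 4) * x ^ ((ω - (1 - l - μ)) / 4) := by
          rw [Real.mul_rpow (by norm_num) (Real.rpow_nonneg hx0.le _), ← Real.rpow_mul hx0.le]
          ring_nf
  -- the density output
  have hδ0 : 0 ≤ scDelta s C Cl e ν := by
    unfold scDelta
    have : 0 ≤ s.a ^ ((1 : ℝ) / 4) := Real.rpow_nonneg ha0.le _
    have h5 : 0 ≤ (s.n : ℝ) ^ ν := Real.rpow_nonneg hx0.le _
    have h6 : 0 ≤ (s.n : ℝ) ^ (e - s.μ) := Real.rpow_nonneg hx0.le _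
    have h7 : 0 ≤ Real.log (s.n : ℝ) ^ Cl := hlg0
    positivity
  have hδ1 : scDelta s C Cl e ν ≤ x ^ (-(8 * ν)) := by
    have t1 : 2 * C * x ^ (ν + (e - μ)) ≤ x ^ (-(8 * ν)) := hB n hnB
    have t2 : 2 * C * (32 : ℝ) ^ ((1 : ℝ) / 4) * lg * x ^ (ν + (ω - (1 - l - μ)) / 4) ≤
        x ^ (-(8 * ν)) := hCC n hnC
    have e1 : scDelta s C Cl e ν = C * x ^ ν * x ^ (e - μ) + C * x ^ ν * (s.a ^ ((1 : ℝ) / 4) * lg) := by
      unfold scDelta; ring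
    have e2 : C * x ^ ν * x ^ (e - μ) = C * x ^ (ν + (e - μ)) := by
      rw [mul_assoc, ← Real.rpow_add hx0]
    have e3 : C * x ^ ν * (s.a ^ ((1 : ℝ) / 4) * lg) ≤
        C * x ^ ν * ((32 : ℝ) ^ ((1 : ℝ) / 4) * x ^ ((ω - (1 - l - μ)) / 4) * lg) := by
      have : 0 ≤ x ^ ν := Real.rpow_nonneg hx0.le _
      gcongr
    have e4 : C * x ^ ν * ((32 : ℝ) ^ ((1 : ℝ) / 4) * x ^ ((ω - (1 - l - μ)) / 4) * lg) =
        C * (32 : ℝ) ^ ((1 : ℝ) / 4) * lg * x ^ (ν + (ω - (1 - l - μ)) / 4) := by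
      rw [Real.rpow_add hx0]; ring
    rw [e1, e2]
    linarith
  have hδ8 : scDelta s C Cl e ν ^ ((1 : ℝ) / 8) ≤ x ^ (-ν) := by
    calc scDelta s C Cl e ν ^ ((1 : ℝ) / 8) ≤ (x ^ (-(8 * ν))) ^ ((1 : ℝ) / 8) :=
          Real.rpow_le_rpow hδ0 hδ1 (by norm_num)
      _ = x ^ (-ν) := by rw [← Real.rpow_mul hx0.le]; ring_nf
  have hδ80 : 0 ≤ scDelta s C Cl e ν ^ ((1 : ℝ) / 8) := Real.rpow_nonneg hδ0 _
  have h100 : (x ^ 100)⁻¹ ≤ x ^ (-ν) := by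
    rw [← Real.rpow_natCast, ← Real.rpow_neg hx0.le]
    exact Real.rpow_le_rpow_of_exponent_le hx1 (by push_cast; linarith)
  have h100' : 0 ≤ (x ^ 100)⁻¹ := by positivity
  have hxν : 0 ≤ x ^ (-ν) := Real.rpow_nonneg hx0.le _
  -- the prefactor
  have hD0 : (0 : ℝ) ≤ (s.D : ℝ) := Nat.cast_nonneg _
  have hD1 : (s.D : ℝ) ≤ 2 * x ^ κ := hS.D_le
  have hxl : 0 ≤ x ^ l := Real.rpow_nonneg hx0.le _
  have hpre0 : 0 ≤ C * x ^ l * (s.D : ℝ) ^ 2 * W ^ 2 * lg := by positivity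
  have hpre : C * x ^ l * (s.D : ℝ) ^ 2 * W ^ 2 * lg ≤
      4 * C * lg * x ^ (l + 2 * κ + 2 * ω) := by
    have e1 : C * x ^ l * (s.D : ℝ) ^ 2 * W ^ 2 * lg ≤
        C * x ^ l * (2 * x ^ κ) ^ 2 * (x ^ ω) ^ 2 * lg := by gcongr
    have e2 : C * x ^ l * (2 * x ^ κ) ^ 2 * (x ^ ω) ^ 2 * lg =
        4 * C * lg * x ^ (l + 2 * κ + 2 * ω) := by
      rw [Real.rpow_add hx0, Real.rpow_add hx0, mul_comm 2 κ, mul_comm 2 ω, Real.rpow_mul hx0.le,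
        Real.rpow_mul hx0.le, Real.rpow_two, Real.rpow_two]
      ring
    linarith
  have hE' : scEbar s C Cl e ν = C * x ^ l * (s.D : ℝ) ^ 2 * W ^ 2 * lg *
      (scDelta s C Cl e ν ^ ((1 : ℝ) / 8) + x ^ (-ν) + (x ^ 100)⁻¹) + C * (x ^ 1000)⁻¹ := rfl
  have h1000' : 0 ≤ (x ^ 1000)⁻¹ := by positivity
  refine ⟨?_, ?_⟩
  · rw [hE']
    have : 0 ≤ scDelta s C Cl e ν ^ ((1 : ℝ) / 8) + x ^ (-ν) + (x ^ 100)⁻¹ := by linarith
    positivity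
  · rw [hE']
    have t1 : C * x ^ l * (s.D : ℝ) ^ 2 * W ^ 2 * lg *
        (scDelta s C Cl e ν ^ ((1 : ℝ) / 8) + x ^ (-ν) + (x ^ 100)⁻¹) ≤
        4 * C * lg * x ^ (l + 2 * κ + 2 * ω) * (3 * x ^ (-ν)) := by
      apply mul_le_mul hpre (by linarith) (by linarith)
      have : 0 ≤ x ^ (l + 2 * κ + 2 * ω) := Real.rpow_nonneg hx0.le _
      positivity
    have t2 : 4 * C * lg * x ^ (l + 2 * κ + 2 * ω) * (3 * x ^ (-ν)) =
        12 * C * lg * x ^ (l + 2 * κ + 2 * ω - ν) := by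
      have hsplit : x ^ (l + 2 * κ + 2 * ω - ν) = x ^ (l + 2 * κ + 2 * ω) * x ^ (-ν) := by
        rw [← Real.rpow_add hx0]; congr 1
      rw [hsplit]; ring
    have t3 : 24 * C * lg * x ^ (l + 2 * κ + 2 * ω - ν) ≤ x ^ (-(ν / 2)) := hD n hnD
    have t4 : 2 * C * x ^ (-1000 : ℝ) ≤ x ^ (-(ν / 2)) := hE n hnE
    have t5 : (x ^ 1000)⁻¹ = x ^ (-1000 : ℝ) := by
      rw [← Real.rpow_natCast, ← Real.rpow_neg hx0.le]; norm_num
    rw [t5]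
    linarith

end Claimed.Agent.R296.Scan
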