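import Claimed.Agent.R296.Scan.Num

/-!
# Row 296, P1 Section 8: numerics of the scanner estimate (packages S8-N1 .. S8-N4)

Pure real analysis on top of `Scan/Num.lean` (`num_log_pow_le`, `num_absorb`, `num_small`,
`num_scaleBds`, ...).  No lattice, no matrices.  Common quantification of all statements:

`∃ n0, ∀ n ≥ n0, ∀ W ∈ [1, n^ω], ∀ r0 = ⌈C1 log² n⌉₊ with r0 + 1 ≤ C2 log² n`, `s = ⟨n, l, μ, κ, W⟩`.

Orders of magnitude: `r0, V0, ell` are polylogarithmic, `D ~ n^κ`, `m ~ n^μ`, `K ~ n^(1-l-μ)`,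
`a = W / K ≤ 32 n^(ω+μ+l-1)`.
-/

set_option autoImplicit false

namespace Claimed.Agent.R296.Scan

/-- truncation radius -/
noncomputable def scR0 (C1 : ℝ) (n : ℕ) : ℕ := ⌈C1 * (Real.log n) ^ 2⌉₊

/-- length of the look-ahead lists -/
noncomputable def scMn (μR : ℕ) (s : Scales) (r0 : ℕ) : ℕ := μR * s.n * (s.D + r0 + 1)

/-- ball size / ball degree bound -/
def scV0 (μR r0 : ℕ) : ℕ := μR * (2 * r0 + 1) ^ 2

/-- bound for `log (e dim)` of moved sets and split supports -/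
noncomputable def scEll (μR q r0 : ℕ) : ℝ := 1 + ((scV0 μR r0 : ℝ) + 1) * Real.log q

/-- mismatch bound -/
noncomputable def scBexc (q : ℕ) (s : Scales) (r0 : ℕ) : ℝ :=
  1 + (s.n : ℝ) * ((s.D : ℝ) + r0 + 1) * Real.log q

/-- the bound of `Geom.bad_prob` at `θ = 1 / r0` -/
noncomputable def scPbad (s : Scales) (r0 : ℕ) : ℝ :=
  2 * s.K * (max (2 * (r0 : ℝ) * s.n) (8 * s.n / (1 / (r0 : ℝ))) + 1) *
    Real.exp (-(1 / (r0 : ℝ) * ((s.D : ℝ) / 2 - 2)))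

/-- the cut parameter of the statuses -/
noncomputable def scBB (μR q : ℕ) (C2 : ℝ) (s : Scales) (r0 : ℕ) : ℝ :=
  6 * (scMn μR s r0 : ℝ) * scEll μR q r0 ^ 2 + C2 * (1 + 4 * (s.n : ℝ)) * ((r0 : ℝ) + 1) ^ 6

/-- the entropy budget as a function of real numbers (`Bud` of `Scan/Main.lean`) -/
noncomputable def budFn (ld z W Bsh Bexc : ℝ) : ℝ :=
  2 * ld - Real.log z + W / 2 * (2 * Bsh / z + 2 * Bexc)

/-- the selected density as a function of real numbers (`delta` of `Scan/Main.lean`) -/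
noncomputable def deltaFn (C ζ bud n m K a ell ε W : ℝ) : ℝ :=
  4 / 3 * (bud + 2 * ζ + 2 * (n * m) * (C * a * K * a ^ ((1 : ℝ) / 4) * ell ^ C + ζ)) /
    ((n * m) * ε * W)

/-- the energy bound as a function of real numbers (`Ebd` of `Scan/Main.lean`) -/
noncomputable def ebdFn (C ζ E0 gap a ell wmax nsp δ Pbad ε : ℝ) : ℝ :=
  (E0 + C * a ^ 2 * ell ^ C * wmax * nsp *
      (δ ^ ((1 : ℝ) / 8) + (Pbad + ε) * (2 * ell) ^ ((1 : ℝ) / 8)) + ζ) / gap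

/-- the radius is admissible at scale `n` -/
def R0OK (C1 C2 : ℝ) (n r0 : ℕ) : Prop :=
  r0 = scR0 C1 n ∧ (r0 : ℝ) + 1 ≤ C2 * (Real.log n) ^ 2

variable {l μ κ ν ω e : ℝ}

theorem num_log_ge_one {n : ℕ} (hn : 3 ≤ n) : 1 ≤ Real.log n := by
  have h3 : (3 : ℝ) ≤ n := by exact_mod_cast hn
  have h1 : Real.exp 1 ≤ n := by
    have := Real.exp_one_lt_d9
    linarith
  calc (1 : ℝ) = Real.log (Real.exp 1) := (Real.log_exp 1).symm
    _ ≤ Real.log n := Real.log_le_log (Real.exp_pos 1) h1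

/-- (N1) side conditions of the scan geometry -/
theorem num_side (hE : ExpOK l μ κ ν ω e) {C1 C2 : ℝ} (hC1 : 0 < C1) (hC2 : 0 < C2) :
    ∃ n0 : ℕ, ∀ n : ℕ, n0 ≤ n → ∀ (W : ℝ) (r0 : ℕ), R0OK C1 C2 n r0 →
      ∀ s : Scales, s = ⟨n, l, μ, κ, W⟩ →
      ScaleBds s ∧ 1 ≤ r0 ∧ 0 < s.m ∧ 8 * s.m * s.K ≤ s.L ∧ 100 * (s.D + r0 + 1) ≤ s.m ∧
        2 * r0 ≤ s.D ∧ (n : ℝ) ^ μ / 2 ≤ s.m ∧ (s.m : ℝ) ≤ (n : ℝ) ^ μ ∧ s.L ≤ n := by
  have hμ0 : 0 < μ := hE.κ_pos.trans hE.κ_lt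
  have hμ1 : μ < 1 - l := by have := hE.μ_lt; have := hE.ω_nonneg; linarith
  obtain ⟨nA, hA⟩ := num_scaleBds (κ := κ) hE.l_pos hE.κ_pos hμ0 hμ1
  obtain ⟨nB, hB⟩ := num_rpow_ge 2 hμ0
  obtain ⟨nC, hC⟩ := num_absorb_const 800 hE.κ_lt
  obtain ⟨nD, hD⟩ := num_absorb (400 * C2) 2 hμ0
  obtain ⟨nF, hF⟩ := num_absorb (2 * C2) 2 hE.κ_pos
  refine ⟨max (max (max nA nB) (max nC nD)) (max nF 3), fun n hn W r0 hr s hs => ?_⟩
  have hnA : nA ≤ n := le_trans (by simp) hn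
  have hnB : nB ≤ n := le_trans (by simp) hn
  have hnC : nC ≤ n := le_trans (by simp) hn
  have hnD : nD ≤ n := le_trans (by simp) hn
  have hnF : nF ≤ n := le_trans (by simp) hn
  have hn3 : 3 ≤ n := le_trans (by simp) hn
  subst hs
  have hS := hA n hnA W
  set s : Scales := ⟨n, l, μ, κ, W⟩ with hs
  obtain ⟨hr1, hr2⟩ := hr
  have hx3 : (3 : ℝ) ≤ (n : ℝ) := by exact_mod_cast hn3
  set x : ℝ := (n : ℝ) with hx
  have hx0 : 0 < x := by linarith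
  have hx1 : 1 ≤ x := by linarith
  have hlog : 1 ≤ Real.log x := num_log_ge_one hn3
  have b2 : 2 ≤ x ^ μ := hB n hnB
  have bC : 800 * x ^ κ ≤ x ^ μ := hC n hnC
  have bD : 400 * C2 * Real.log x ^ 2 * x ^ (0 : ℝ) ≤ x ^ μ := hD n hnD
  have bF : 2 * C2 * Real.log x ^ 2 * x ^ (0 : ℝ) ≤ x ^ κ := hF n hnF
  rw [Real.rpow_zero, mul_one] at bD bF
  have hm1 : (s.m : ℝ) ≤ x ^ μ := Nat.floor_le (by linarith)
  have hm2 : x ^ μ - 1 < (s.m : ℝ) := Nat.sub_one_lt_floor _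
  have hm3 : x ^ μ / 2 ≤ (s.m : ℝ) := by linarith
  have hD1 : (s.D : ℝ) ≤ 2 * x ^ κ := hS.D_le
  have hD2 : x ^ κ ≤ (s.D : ℝ) := hS.D_ge
  refine ⟨hS, ?_, ?_, ?_, ?_, ?_, hm3, hm1, ?_⟩
  · rw [hr1, scR0, Nat.one_le_ceil_iff]
    positivity
  · have : (0 : ℝ) < (s.m : ℝ) := by linarith
    exact_mod_cast this
  · have := Nat.div_mul_le_self s.L (8 * s.m)
    calc 8 * s.m * s.K = s.L / (8 * s.m) * (8 * s.m) := by rw [mul_comm]; rfl
      _ ≤ s.L := this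
  · have : (100 : ℝ) * ((s.D : ℝ) + r0 + 1) ≤ (s.m : ℝ) := by nlinarith
    exact_mod_cast this
  · have : (2 : ℝ) * r0 ≤ (s.D : ℝ) := by nlinarith
    exact_mod_cast this
  · have h1 : (s.L : ℝ) ≤ x ^ (1 - l) := hS.L_le
    have h2 : x ^ (1 - l) ≤ x ^ (1 : ℝ) :=
      Real.rpow_le_rpow_of_exponent_le hx1 (by have := hE.l_pos; linarith)
    rw [Real.rpow_one] at h2
    have : (s.L : ℝ) ≤ (n : ℝ) := h1.trans h2
    exact_mod_cast this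

/-- (N1) polylogarithmic size of `ell` -/
theorem num_ell_le (μR q : ℕ) {C1 C2 : ℝ} (hC2 : 0 < C2) :
    ∃ c : ℝ, 1 ≤ c ∧ ∀ n r0 : ℕ, 3 ≤ n → R0OK C1 C2 n r0 →
      1 ≤ scEll μR q r0 ∧ scEll μR q r0 ≤ c * Real.log n ^ 4 := by
  have hq : 0 ≤ Real.log q := Real.log_natCast_nonneg q
  refine ⟨1 + (4 * μR * C2 ^ 2 + 1) * Real.log q, ?_, fun n r0 hn hr => ⟨?_, ?_⟩⟩
  · have : 0 ≤ (4 * (μR : ℝ) * C2 ^ 2 + 1) * Real.log q := by positivity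
    linarith
  · unfold scEll
    have : 0 ≤ ((scV0 μR r0 : ℝ) + 1) * Real.log q := by positivity
    linarith
  · have hlog : 1 ≤ Real.log n := num_log_ge_one hn
    set lg := Real.log n with hlg
    have h4 : 1 ≤ lg ^ 4 := one_le_pow₀ hlog
    have hr2 : (r0 : ℝ) + 1 ≤ C2 * lg ^ 2 := hr.2
    have hr0 : (0 : ℝ) ≤ r0 := Nat.cast_nonneg _
    have h1 : (2 * (r0 : ℝ) + 1) ^ 2 ≤ (2 * (C2 * lg ^ 2)) ^ 2 :=
      pow_le_pow_left₀ (by positivity) (by linarith) 2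
    have hV : (scV0 μR r0 : ℝ) ≤ 4 * μR * C2 ^ 2 * lg ^ 4 := by
      unfold scV0
      push_cast
      calc (μR : ℝ) * (2 * (r0 : ℝ) + 1) ^ 2 ≤ μR * (2 * (C2 * lg ^ 2)) ^ 2 :=
            mul_le_mul_of_nonneg_left h1 (Nat.cast_nonneg _)
        _ = 4 * μR * C2 ^ 2 * lg ^ 4 := by ring
    unfold scEll
    calc 1 + ((scV0 μR r0 : ℝ) + 1) * Real.log q
        ≤ lg ^ 4 + (4 * μR * C2 ^ 2 * lg ^ 4 + lg ^ 4) * Real.log q := by
          have := mul_le_mul_of_nonneg_right (add_le_add hV h4) hq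
          linarith
      _ = (1 + (4 * μR * C2 ^ 2 + 1) * Real.log q) * lg ^ 4 := by ring

/-- the weight per band is at most `32 n^(ω - (1 - l - μ))`. -/
theorem num_a_le_rpow {n : ℕ} {W : ℝ} (hS : ScaleBds ⟨n, l, μ, κ, W⟩) (hW0 : 0 ≤ W)
    (hW : W ≤ (n : ℝ) ^ ω) :
    (⟨n, l, μ, κ, W⟩ : Scales).a ≤ 32 * (n : ℝ) ^ (ω - (1 - l - μ)) := by
  have hx0 : (0 : ℝ) < (n : ℝ) := by
    have : 2 ≤ n := hS.n_ge
    positivity
  have e1 : (⟨n, l, μ, κ, W⟩ : Scales).a ≤ 32 * W * (n : ℝ) ^ (-(1 - l - μ)) := hS.num_a_le hW0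
  have e2 : 32 * W * (n : ℝ) ^ (-(1 - l - μ)) ≤ 32 * (n : ℝ) ^ ω * (n : ℝ) ^ (-(1 - l - μ)) := by
    gcongr
  have e3 : 32 * (n : ℝ) ^ ω * (n : ℝ) ^ (-(1 - l - μ)) = 32 * (n : ℝ) ^ (ω - (1 - l - μ)) := by
    rw [mul_assoc, ← Real.rpow_add hx0]; ring_nf
  linarith

/-- (N1) smallness of the weight per band -/
theorem num_small_a (hE : ExpOK l μ κ ν ω e) (μR q : ℕ) {C1 C2 a0 : ℝ} (hC1 : 0 < C1)
    (hC2 : 0 < C2) (ha0 : 0 < a0) :
    ∃ n0 : ℕ, ∀ n : ℕ, n0 ≤ n → ∀ (W : ℝ) (r0 : ℕ), 1 ≤ W → W ≤ (n : ℝ) ^ ω → R0OK C1 C2 n r0 →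
      ∀ s : Scales, s = ⟨n, l, μ, κ, W⟩ →
      0 < s.a ∧ s.a ≤ a0 ∧ s.a * scEll μR q r0 ≤ a0 := by
  have hμ0 : 0 < μ := hE.κ_pos.trans hE.κ_lt
  have hμ1 : μ < 1 - l := by have := hE.μ_lt; have := hE.ω_nonneg; linarith
  obtain ⟨nA, hA⟩ := num_scaleBds (κ := κ) hE.l_pos hE.κ_pos hμ0 hμ1
  obtain ⟨c, hc1, hc⟩ := num_ell_le μR q (C1 := C1) hC2
  obtain ⟨nB, hB⟩ := num_absorb (32 * c / a0) 4 (α := ω - (1 - l - μ)) (β := 0)
    (by have := hE.μ_lt; linarith)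
  refine ⟨max (max nA nB) 3, fun n hn W r0 hW1 hW hr s hs => ?_⟩
  have hnA : nA ≤ n := le_trans (by simp) hn
  have hnB : nB ≤ n := le_trans (by simp) hn
  have hn3 : 3 ≤ n := le_trans (by simp) hn
  subst hs
  have hS := hA n hnA W
  have ha := num_a_le_rpow hS (by linarith) hW
  have hpos := hS.num_a_pos (by show 0 < W; linarith)
  obtain ⟨hl1, hl2⟩ := hc n r0 hn3 hr
  have b := hB n hnB
  rw [Real.rpow_zero] at b
  set s : Scales := ⟨n, l, μ, κ, W⟩ with hs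
  set p : ℝ := (n : ℝ) ^ (ω - (1 - l - μ)) with hp
  have hp0 : 0 ≤ p := Real.rpow_nonneg (Nat.cast_nonneg _) _
  have hlg : 0 ≤ Real.log n ^ 4 := by positivity
  have h3 : s.a * scEll μR q r0 ≤ a0 := by
    calc s.a * scEll μR q r0 ≤ (32 * p) * (c * Real.log n ^ 4) :=
          mul_le_mul ha hl2 (by linarith) (by positivity)
      _ = a0 * (32 * c / a0 * Real.log n ^ 4 * p) := by field_simp
      _ ≤ a0 * 1 := mul_le_mul_of_nonneg_left b ha0.le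
      _ = a0 := mul_one _
  refine ⟨hpos, ?_, h3⟩
  calc s.a = s.a * 1 := (mul_one _).symm
    _ ≤ s.a * scEll μR q r0 := mul_le_mul_of_nonneg_left hl1 hpos.le
    _ ≤ a0 := h3

/-- (N4) the cut parameter of the statuses and the mismatch bound -/
theorem num_BB_le (hE : ExpOK l μ κ ν ω e) (μR q : ℕ) {C1 C2 : ℝ} (hC1 : 0 < C1) (hC2 : 0 < C2) :
    ∃ (Cmin : ℝ) (Clmin n0 : ℕ), ∀ (C : ℝ) (Cl : ℕ), Cmin ≤ C → Clmin ≤ Cl →
      ∀ n : ℕ, n0 ≤ n → ∀ (W : ℝ) (r0 : ℕ), R0OK C1 C2 n r0 →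
      ∀ s : Scales, s = ⟨n, l, μ, κ, W⟩ →
      scBB μR q C2 s r0 ≤ C * n * s.D * Real.log n ^ Cl ∧ scBexc q s r0 ≤ C * n * s.D ∧
        1 ≤ C * n := by
  obtain ⟨nA, hA⟩ := num_side hE hC1 hC2
  obtain ⟨c, hc1, hc⟩ := num_ell_le μR q (C1 := C1) hC2
  have hq : 0 ≤ Real.log q := Real.log_natCast_nonneg q
  refine ⟨1 + 12 * μR * c ^ 2 + 5 * C2 ^ 7 + 2 * Real.log q, 12, max nA 3,
    fun C Cl hC hCl n hn W r0 hr s hs => ?_⟩
  have hnA : nA ≤ n := le_trans (by simp) hn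
  have hn3 : 3 ≤ n := le_trans (by simp) hn
  obtain ⟨hS, hr1, -, -, -, hrD, -, -, -⟩ := hA n hnA W r0 hr s hs
  obtain ⟨hl1, hl2⟩ := hc n r0 hn3 hr
  have hlog : 1 ≤ Real.log n := num_log_ge_one hn3
  have hsn : s.n = n := by rw [hs]
  set lg := Real.log n with hlg
  have hx3 : (3 : ℝ) ≤ (n : ℝ) := by exact_mod_cast hn3
  set x : ℝ := (n : ℝ) with hx
  have hr1' : (1 : ℝ) ≤ r0 := by exact_mod_cast hr1
  have hrD' : (2 : ℝ) * r0 ≤ s.D := by exact_mod_cast hrD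
  set d : ℝ := (s.D : ℝ) with hd
  have hd1 : 1 ≤ d := by linarith
  have hsum : d + r0 + 1 ≤ 2 * d := by linarith
  have hr2 : (r0 : ℝ) + 1 ≤ C2 * lg ^ 2 := hr.2
  have hμR : (0 : ℝ) ≤ μR := Nat.cast_nonneg _
  have hC7 : 0 ≤ C2 ^ 7 := by positivity
  have hc2 : 0 ≤ (μR : ℝ) * c ^ 2 := by positivity
  have hC1' : 1 ≤ C := by nlinarith
  have hxd : 0 ≤ x * d := by positivity
  have hpw : lg ^ 12 ≤ lg ^ Cl := pow_le_pow_right₀ hlog hCl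
  have h8 : lg ^ 8 ≤ lg ^ 12 := pow_le_pow_right₀ hlog (by norm_num)
  have h12 : 0 ≤ lg ^ 12 := by positivity
  refine ⟨?_, ?_, ?_⟩
  · have hMn : (scMn μR s r0 : ℝ) ≤ 2 * μR * x * d := by
      unfold scMn
      rw [hsn]
      push_cast
      calc (μR : ℝ) * x * (d + r0 + 1) ≤ μR * x * (2 * d) :=
            mul_le_mul_of_nonneg_left hsum (by positivity)
        _ = 2 * μR * x * d := by ring
    have hell : scEll μR q r0 ^ 2 ≤ c ^ 2 * lg ^ 12 := by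
      calc scEll μR q r0 ^ 2 ≤ (c * lg ^ 4) ^ 2 := pow_le_pow_left₀ (by linarith) hl2 2
        _ = c ^ 2 * lg ^ 8 := by ring
        _ ≤ c ^ 2 * lg ^ 12 := mul_le_mul_of_nonneg_left h8 (by positivity)
    have hr6 : ((r0 : ℝ) + 1) ^ 6 ≤ C2 ^ 6 * lg ^ 12 := by
      calc ((r0 : ℝ) + 1) ^ 6 ≤ (C2 * lg ^ 2) ^ 6 := pow_le_pow_left₀ (by linarith) hr2 6
        _ = C2 ^ 6 * lg ^ 12 := by ring
    have t1 : 6 * (scMn μR s r0 : ℝ) * scEll μR q r0 ^ 2 ≤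
        6 * (2 * μR * x * d) * (c ^ 2 * lg ^ 12) := by
      apply mul_le_mul (by linarith) hell (by positivity) (by positivity)
    have t2 : C2 * (1 + 4 * x) * ((r0 : ℝ) + 1) ^ 6 ≤ C2 * (5 * (x * d)) * (C2 ^ 6 * lg ^ 12) := by
      apply mul_le_mul _ hr6 (by positivity) (by positivity)
      apply mul_le_mul_of_nonneg_left _ hC2.le
      nlinarith
    unfold scBB
    rw [hsn]
    calc 6 * (scMn μR s r0 : ℝ) * scEll μR q r0 ^ 2 + C2 * (1 + 4 * x) * ((r0 : ℝ) + 1) ^ 6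
        ≤ 6 * (2 * μR * x * d) * (c ^ 2 * lg ^ 12) + C2 * (5 * (x * d)) * (C2 ^ 6 * lg ^ 12) :=
          add_le_add t1 t2
      _ = (12 * μR * c ^ 2 + 5 * C2 ^ 7) * (x * d * lg ^ 12) := by ring
      _ ≤ C * (x * d * lg ^ Cl) := by
          apply mul_le_mul (by linarith) (mul_le_mul_of_nonneg_left hpw hxd) (by positivity)
            (by linarith)
      _ = C * x * d * lg ^ Cl := by ring
  · unfold scBexc
    rw [hsn]
    have h1 : x * (d + r0 + 1) * Real.log q ≤ x * (2 * d) * Real.log q := by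
      apply mul_le_mul_of_nonneg_right _ hq
      exact mul_le_mul_of_nonneg_left hsum (by positivity)
    have h2 : 1 ≤ x * d := by nlinarith
    calc 1 + x * (d + r0 + 1) * Real.log q ≤ x * d + x * (2 * d) * Real.log q := by linarith
      _ = (1 + 2 * Real.log q) * (x * d) := by ring
      _ ≤ C * (x * d) := mul_le_mul_of_nonneg_right (by linarith) hxd
      _ = C * x * d := by ring
  · nlinarith

/-- (N4) the condition `a √𝓑 ≤ a0` of the sharp comparisons -/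
theorem num_sharp_small (hE : ExpOK l μ κ ν ω e) (hs : l + μ + ω + (1 + κ) / 2 < 1) (C : ℝ)
    (Cl : ℕ) {a0 : ℝ} (ha0 : 0 < a0) :
    ∃ n0 : ℕ, ∀ n : ℕ, n0 ≤ n → ∀ W : ℝ, 1 ≤ W → W ≤ (n : ℝ) ^ ω →
      ∀ s : Scales, s = ⟨n, l, μ, κ, W⟩ →
      s.a * Real.sqrt (C * n * s.D * Real.log n ^ Cl) ≤ a0 := by
  have hμ0 : 0 < μ := hE.κ_pos.trans hE.κ_lt
  have hμ1 : μ < 1 - l := by have := hE.μ_lt; have := hE.ω_nonneg; linarith
  obtain ⟨nA, hA⟩ := num_scaleBds (κ := κ) hE.l_pos hE.κ_pos hμ0 hμ1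
  obtain ⟨nB, hB⟩ := num_absorb (2048 * |C| / a0 ^ 2) Cl
    (α := 2 * (ω - (1 - l - μ)) + 1 + κ) (β := 0) (by linarith)
  refine ⟨max nA nB, fun n hn W hW1 hW s hs' => ?_⟩
  have hnA : nA ≤ n := le_trans (by simp) hn
  have hnB : nB ≤ n := le_trans (by simp) hn
  subst hs'
  have hS := hA n hnA W
  have ha := num_a_le_rpow hS (by linarith) hW
  have hpos := hS.num_a_pos (by show 0 < W; linarith)
  have b := hB n hnB
  rw [Real.rpow_zero] at b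
  have hD1 : ((⟨n, l, μ, κ, W⟩ : Scales).D : ℝ) ≤ 2 * (n : ℝ) ^ κ := hS.D_le
  set s : Scales := ⟨n, l, μ, κ, W⟩ with hs
  have hn2 : 2 ≤ n := hS.n_ge
  have hx2 : (2 : ℝ) ≤ (n : ℝ) := by exact_mod_cast hn2
  set x : ℝ := (n : ℝ) with hx
  have hx0 : 0 < x := by linarith
  set lg : ℝ := Real.log x ^ Cl with hlg
  have hlg0 : 0 ≤ lg := pow_nonneg (Real.log_nonneg (by linarith)) _
  set p : ℝ := x ^ (ω - (1 - l - μ)) with hp
  have hp0 : 0 ≤ p := Real.rpow_nonneg hx0.le _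
  have hk0 : 0 ≤ x ^ κ := Real.rpow_nonneg hx0.le _
  have hd0 : (0 : ℝ) ≤ (s.D : ℝ) := Nat.cast_nonneg _
  have hsplit : x ^ (2 * (ω - (1 - l - μ)) + 1 + κ) = p ^ 2 * x * x ^ κ := by
    rw [Real.rpow_add hx0, Real.rpow_add hx0, Real.rpow_one, mul_comm 2 (ω - (1 - l - μ)),
      Real.rpow_mul hx0.le, Real.rpow_two]
  rw [hsplit] at b
  have key : s.a ^ 2 * (C * x * s.D * lg) ≤ a0 ^ 2 := by
    have h1 : C * x * s.D * lg ≤ |C| * x * (2 * x ^ κ) * lg := by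
      have : C * (x * s.D * lg) ≤ |C| * (x * s.D * lg) :=
        mul_le_mul_of_nonneg_right (le_abs_self C) (by positivity)
      have h2 : |C| * (x * s.D * lg) ≤ |C| * (x * (2 * x ^ κ) * lg) := by gcongr
      calc C * x * s.D * lg = C * (x * s.D * lg) := by ring
        _ ≤ |C| * (x * (2 * x ^ κ) * lg) := this.trans h2
        _ = _ := by ring
    have h3 : s.a ^ 2 ≤ (32 * p) ^ 2 := pow_le_pow_left₀ hpos.le ha 2
    calc s.a ^ 2 * (C * x * s.D * lg) ≤ s.a ^ 2 * (|C| * x * (2 * x ^ κ) * lg) :=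
          mul_le_mul_of_nonneg_left h1 (by positivity)
      _ ≤ (32 * p) ^ 2 * (|C| * x * (2 * x ^ κ) * lg) :=
          mul_le_mul_of_nonneg_right h3 (by positivity)
      _ = a0 ^ 2 * (2048 * |C| / a0 ^ 2 * lg * (p ^ 2 * x * x ^ κ)) := by field_simp; ring
      _ ≤ a0 ^ 2 * 1 := mul_le_mul_of_nonneg_left b (by positivity)
      _ = a0 ^ 2 := mul_one _
  have h4 : Real.sqrt (C * x * s.D * lg) ≤ a0 / s.a := by
    rw [Real.sqrt_le_iff]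
    refine ⟨by positivity, ?_⟩
    rw [div_pow, le_div_iff₀ (by positivity)]
    linarith
  calc s.a * Real.sqrt (C * x * s.D * lg) ≤ s.a * (a0 / s.a) :=
        mul_le_mul_of_nonneg_left h4 hpos.le
    _ = a0 := by field_simp

end Claimed.Agent.R296.Scan
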