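import Claimed.Agent.R296.Scan.Prob

/-!
# Row 296, P1 Section 8: bad histories are rare (Lemma 8.1 (4))

Package S8-F.  The ancestry union bound of the paper is replaced by an exponential potential
`pot θ j t A = ∑_{x ∈ A, lam x ≥ j - 2 r0} exp (θ (lam x - t))`:
* a fill adds at most one site at the front and the fractional front advances by `1/(2n)`:
  `pot' ≤ exp (-θ/(2n)) (pot + exp (θ/(2n)))`;
* a charge multiplies the expected potential by at most `1 + γ`, `γ = V0² exp (2 θ r0) / (2 Mn)`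
  (a charged ball must already contain an assigned site, which then lies in the window);
* if `γ ≤ θ/(4n)` the expected potential stays `≤ B = max (2 r0 n) (8 n / θ)`;
* a state which is not good has potential `≥ exp (θ (D/2 - 2))`; Markov.
-/

set_option autoImplicit false
set_option linter.unusedSectionVars false

namespace Claimed.Agent.R296

namespace Scan.Side

open Finset

variable {Λ ι : Type} [DecidableEq Λ] [Fintype Λ] [Fintype ι]

/-- fractional front moving at the uniform speed of one row per `2 n` double rounds;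
`t2` counts half double rounds: `t2 = len` before the fill, `len + 1` after it -/
noncomputable def jt (S : Side Λ ι) (j0 : ℤ) (t2 : ℕ) : ℝ := (j0 : ℝ) + (t2 : ℝ) / (2 * S.n)

theorem pot_nonneg (S : Side Λ ι) (θ : ℝ) (j : ℤ) (t : ℝ) (A : Finset Λ) : 0 ≤ S.pot θ j t A := by
  unfold pot
  exact Finset.sum_nonneg fun _ _ => (Real.exp_pos _).le

/-- a row of the active zone has at most `n` sites -/
theorem pot_row_card {S : Side Λ ι} (hW : S.WF) {j : ℤ} (h1 : S.lo ≤ j) (h2 : j ≤ S.hi) :
    (univ.filter fun x => S.lam x = j).card ≤ S.n := by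
  have h : ∀ x ∈ univ.filter (fun x => S.lam x = j), ∃ c, c < S.n ∧ S.slot j c = some x := by
    intro x hx
    exact hW.slot_surj j x h1 h2 (by simpa using hx)
  choose! f hf using h
  calc (univ.filter fun x => S.lam x = j).card ≤ (range S.n).card :=
        Finset.card_le_card_of_injOn f (fun x hx => mem_coe.2 (mem_range.2 (hf x hx).1)) (by
          intro x hx y hy hxy
          have a := (hf x hx).2
          have b := (hf y hy).2
          rw [hxy, b] at a
          exact (Option.some.inj a).symm)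
    _ = S.n := card_range _

/-- the potential of the initial state -/
theorem pot_start {S : Side Λ ι} (hW : S.WF) {θ : ℝ} (hθ : 0 ≤ θ) {j0 : ℤ}
    (h1 : S.lo + 2 * S.r0 ≤ j0) (h2 : j0 ≤ S.hi) :
    S.pot θ j0 (j0 : ℝ) (S.start j0) ≤ 2 * S.r0 * S.n := by
  unfold pot
  set W := (S.start j0).filter (fun x => j0 - 2 * S.r0 ≤ S.lam x) with hWd
  have hmem : ∀ x ∈ W, S.lam x < j0 ∧ j0 - 2 * S.r0 ≤ S.lam x := by
    intro x hx
    rw [hWd, mem_filter, start, mem_filter] at hx
    exact ⟨hx.1.2, hx.2⟩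
  have hterm : ∀ x ∈ W, Real.exp (θ * ((S.lam x : ℝ) - j0)) ≤ 1 := by
    intro x hx
    rw [← Real.exp_zero]
    apply Real.exp_le_exp.2
    have : (S.lam x : ℝ) < j0 := by exact_mod_cast (hmem x hx).1
    nlinarith
  have hsub : W ⊆ (Finset.Ico (j0 - 2 * S.r0) j0).biUnion
      (fun j => univ.filter fun x => S.lam x = j) := by
    intro x hx
    rw [mem_biUnion]
    exact ⟨S.lam x, Finset.mem_Ico.2 ⟨(hmem x hx).2, (hmem x hx).1⟩, by simp⟩
  have hcard : W.card ≤ 2 * S.r0 * S.n := by
    calc W.card ≤ _ := card_le_card hsub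
      _ ≤ ∑ j ∈ Finset.Ico (j0 - 2 * S.r0) j0, (univ.filter fun x => S.lam x = j).card :=
          card_biUnion_le
      _ ≤ ∑ j ∈ Finset.Ico (j0 - 2 * (S.r0 : ℤ)) j0, S.n := by
          apply Finset.sum_le_sum
          intro j hj
          rw [Finset.mem_Ico] at hj
          exact pot_row_card hW (by omega) (by omega)
      _ = 2 * S.r0 * S.n := by
          rw [Finset.sum_const, Int.card_Ico, smul_eq_mul]
          congr 1
          omega
  calc ∑ x ∈ W, Real.exp (θ * ((S.lam x : ℝ) - j0)) ≤ ∑ x ∈ W, (1 : ℝ) := Finset.sum_le_sum hterm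
    _ = (W.card : ℝ) := by simp
    _ ≤ 2 * S.r0 * S.n := by exact_mod_cast hcard

/-- adding one site -/
theorem pot_insert_le (S : Side Λ ι) (θ : ℝ) (j : ℤ) (t : ℝ) (A : Finset Λ) (x : Λ) :
    S.pot θ j t (insert x A) ≤ S.pot θ j t A + Real.exp (θ * ((S.lam x : ℝ) - t)) := by
  unfold pot
  by_cases hx : x ∈ A
  · rw [insert_eq_of_mem hx]
    linarith [Real.exp_pos (θ * ((S.lam x : ℝ) - t))]
  · rw [filter_insert]
    split_ifs with hj
    · rw [sum_insert (by simp [hx])]
      linarith
    · linarith [Real.exp_pos (θ * ((S.lam x : ℝ) - t))]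

/-- adding a set of sites -/
theorem pot_union_le (S : Side Λ ι) (θ : ℝ) (j : ℤ) (t : ℝ) (A B : Finset Λ) :
    S.pot θ j t (A ∪ B) ≤ S.pot θ j t A + ∑ x ∈ B, Real.exp (θ * ((S.lam x : ℝ) - t)) := by
  unfold pot
  rw [filter_union]
  have h1 := Finset.sum_union_inter (s₁ := A.filter (fun x => j - 2 * S.r0 ≤ S.lam x))
    (s₂ := B.filter (fun x => j - 2 * S.r0 ≤ S.lam x))
    (f := fun x => Real.exp (θ * ((S.lam x : ℝ) - t)))
  have h2 : 0 ≤ ∑ x ∈ A.filter (fun x => j - 2 * S.r0 ≤ S.lam x) ∩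
      B.filter (fun x => j - 2 * S.r0 ≤ S.lam x), Real.exp (θ * ((S.lam x : ℝ) - t)) :=
    Finset.sum_nonneg fun _ _ => (Real.exp_pos _).le
  have h3 : ∑ x ∈ B.filter (fun x => j - 2 * S.r0 ≤ S.lam x), Real.exp (θ * ((S.lam x : ℝ) - t)) ≤
      ∑ x ∈ B, Real.exp (θ * ((S.lam x : ℝ) - t)) :=
    Finset.sum_le_sum_of_subset_of_nonneg (filter_subset _ _) fun _ _ _ => (Real.exp_pos _).le
  linarith

/-- advancing the window and the fractional front -/
theorem pot_shift_le (S : Side Λ ι) (θ : ℝ) {j j' : ℤ} (hj : j ≤ j') (t s : ℝ) (A : Finset Λ) :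
    S.pot θ j' (t + s) A ≤ Real.exp (-(θ * s)) * S.pot θ j t A := by
  unfold pot
  rw [Finset.mul_sum]
  calc ∑ x ∈ A.filter (fun x => j' - 2 * S.r0 ≤ S.lam x), Real.exp (θ * ((S.lam x : ℝ) - (t + s)))
      ≤ ∑ x ∈ A.filter (fun x => j - 2 * S.r0 ≤ S.lam x),
          Real.exp (θ * ((S.lam x : ℝ) - (t + s))) := by
        apply Finset.sum_le_sum_of_subset_of_nonneg
        · intro x hx
          rw [mem_filter] at hx ⊢
          exact ⟨hx.1, by omega⟩
        · exact fun _ _ _ => (Real.exp_pos _).le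
    _ = _ := by
        apply Finset.sum_congr rfl
        intro x _
        rw [← Real.exp_add]
        congr 1
        ring

theorem jt_succ {S : Side Λ ι} (j0 : ℤ) (t2 : ℕ) :
    S.jt j0 (t2 + 1) = S.jt j0 t2 + 1 / (2 * S.n) := by
  unfold jt
  push_cast
  ring

/-- the integer front is never ahead of the fractional front after the fill -/
theorem front_le_jt {S : Side Λ ι} (hW : S.WF) (j0 : ℤ) (par : Bool) (len : ℕ) :
    ((S.front j0 (nfill par len) : ℤ) : ℝ) ≤ S.jt j0 (len + 1) := by
  unfold front jt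
  have hn : (0 : ℝ) < S.n := by exact_mod_cast hW.n_pos
  have h1 : ((nfill par len / S.n : ℕ) : ℝ) ≤ (nfill par len : ℝ) / S.n := Nat.cast_div_le
  have h2 : (2 : ℝ) * (nfill par len : ℝ) ≤ (len : ℝ) + 1 := by exact_mod_cast two_nfill_le par len
  have h3 : (nfill par len : ℝ) / S.n ≤ ((len + 1 : ℕ) : ℝ) / (2 * S.n) := by
    rw [div_le_div_iff₀ hn (by positivity)]
    push_cast
    nlinarith
  rw [Int.cast_add, Int.cast_natCast]
  linarith

/-- fill and advance of the fractional front -/
theorem pot_fill {S : Side Λ ι} (hW : S.WF) {θ : ℝ} (hθ : 0 ≤ θ) {j0 : ℤ} {par : Bool}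
    {cs : List (Option ℕ)} (hZ : S.InZone j0 par (cs.length + 1)) :
    S.pot θ (S.front j0 (nfill par (cs.length + 1))) (S.jt j0 (cs.length + 1)) (S.runF j0 par cs) ≤
      Real.exp (-(θ / (2 * S.n))) *
        (S.pot θ (S.front j0 (nfill par cs.length)) (S.jt j0 cs.length) (S.run j0 par cs) +
          Real.exp (θ / (2 * S.n))) := by
  have hmono : S.front j0 (nfill par cs.length) ≤ S.front j0 (nfill par (cs.length + 1)) :=
    front_mono S j0 (nfill_mono par (by omega))
  have hsh := pot_shift_le S θ hmono (S.jt j0 cs.length) (1 / (2 * S.n)) (S.run j0 par cs)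
  rw [← jt_succ] at hsh
  have he : θ * (1 / (2 * (S.n : ℝ))) = θ / (2 * S.n) := by ring
  rw [he] at hsh
  have hone : Real.exp (-(θ / (2 * S.n))) * Real.exp (θ / (2 * S.n)) = 1 := by
    rw [← Real.exp_add]; simp
  rw [mul_add, hone]
  have hstep : S.pot θ (S.front j0 (nfill par (cs.length + 1))) (S.jt j0 (cs.length + 1))
      (S.runF j0 par cs) ≤
      S.pot θ (S.front j0 (nfill par (cs.length + 1))) (S.jt j0 (cs.length + 1))
        (S.run j0 par cs) + 1 := by
    unfold runF fillStep
    split_ifs with hp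
    · split
      · rename_i z hz
        have hl := hW.slot_some _ _ _ (hZ.lo_le _)
          (hZ.of_succ.front_le (nfill_mono par (by omega))) hz
        refine le_trans (pot_insert_le _ _ _ _ _ _) ?_
        have : Real.exp (θ * ((S.lam z : ℝ) - S.jt j0 (cs.length + 1))) ≤ 1 := by
          rw [← Real.exp_zero]
          apply Real.exp_le_exp.2
          have := front_le_jt hW j0 par cs.length
          rw [hl]
          nlinarith
        linarith
      · linarith
    · linarith
  linarith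

/-- number of list slots whose ball contains a given site -/
theorem pot_slots_card {S : Side Λ ι} (hW : S.WF) {j : ℤ} (h1 : S.lo ≤ j) (h2 : j ≤ S.hi) (y : Λ) :
    ((range S.Mn).filter fun a => ∃ i, S.lst j a = some i ∧ y ∈ S.ball i).card ≤ S.V0 := by
  classical
  refine le_trans ?_ (hW.ball_deg y)
  let g : ι → ℕ := fun i => if h : ∃ a, S.lst j a = some i then h.choose else 0
  refine le_trans (card_le_card (t := (univ.filter fun i => S.lo - S.r0 ≤ S.la i ∧
    S.la i ≤ S.hi + S.D ∧ y ∈ S.ball i).image g) ?_) card_image_le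
  intro a ha
  rw [mem_filter] at ha
  obtain ⟨-, i, hi, hy⟩ := ha
  rw [mem_image]
  have hb := hW.lst_some j a i h1 h2 hi
  refine ⟨i, ?_, ?_⟩
  · rw [mem_filter]
    exact ⟨mem_univ _, by omega, by omega, hy⟩
  · have hex : ∃ a, S.lst j a = some i := ⟨a, hi⟩
    simp only [g, dif_pos hex]
    exact hW.lst_inj j _ _ i hex.choose_spec hi

/-- the increase of the potential in one charge -/
theorem pot_charge_one {S : Side Λ ι} (hW : S.WF) {θ : ℝ} (hθ : 0 ≤ θ) {j0 : ℤ} {par : Bool}
    {len : ℕ} (h1 : S.lo ≤ S.front j0 (nfill par (len + 1)))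
    (h2 : S.front j0 (nfill par (len + 1)) ≤ S.hi) (t : ℝ) (A : Finset Λ) (a : ℕ) :
    S.pot θ (S.front j0 (nfill par (len + 1))) t (S.chargeStep j0 par len (some a) A) ≤
      S.pot θ (S.front j0 (nfill par (len + 1))) t A +
        (S.V0 : ℝ) * Real.exp (2 * θ * S.r0) *
          ∑ y ∈ A.filter (fun x => S.front j0 (nfill par (len + 1)) - 2 * S.r0 ≤ S.lam x),
            if ∃ i, S.lst (S.front j0 (nfill par (len + 1))) a = some i ∧ y ∈ S.ball i then
              Real.exp (θ * ((S.lam y : ℝ) - t)) else 0 := by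
  classical
  set j := S.front j0 (nfill par (len + 1)) with hj
  have hnn : 0 ≤ (S.V0 : ℝ) * Real.exp (2 * θ * S.r0) *
      ∑ y ∈ A.filter (fun x => j - 2 * S.r0 ≤ S.lam x),
        if ∃ i, S.lst j a = some i ∧ y ∈ S.ball i then
          Real.exp (θ * ((S.lam y : ℝ) - t)) else 0 := by
    apply mul_nonneg (by positivity)
    apply Finset.sum_nonneg
    intro y _
    split_ifs
    · exact (Real.exp_pos _).le
    · exact le_rfl
  unfold chargeStep
  simp only [← hj]
  split
  · rename_i i hi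
    split_ifs with hne
    · obtain ⟨y, hy⟩ := hne
      rw [mem_inter] at hy
      have hb := hW.lst_some j a i h1 h2 hi
      have hyl := hW.ball_lam i y hy.1
      refine le_trans (pot_union_le _ _ _ _ _ _) ?_
      apply add_le_add le_rfl
      have hyW : y ∈ A.filter (fun x => j - 2 * S.r0 ≤ S.lam x) := by
        rw [mem_filter]
        exact ⟨hy.2, by omega⟩
      have hsingle : Real.exp (θ * ((S.lam y : ℝ) - t)) ≤
          ∑ y ∈ A.filter (fun x => j - 2 * S.r0 ≤ S.lam x),
            if ∃ i, S.lst j a = some i ∧ y ∈ S.ball i then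
              Real.exp (θ * ((S.lam y : ℝ) - t)) else 0 := by
        have := Finset.single_le_sum (f := fun y => if ∃ i, S.lst j a = some i ∧ y ∈ S.ball i then
              Real.exp (θ * ((S.lam y : ℝ) - t)) else 0) (s := A.filter (fun x => j - 2 * S.r0 ≤ S.lam x))
              (fun y _ => by
                show 0 ≤ if ∃ i, S.lst j a = some i ∧ y ∈ S.ball i then
                  Real.exp (θ * ((S.lam y : ℝ) - t)) else 0
                split_ifs
                · exact (Real.exp_pos _).le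
                · exact le_rfl) hyW
        rwa [if_pos ⟨i, hi, hy.1⟩] at this
      have hterm : ∀ x ∈ S.ball i, Real.exp (θ * ((S.lam x : ℝ) - t)) ≤
          Real.exp (2 * θ * S.r0) * Real.exp (θ * ((S.lam y : ℝ) - t)) := by
        intro x hx
        rw [← Real.exp_add]
        apply Real.exp_le_exp.2
        have hxl := hW.ball_lam i x hx
        have : S.lam x ≤ S.lam y + 2 * S.r0 := by omega
        have : (S.lam x : ℝ) ≤ S.lam y + 2 * S.r0 := by exact_mod_cast this
        nlinarith
      have hcard : ((S.ball i).card : ℝ) ≤ S.V0 := by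
        exact_mod_cast hW.ball_card i (by omega) (by omega)
      calc ∑ x ∈ S.ball i, Real.exp (θ * ((S.lam x : ℝ) - t))
          ≤ ∑ x ∈ S.ball i, Real.exp (2 * θ * S.r0) * Real.exp (θ * ((S.lam y : ℝ) - t)) :=
            Finset.sum_le_sum hterm
        _ = ((S.ball i).card : ℝ) * (Real.exp (2 * θ * S.r0) * Real.exp (θ * ((S.lam y : ℝ) - t))) := by
            rw [Finset.sum_const, nsmul_eq_mul]
        _ ≤ (S.V0 : ℝ) * (Real.exp (2 * θ * S.r0) * Real.exp (θ * ((S.lam y : ℝ) - t))) :=
            mul_le_mul_of_nonneg_right hcard (by positivity)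
        _ = (S.V0 : ℝ) * Real.exp (2 * θ * S.r0) * Real.exp (θ * ((S.lam y : ℝ) - t)) := by ring
        _ ≤ _ := mul_le_mul_of_nonneg_left hsingle (by positivity)
    · linarith
  · linarith

/-- the sum over all list slots of the increase of the potential in a charge -/
theorem pot_charge_sum {S : Side Λ ι} (hW : S.WF) {θ : ℝ} (hθ : 0 ≤ θ) {j0 : ℤ} {par : Bool}
    {cs : List (Option ℕ)} (hZ : S.InZone j0 par (cs.length + 1)) (t : ℝ) :
    ∑ a ∈ range S.Mn, S.pot θ (S.front j0 (nfill par (cs.length + 1))) t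
        (S.chargeStep j0 par cs.length (some a) (S.runF j0 par cs)) ≤
      ((S.Mn : ℝ) + (S.V0 : ℝ) ^ 2 * Real.exp (2 * θ * S.r0)) *
        S.pot θ (S.front j0 (nfill par (cs.length + 1))) t (S.runF j0 par cs) := by
  classical
  have h1 : S.lo ≤ S.front j0 (nfill par (cs.length + 1)) := hZ.lo_le _
  have h2 : S.front j0 (nfill par (cs.length + 1)) ≤ S.hi := hZ.of_succ.front_le le_rfl
  set j := S.front j0 (nfill par (cs.length + 1)) with hj
  set A := S.runF j0 par cs with hA
  have hsum : ∑ a ∈ range S.Mn, ∑ y ∈ A.filter (fun x => j - 2 * S.r0 ≤ S.lam x),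
      (if ∃ i, S.lst j a = some i ∧ y ∈ S.ball i then Real.exp (θ * ((S.lam y : ℝ) - t)) else 0) ≤
      (S.V0 : ℝ) * S.pot θ j t A := by
    rw [Finset.sum_comm]
    unfold pot
    rw [Finset.mul_sum]
    apply Finset.sum_le_sum
    intro y _
    rw [← Finset.sum_filter, Finset.sum_const, nsmul_eq_mul]
    apply mul_le_mul_of_nonneg_right _ (Real.exp_pos _).le
    exact_mod_cast pot_slots_card hW h1 h2 y
  calc ∑ a ∈ range S.Mn, S.pot θ j t (S.chargeStep j0 par cs.length (some a) A)
      ≤ ∑ a ∈ range S.Mn, (S.pot θ j t A + (S.V0 : ℝ) * Real.exp (2 * θ * S.r0) *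
          ∑ y ∈ A.filter (fun x => j - 2 * S.r0 ≤ S.lam x),
            if ∃ i, S.lst j a = some i ∧ y ∈ S.ball i then
              Real.exp (θ * ((S.lam y : ℝ) - t)) else 0) :=
        Finset.sum_le_sum fun a _ => pot_charge_one hW hθ h1 h2 t A a
    _ = (S.Mn : ℝ) * S.pot θ j t A + (S.V0 : ℝ) * Real.exp (2 * θ * S.r0) *
          ∑ a ∈ range S.Mn, ∑ y ∈ A.filter (fun x => j - 2 * S.r0 ≤ S.lam x),
            (if ∃ i, S.lst j a = some i ∧ y ∈ S.ball i then
              Real.exp (θ * ((S.lam y : ℝ) - t)) else 0) := by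
        rw [Finset.sum_add_distrib, Finset.sum_const, card_range, nsmul_eq_mul, Finset.mul_sum]
    _ ≤ (S.Mn : ℝ) * S.pot θ j t A + (S.V0 : ℝ) * Real.exp (2 * θ * S.r0) *
          ((S.V0 : ℝ) * S.pot θ j t A) :=
        add_le_add le_rfl (mul_le_mul_of_nonneg_left hsum (by positivity))
    _ = _ := by ring

/-- a state which is not good has a large potential -/
theorem pot_bad {S : Side Λ ι} (hW : S.WF) {θ : ℝ} (hθ : 0 ≤ θ) (j0 : ℤ) (par : Bool) (t2 : ℕ)
    {A : Finset Λ} (hb : ¬ S.Good (S.front j0 (nfill par t2)) A) :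
    Real.exp (θ * ((S.D : ℝ) / 2 - 2)) ≤ S.pot θ (S.front j0 (nfill par t2)) (S.jt j0 t2) A := by
  unfold Good at hb
  push Not at hb
  obtain ⟨x, hxA, hx⟩ := hb
  have hmem : x ∈ A.filter (fun x => S.front j0 (nfill par t2) - 2 * S.r0 ≤ S.lam x) := by
    rw [mem_filter]
    exact ⟨hxA, by omega⟩
  unfold pot
  refine le_trans ?_ (Finset.single_le_sum (f := fun x => Real.exp (θ * ((S.lam x : ℝ) - S.jt j0 t2)))
    (fun _ _ => (Real.exp_pos _).le) hmem)
  apply Real.exp_le_exp.2
  apply mul_le_mul_of_nonneg_left _ hθ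
  have hn : (0 : ℝ) < S.n := by exact_mod_cast hW.n_pos
  have hn1 : (1 : ℝ) ≤ S.n := by exact_mod_cast hW.n_pos
  have hx' : (S.D : ℝ) < 2 * ((S.lam x : ℝ) - (S.front j0 (nfill par t2) : ℤ)) := by
    exact_mod_cast hx
  have hdm := Nat.div_add_mod (nfill par t2) S.n
  have hml := Nat.mod_lt (nfill par t2) hW.n_pos
  have hdm' : (S.n : ℝ) * ((nfill par t2 / S.n : ℕ) : ℝ) + ((nfill par t2 % S.n : ℕ) : ℝ) =
      (nfill par t2 : ℝ) := by exact_mod_cast hdm
  have hml' : ((nfill par t2 % S.n : ℕ) : ℝ) ≤ S.n := by exact_mod_cast hml.le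
  have h2 : (t2 : ℝ) ≤ 2 * (nfill par t2 : ℝ) + 1 := by exact_mod_cast le_two_nfill par t2
  have hfr : S.jt j0 t2 - 2 ≤ ((S.front j0 (nfill par t2) : ℤ) : ℝ) := by
    unfold jt front
    rw [Int.cast_add, Int.cast_natCast]
    have : (t2 : ℝ) / (2 * S.n) ≤ ((nfill par t2 / S.n : ℕ) : ℝ) + 2 := by
      rw [div_le_iff₀ (by positivity)]
      nlinarith
    linarith
  linarith

end Scan.Side

namespace Scan.Geom

open Finset

variable {Λ ι : Type} [DecidableEq Λ] [Fintype Λ] [Fintype ι] {G : Geom Λ ι}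

/-- the potential of one side of band `g` in a history -/
noncomputable def sidePot (G : Geom Λ ι) (S : Side Λ ι) (j0 : Fin G.m → ℤ) (par nearQ : Bool)
    (θ : ℝ) (g : Fin G.K) (l : G.Lab) : ℝ :=
  S.pot θ (S.front (j0 (l.off g)) (Side.tfill par l.cs.length l.fl))
    (S.jt (j0 (l.off g)) (if l.fl then l.cs.length + 1 else l.cs.length))
    (S.runB (j0 (l.off g)) par (G.sideCs g nearQ l.cs) l.fl)

/-- the recursion `B ↦ (1 + γ) (exp (-x) B + 1)` maps `[4 / x, ∞)` below the identity -/
theorem pot_num {x γ B : ℝ} (hx0 : 0 < x) (hx1 : x ≤ 1) (hγ0 : 0 ≤ γ) (hγ : γ ≤ x / 2)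
    (hB : 4 ≤ B * x) : (1 + γ) * (Real.exp (-x) * B + 1) ≤ B := by
  have hq := Real.quadratic_le_exp_of_nonneg hx0.le
  have hE : 0 < Real.exp x := Real.exp_pos x
  rw [Real.exp_neg]
  have hB4 : 4 ≤ B := by nlinarith
  have key : (1 + γ) * (B + Real.exp x) ≤ B * Real.exp x := by
    have h1 : 0 ≤ B - 1 - γ := by linarith
    have h2 : (1 + x + x ^ 2 / 2) * (B - 1 - γ) ≤ Real.exp x * (B - 1 - γ) :=
      mul_le_mul_of_nonneg_right hq h1
    have h3 : (1 + γ) * B ≤ (1 + x + x ^ 2 / 2) * (B - 1 - γ) := by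
      have h4 : 2 * (1 + x) ≤ B * (x / 2 + x ^ 2 / 2) := by nlinarith
      have h5 : B * (x / 2 + x ^ 2 / 2) ≤ B * (x + x ^ 2 / 2 - γ) := by
        apply mul_le_mul_of_nonneg_left <;> linarith
      have h6 : (1 + x + x ^ 2 / 2) * (1 + γ) ≤ 2 * (1 + x) := by
        have : (1 + x + x ^ 2 / 2) * (1 + γ) ≤ (1 + x + x ^ 2 / 2) * (1 + x / 2) := by
          apply mul_le_mul_of_nonneg_left
          · linarith
          · positivity
        nlinarith
      nlinarith
    nlinarith
  calc (1 + γ) * ((Real.exp x)⁻¹ * B + 1) = ((1 + γ) * (B + Real.exp x)) / Real.exp x := by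
        field_simp
    _ ≤ (B * Real.exp x) / Real.exp x := by gcongr
    _ = B := by field_simp

theorem sidePot_nonneg (S : Side Λ ι) (j0 : Fin G.m → ℤ) (par nearQ : Bool) (θ : ℝ) (g : Fin G.K)
    (l : G.Lab) : 0 ≤ G.sidePot S j0 par nearQ θ g l := Side.pot_nonneg _ _ _ _ _

/-- the potential at time `0` -/
theorem sidePot_start {S : Side Λ ι} (hS : S.WF) (j0 : Fin G.m → ℤ) (par nearQ : Bool) {θ : ℝ}
    (hθ : 0 ≤ θ) (g : Fin G.K) {l : G.Lab} (hl : time l = 0)
    (hZ : S.InZone (j0 (l.off g)) par (l.cs.length + 1)) :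
    G.sidePot S j0 par nearQ θ g l ≤ 2 * S.r0 * S.n := by
  obtain ⟨off, cs, fl⟩ := l
  unfold time at hl
  have hcs : cs = [] := by
    have : cs.length = 0 := by simp only at hl; omega
    exact List.length_eq_zero_iff.1 this
  have hfl : fl = false := by
    cases fl
    · rfl
    · simp at hl
  subst hcs hfl
  have h0 : Side.nfill par 0 = 0 := by cases par <;> simp [Side.nfill]
  have h := Side.pot_start hS hθ hZ.1 (le_trans (Side.le_front S _ _) hZ.2)
  simpa [sidePot, Side.tfill, Side.runB, sideCs, Side.run, Side.front, Side.jt, h0] using h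

/-- the potential in a fill round -/
theorem sidePot_fill {S : Side Λ ι} (hS : S.WF) (j0 : Fin G.m → ℤ) (par nearQ : Bool) {θ : ℝ}
    (hθ : 0 ≤ θ) (g : Fin G.K) {l : G.Lab} (hfl : l.fl = false)
    (hZ : S.InZone (j0 (l.off g)) par (l.cs.length + 1)) :
    (G.Ch l).E (G.sidePot S j0 par nearQ θ g) ≤
      Real.exp (-(θ / (2 * S.n))) * (G.sidePot S j0 par nearQ θ g l + Real.exp (θ / (2 * S.n))) := by
  have h := Side.pot_fill hS hθ (j0 := j0 (l.off g)) (par := par) (cs := G.sideCs g nearQ l.cs)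
    (by rw [sideCs_length]; exact hZ)
  rw [sideCs_length] at h
  simpa [Ch, sidePot, Side.tfill, Side.runB, hfl] using h

/-- the potential in a charge round -/
theorem sidePot_charge (hW : G.WF) {S : Side Λ ι} (hS : S.WF) (hMn : S.Mn = G.Mn)
    (j0 : Fin G.m → ℤ) (par nearQ : Bool) {θ : ℝ} (hθ : 0 ≤ θ) (g : Fin G.K) {l : G.Lab}
    (hfl : l.fl = true) (hZ : S.InZone (j0 (l.off g)) par (l.cs.length + 1)) :
    (G.Ch l).E (G.sidePot S j0 par nearQ θ g) ≤
      (1 + (S.V0 : ℝ) ^ 2 * Real.exp (2 * θ * S.r0) / (2 * S.Mn)) *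
        G.sidePot S j0 par nearQ θ g l := by
  have : Nonempty (Fin G.Mn) := ⟨⟨0, hW.Mn_pos⟩⟩
  have hM : (0 : ℝ) < G.Mn := by exact_mod_cast hW.Mn_pos
  have h := Side.pot_charge_sum hS hθ (j0 := j0 (l.off g)) (par := par)
    (cs := G.sideCs g nearQ l.cs) (by rw [sideCs_length]; exact hZ)
    (S.jt (j0 (l.off g)) (l.cs.length + 1))
  rw [sideCs_length] at h
  set A := S.runF (j0 (l.off g)) par (G.sideCs g nearQ l.cs) with hA
  set j := S.front (j0 (l.off g)) (Side.nfill par (l.cs.length + 1)) with hj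
  set t := S.jt (j0 (l.off g)) (l.cs.length + 1) with ht
  have hl : G.sidePot S j0 par nearQ θ g l = S.pot θ j t A := by
    simp [sidePot, Side.tfill, Side.runB, hfl, hA, hj, ht]
  let ψ : Bool × Fin G.Mn → ℝ := fun v =>
    S.pot θ j t (S.chargeStep (j0 (l.off g)) par l.cs.length
      (if v.1 = nearQ then some (v.2 : ℕ) else none) A)
  have hE : (G.Ch l).E (G.sidePot S j0 par nearQ θ g) =
      (∑ c : Fin G.K → Bool × Fin G.Mn, ψ (c g)) /
        (Fintype.card (Fin G.K → Bool × Fin G.Mn) : ℝ) := by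
    unfold Ch
    rw [if_pos hfl, MTree.E_unifD]
    congr 1
    apply Finset.sum_congr rfl
    intro c _
    simp only [ψ, sidePot, Side.tfill, Side.runB, sideCs, List.map_cons, Side.run, List.length_cons,
      List.length_map, hA, hj, ht, Side.runF]
    simp
  rw [hE, MTree.sum_pi_coord g ψ, hl]
  have hsum : ∑ v, ψ v = ∑ a ∈ range S.Mn, S.pot θ j t
      (S.chargeStep (j0 (l.off g)) par l.cs.length (some a) A) + (G.Mn : ℝ) * S.pot θ j t A := by
    rw [Fintype.sum_prod_type, Fintype.sum_bool, hMn,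
      ← Fin.sum_univ_eq_sum_range (fun a => S.pot θ j t
        (S.chargeStep (j0 (l.off g)) par l.cs.length (some a) A)) G.Mn]
    cases nearQ <;> simp [ψ, Side.chargeStep]
    ring
  rw [hsum]
  have hcard : (Fintype.card (Bool × Fin G.Mn) : ℝ) = 2 * G.Mn := by
    simp
  rw [hcard, div_le_iff₀ (by positivity), hMn]
  rw [hMn] at h
  have : (1 + (S.V0 : ℝ) ^ 2 * Real.exp (2 * θ * S.r0) / (2 * G.Mn)) * S.pot θ j t A * (2 * G.Mn) =
      ((G.Mn : ℝ) + (S.V0 : ℝ) ^ 2 * Real.exp (2 * θ * S.r0)) * S.pot θ j t A +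
        (G.Mn : ℝ) * S.pot θ j t A := by
    field_simp
    ring
  rw [this]
  linarith

/-- the expected potential of one side stays bounded -/
theorem sidePot_E_le (hW : G.WF) (d : G.Lab) {S : Side Λ ι} (hS : S.WF) (hn : S.n = G.n)
    (hMn : S.Mn = G.Mn) (hV0 : S.V0 = G.V0) (hr0 : S.r0 = G.r0) (j0 : Fin G.m → ℤ)
    (par nearQ : Bool) (g : Fin G.K)
    (hZ : ∀ r len, len ≤ G.n * G.m → S.InZone (j0 r) par (len + 1))
    {θ : ℝ} (hθ0 : 0 < θ) (hθ1 : θ ≤ 1)
    (hγ : (G.V0 : ℝ) ^ 2 * Real.exp (2 * θ * G.r0) / (2 * G.Mn) ≤ θ / (4 * G.n)) {ρ : ℕ}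
    (hρ : ρ ≤ 2 * (G.n * G.m)) :
    (G.HT d ρ).E (G.sidePot S j0 par nearQ θ g) ≤ max (2 * (G.r0 : ℝ) * G.n) (8 * G.n / θ) + 1 := by
  set B := max (2 * (G.r0 : ℝ) * G.n) (8 * G.n / θ) with hB
  set x := θ / (2 * (G.n : ℝ)) with hx
  set γ := (G.V0 : ℝ) ^ 2 * Real.exp (2 * θ * G.r0) / (2 * G.Mn) with hγd
  have hnpos : (0 : ℝ) < G.n := by exact_mod_cast hW.n_pos
  have hn1 : (1 : ℝ) ≤ G.n := by exact_mod_cast hW.n_pos
  have hx0 : 0 < x := by positivity
  have hx1 : x ≤ 1 := by
    rw [hx, div_le_one (by positivity)]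
    linarith
  have hγ0 : 0 ≤ γ := by positivity
  have hγx : γ ≤ x / 2 := by
    refine le_trans hγ (le_of_eq ?_)
    rw [hx]
    field_simp
    ring
  have hBx : 4 ≤ B * x := by
    have h1 : 8 * G.n / θ ≤ B := le_max_right _ _
    have h2 : 8 * (G.n : ℝ) / θ * x = 4 := by
      rw [hx]
      field_simp
      ring
    calc (4 : ℝ) = 8 * (G.n : ℝ) / θ * x := h2.symm
      _ ≤ B * x := mul_le_mul_of_nonneg_right h1 hx0.le
  have hB0 : 0 ≤ B := le_trans (by positivity) (le_max_left _ _)
  have hnum := pot_num hx0 hx1 hγ0 hγx hBx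
  have hexp1 : Real.exp (-x) ≤ 1 := by
    rw [← Real.exp_zero]
    exact Real.exp_le_exp.2 (by linarith)
  have main : ∀ ρ, ρ ≤ 2 * (G.n * G.m) →
      (ρ % 2 = 0 → (G.HT d ρ).E (G.sidePot S j0 par nearQ θ g) ≤ B) ∧
      (ρ % 2 = 1 → (G.HT d ρ).E (G.sidePot S j0 par nearQ θ g) ≤ Real.exp (-x) * B + 1) := by
    intro ρ
    induction ρ with
    | zero =>
      intro _
      refine ⟨fun _ => ?_, fun h => by omega⟩
      apply MTree.E_le_of_all (svalid_HT d 0).valid
      refine MTree.All.imp ?_ (all_time_HT hW d 0)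
      intro l hl
      have hlen : l.cs.length = 0 := by unfold time at hl; omega
      refine le_trans (sidePot_start hS j0 par nearQ hθ0.le g hl (hZ _ _ (by omega))) ?_
      rw [hn, hr0]
      exact le_max_left _ _
    | succ ρ ih =>
      intro hρ'
      obtain ⟨ih0, ih1⟩ := ih (by omega)
      have hv := (svalid_HT d ρ).valid
      have hall : (G.HT d ρ).All fun l => time l = ρ ∧ G.Reach l := by
        have h1 := all_time_HT hW d ρ
        have h2 := all_reach_HT hW d (ρ := ρ) (by omega)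
        rw [MTree.all_iff_leaves] at h1 h2 ⊢
        exact fun a ha => ⟨h1 a ha, h2 a ha⟩
      have hbind : (G.HT d (ρ + 1)).E (G.sidePot S j0 par nearQ θ g) =
          (G.HT d ρ).E (fun l => (G.Ch l).E (G.sidePot S j0 par nearQ θ g)) := by
        show ((G.HT d ρ).bind G.Ch).E _ = _
        rw [MTree.E_bind]
      rw [hbind]
      constructor
      · intro hpar
        have hodd : ρ % 2 = 1 := by omega
        calc (G.HT d ρ).E (fun l => (G.Ch l).E (G.sidePot S j0 par nearQ θ g))
            ≤ (G.HT d ρ).E (fun l => (1 + γ) * G.sidePot S j0 par nearQ θ g l) := by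
              apply MTree.E_le_E_of_all hv
              refine MTree.All.imp ?_ hall
              rintro l ⟨hl, hr⟩
              have hfl : l.fl = true := by
                unfold time at hl
                by_contra hc
                rw [if_neg hc] at hl
                omega
              have := sidePot_charge hW hS hMn j0 par nearQ hθ0.le g hfl (hZ _ _ (reach_len hr))
              rwa [hV0, hr0, hMn] at this
          _ = (1 + γ) * (G.HT d ρ).E (G.sidePot S j0 par nearQ θ g) := MTree.E_mul_left _ _ _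
          _ ≤ (1 + γ) * (Real.exp (-x) * B + 1) :=
              mul_le_mul_of_nonneg_left (ih1 hodd) (by linarith)
          _ ≤ B := hnum
      · intro hpar
        have hev : ρ % 2 = 0 := by omega
        calc (G.HT d ρ).E (fun l => (G.Ch l).E (G.sidePot S j0 par nearQ θ g))
            ≤ (G.HT d ρ).E (fun l => Real.exp (-x) * (G.sidePot S j0 par nearQ θ g l + Real.exp x)) := by
              apply MTree.E_le_E_of_all hv
              refine MTree.All.imp ?_ hall
              rintro l ⟨hl, hr⟩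
              have hfl : l.fl = false := by
                unfold time at hl
                by_contra hc
                have hc' : l.fl = true := by simpa using hc
                rw [if_pos hc'] at hl
                omega
              have := sidePot_fill hS j0 par nearQ hθ0.le g hfl (hZ _ _ (reach_len hr))
              rwa [hn] at this
          _ = Real.exp (-x) * ((G.HT d ρ).E (G.sidePot S j0 par nearQ θ g) + Real.exp x) := by
              rw [MTree.E_mul_left, MTree.E_add, MTree.E_const]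
          _ = Real.exp (-x) * (G.HT d ρ).E (G.sidePot S j0 par nearQ θ g) + 1 := by
              rw [mul_add, ← Real.exp_add]
              simp
          _ ≤ Real.exp (-x) * B + 1 := by
              have := mul_le_mul_of_nonneg_left (ih0 hev) (Real.exp_pos (-x)).le
              linarith
  obtain ⟨m0, m1⟩ := main ρ hρ
  rcases Nat.mod_two_eq_zero_or_one ρ with h | h
  · linarith [m0 h]
  · have := m1 h
    nlinarith

/-- Markov for one side -/
theorem ind_not_good_le {S : Side Λ ι} (hS : S.WF) (j0 : Fin G.m → ℤ) (par nearQ : Bool) {θ : ℝ}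
    (hθ : 0 ≤ θ) (g : Fin G.K) (l : G.Lab) :
    ind (¬ S.Good (S.front (j0 (l.off g)) (Side.tfill par l.cs.length l.fl))
      (S.runB (j0 (l.off g)) par (G.sideCs g nearQ l.cs) l.fl)) ≤
      G.sidePot S j0 par nearQ θ g l * Real.exp (-(θ * ((S.D : ℝ) / 2 - 2))) := by
  classical
  unfold ind
  by_cases hb : ¬ S.Good (S.front (j0 (l.off g)) (Side.tfill par l.cs.length l.fl))
      (S.runB (j0 (l.off g)) par (G.sideCs g nearQ l.cs) l.fl)
  · rw [if_pos hb]
    have h := Side.pot_bad hS hθ (j0 (l.off g)) par (if l.fl then l.cs.length + 1 else l.cs.length) hb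
    have h1 : Real.exp (θ * ((S.D : ℝ) / 2 - 2)) * Real.exp (-(θ * ((S.D : ℝ) / 2 - 2))) = 1 := by
      rw [← Real.exp_add]
      simp
    rw [← h1]
    exact mul_le_mul_of_nonneg_right h (Real.exp_pos _).le
  · rw [if_neg hb]
    exact mul_nonneg (sidePot_nonneg _ _ _ _ _ _ _) (Real.exp_pos _).le

/-- Lemma 8.1 (4): bad histories are rare.  In the application `θ = 1 / r0`. -/
theorem bad_prob (hW : G.WF) (d : G.Lab) {θ : ℝ} (hθ0 : 0 < θ) (hθ1 : θ ≤ 1)
    (hγ : (G.V0 : ℝ) ^ 2 * Real.exp (2 * θ * G.r0) / (2 * G.Mn) ≤ θ / (4 * G.n)) {ρ : ℕ}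
    (hρ : ρ ≤ 2 * (G.n * G.m)) :
    (G.HT d ρ).E (fun l => ind (¬ G.GoodL l)) ≤
      2 * G.K * (max (2 * (G.r0 : ℝ) * G.n) (8 * G.n / θ) + 1) *
        Real.exp (-(θ * ((G.D : ℝ) / 2 - 2))) := by
  classical
  set B := max (2 * (G.r0 : ℝ) * G.n) (8 * G.n / θ) with hB
  set c := Real.exp (-(θ * ((G.D : ℝ) / 2 - 2))) with hc
  have hv := (svalid_HT d ρ).valid
  have hN : ∀ g : Fin G.K, (G.HT d ρ).E
      (G.sidePot G.nearSide (fun r => G.j0N g r) true true θ g) ≤ B + 1 := fun g =>
    sidePot_E_le hW d (nearSide_wf hW) rfl rfl rfl rfl _ true true g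
      (fun r len h => inZoneN hW g r h) hθ0 hθ1 hγ hρ
  have hF : ∀ g : Fin G.K, (G.HT d ρ).E
      (G.sidePot G.farSide (fun r => G.j0F g r) false false θ g) ≤ B + 1 := fun g =>
    sidePot_E_le hW d (farSide_wf hW) rfl rfl rfl rfl _ false false g
      (fun r len h => inZoneF hW g r h) hθ0 hθ1 hγ hρ
  have hpt : ∀ l : G.Lab, ind (¬ G.GoodL l) ≤
      ∑ g : Fin G.K, (G.sidePot G.nearSide (fun r => G.j0N g r) true true θ g l * c +
        G.sidePot G.farSide (fun r => G.j0F g r) false false θ g l * c) := by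
    intro l
    have hterm : ∀ g : Fin G.K, 0 ≤ G.sidePot G.nearSide (fun r => G.j0N g r) true true θ g l * c +
        G.sidePot G.farSide (fun r => G.j0F g r) false false θ g l * c := fun g =>
      add_nonneg (mul_nonneg (sidePot_nonneg _ _ _ _ _ _ _) (Real.exp_pos _).le)
        (mul_nonneg (sidePot_nonneg _ _ _ _ _ _ _) (Real.exp_pos _).le)
    by_cases hg : G.GoodL l
    · have : ind (¬ G.GoodL l) = 0 := by
        unfold ind
        rw [if_neg (not_not.2 hg)]
      rw [this]
      exact Finset.sum_nonneg fun g _ => hterm g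
    · have h1 : ind (¬ G.GoodL l) = 1 := by
        unfold ind
        rw [if_pos hg]
      rw [h1]
      unfold GoodL at hg
      push Not at hg
      obtain ⟨g, hg⟩ := hg
      refine le_trans ?_ (Finset.single_le_sum (fun g _ => hterm g) (mem_univ g))
      have a1 := ind_not_good_le (G := G) (nearSide_wf hW) (fun r => G.j0N g r) true true hθ0.le g l
      have a2 := ind_not_good_le (G := G) (farSide_wf hW) (fun r => G.j0F g r) false false hθ0.le g l
      have b1 := mul_nonneg (sidePot_nonneg G.nearSide (fun r => G.j0N g r) true true θ g l)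
        (Real.exp_pos (-(θ * ((G.D : ℝ) / 2 - 2)))).le
      have b2 := mul_nonneg (sidePot_nonneg G.farSide (fun r => G.j0F g r) false false θ g l)
        (Real.exp_pos (-(θ * ((G.D : ℝ) / 2 - 2)))).le
      by_cases hgN : G.nearSide.Good (G.jN l g) (G.near l g)
      · have hgF := hg hgN
        have : ind (¬ G.farSide.Good (G.jF l g) (G.far l g)) = 1 := by
          unfold ind
          rw [if_pos hgF]
        unfold jF far at this
        rw [this] at a2
        have a2' : (1 : ℝ) ≤ G.sidePot G.farSide (fun r => G.j0F g r) false false θ g l * c := a2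
        have b1' : 0 ≤ G.sidePot G.nearSide (fun r => G.j0N g r) true true θ g l * c := b1
        linarith
      · have : ind (¬ G.nearSide.Good (G.jN l g) (G.near l g)) = 1 := by
          unfold ind
          rw [if_pos hgN]
        unfold jN near at this
        rw [this] at a1
        have a1' : (1 : ℝ) ≤ G.sidePot G.nearSide (fun r => G.j0N g r) true true θ g l * c := a1
        have b2' : 0 ≤ G.sidePot G.farSide (fun r => G.j0F g r) false false θ g l * c := b2
        linarith
  have hc0 : 0 ≤ c := (Real.exp_pos _).le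
  calc (G.HT d ρ).E (fun l => ind (¬ G.GoodL l))
      ≤ (G.HT d ρ).E (fun l => ∑ g : Fin G.K,
          (G.sidePot G.nearSide (fun r => G.j0N g r) true true θ g l * c +
            G.sidePot G.farSide (fun r => G.j0F g r) false false θ g l * c)) :=
        MTree.E_mono hv hpt
    _ = ∑ g : Fin G.K, ((G.HT d ρ).E (G.sidePot G.nearSide (fun r => G.j0N g r) true true θ g) * c +
          (G.HT d ρ).E (G.sidePot G.farSide (fun r => G.j0F g r) false false θ g) * c) := by
        rw [MTree.E_finset_sum]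
        apply Finset.sum_congr rfl
        intro g _
        rw [MTree.E_add, MTree.E_mul_right, MTree.E_mul_right]
    _ ≤ ∑ g : Fin G.K, ((B + 1) * c + (B + 1) * c) := by
        apply Finset.sum_le_sum
        intro g _
        exact add_le_add (mul_le_mul_of_nonneg_right (hN g) hc0)
          (mul_le_mul_of_nonneg_right (hF g) hc0)
    _ = 2 * G.K * (B + 1) * c := by
        rw [Finset.sum_const, card_univ, Fintype.card_fin, nsmul_eq_mul]
        ring

end Scan.Geom

end Claimed.Agent.R296
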