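import Claimed.Agent.R296.Scan.Joint2

/-!
# Row 296, P1 Section 8: the classical probabilities of the scan (Lemma 8.1 (3), (4))

Package S8-P: history trees as uniform averages, dilution by the offsets, availability of the split
terms on good histories.
-/

set_option autoImplicit false
set_option linter.unusedSectionVars false

namespace Claimed.Agent.R296

namespace MTree

variable {α β : Type}

/-- averaging a function of one coordinate over a finite product -/
theorem sum_pi_coord {κ γ : Type} [Fintype κ] [DecidableEq κ] [Fintype γ]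
    (k0 : κ) (ψ : γ → ℝ) :
    (∑ c : κ → γ, ψ (c k0)) / (Fintype.card (κ → γ) : ℝ) = (∑ v : γ, ψ v) / (Fintype.card γ : ℝ) := by
  classical
  have h1 : ∑ c : κ → γ, ψ (c k0) =
      (Fintype.card ({j // j ≠ k0} → γ) : ℝ) * ∑ v : γ, ψ v := by
    rw [← Equiv.sum_comp (Equiv.funSplitAt k0 γ).symm (fun c => ψ (c k0)), Fintype.sum_prod_type,
      Finset.mul_sum]
    apply Finset.sum_congr rfl
    intro v _
    simp [Equiv.funSplitAt, Equiv.piSplitAt]
  have h2 : (Fintype.card (κ → γ) : ℝ) =
      (Fintype.card ({j // j ≠ k0} → γ) : ℝ) * (Fintype.card γ : ℝ) := by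
    rw [Fintype.card_congr (Equiv.funSplitAt k0 γ), Fintype.card_prod]
    push_cast
    ring
  rw [h1, h2]
  by_cases h0 : (Fintype.card ({j // j ≠ k0} → γ) : ℝ) = 0
  · -- then `γ` is empty
    have hc : Fintype.card ({j // j ≠ k0} → γ) = 0 := by exact_mod_cast h0
    have hE : IsEmpty ({j // j ≠ k0} → γ) := Fintype.card_eq_zero_iff.1 hc
    have hγ : IsEmpty γ := ⟨fun v => hE.false fun _ => v⟩
    simp
  · rw [mul_div_mul_left _ _ h0]

/-- all leaves of a uniform tree over a nonempty type -/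
theorem all_unifD_of_nonempty (ι : Type) [Fintype ι] [Nonempty ι] (d : α) (g : ι → α)
    {P : α → Prop} (h : ∀ i, P (g i)) : All P (unifD ι d g) := by
  rw [all_iff_leaves, leaves_unifD]
  intro a ha
  obtain ⟨i, _, rfl⟩ := List.mem_map.1 ha
  exact h i

theorem All.and {P Q : α → Prop} {t : MTree α} (h1 : All P t) (h2 : All Q t) :
    All (fun a => P a ∧ Q a) t := by
  rw [all_iff_leaves] at h1 h2 ⊢
  exact fun a ha => ⟨h1 a ha, h2 a ha⟩

end MTree

namespace Scan

theorem prob_ind_true {P : Prop} (h : P) : ind P = 1 := by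
  classical
  unfold ind
  rw [if_pos h]

theorem prob_ind_false {P : Prop} (h : ¬ P) : ind P = 0 := by
  classical
  unfold ind
  rw [if_neg h]

theorem prob_ind_nonneg (P : Prop) : 0 ≤ ind P := by
  by_cases h : P
  · rw [prob_ind_true h]; exact zero_le_one
  · rw [prob_ind_false h]

end Scan

namespace Scan.Geom

open Finset

variable {Λ ι : Type} [DecidableEq Λ] [Fintype Λ] [Fintype ι] {G : Geom Λ ι}

/-- the time of a history: number of rounds already performed -/
def time (l : G.Lab) : ℕ := 2 * l.cs.length + (if l.fl then 1 else 0)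

theorem svalid_Ch (l : G.Lab) : (G.Ch l).SValid := by
  unfold Ch
  split_ifs
  · exact MTree.svalid_unifD _ _ _
  · trivial

theorem svalid_HT (d : G.Lab) (ρ : ℕ) : (G.HT d ρ).SValid := by
  induction ρ with
  | zero => exact MTree.svalid_unifD _ _ _
  | succ ρ ih => exact MTree.svalid_bind ih (MTree.all_of_forall svalid_Ch _)

/-- all histories of the tree before round `ρ` have time `ρ` -/
theorem all_time_HT (hW : G.WF) (d : G.Lab) (ρ : ℕ) : (G.HT d ρ).All fun l => time l = ρ := by
  have : Nonempty (Fin G.m) := ⟨⟨0, hW.m_pos⟩⟩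
  have : Nonempty (Fin G.Mn) := ⟨⟨0, hW.Mn_pos⟩⟩
  induction ρ with
  | zero =>
    apply MTree.all_unifD_of_nonempty
    intro r
    simp [time]
  | succ ρ ih =>
    refine MTree.all_bind ih ?_
    intro l hl
    unfold Ch
    unfold time at hl
    split_ifs with hfl
    · apply MTree.all_unifD_of_nonempty
      intro c
      rw [if_pos hfl] at hl
      simp only [time, List.length_cons]
      simp
      omega
    · rw [if_neg hfl] at hl
      show time _ = _
      simp only [time]
      simp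
      omega

theorem all_reach_HT (hW : G.WF) (d : G.Lab) {ρ : ℕ} (hρ : ρ ≤ 2 * (G.n * G.m)) :
    (G.HT d ρ).All G.Reach := by
  refine MTree.All.imp ?_ (all_time_HT hW d ρ)
  intro l hl
  unfold time at hl
  unfold Reach
  split_ifs at hl ⊢ <;> omega

/-- the offsets are uniform in every history tree -/
theorem E_HT_off (hW : G.WF) (d : G.Lab) (ρ : ℕ) (φ : (Fin G.K → Fin G.m) → ℝ) :
    (G.HT d ρ).E (fun l => φ l.off) = (∑ r, φ r) / (Fintype.card (Fin G.K → Fin G.m) : ℝ) := by
  have : Nonempty (Fin G.m) := ⟨⟨0, hW.m_pos⟩⟩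
  induction ρ with
  | zero =>
    show (MTree.unifD _ _ _).E _ = _
    rw [MTree.E_unifD]
  | succ ρ ih =>
    show ((G.HT d ρ).bind G.Ch).E _ = _
    rw [MTree.E_bind, ← ih]
    congr 1
    funext l
    have hall : (G.Ch l).All fun l' => φ l'.off = φ l.off := by
      unfold Ch
      split_ifs
      · exact MTree.all_unifD _ _ _ rfl fun _ => rfl
      · show φ _ = φ _
        rfl
    rw [MTree.E_congr_of_all hall, MTree.E_const]

/-- the positions `8 g m + r + c` (`r < m`) are pairwise distinct -/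
theorem prob_pos_inj {K m : ℕ} {p q : Fin K × Fin m}
    (h : 8 * ((p.1 : ℕ) : ℤ) * m + ((p.2 : ℕ) : ℤ) = 8 * ((q.1 : ℕ) : ℤ) * m + ((q.2 : ℕ) : ℤ)) :
    p = q := by
  have hp := p.2.2
  have hq := q.2.2
  have hp' : ((p.2 : ℕ) : ℤ) < m := by exact_mod_cast hp
  have hq' : ((q.2 : ℕ) : ℤ) < m := by exact_mod_cast hq
  have hp0 : (0 : ℤ) ≤ ((p.2 : ℕ) : ℤ) := Int.natCast_nonneg _
  have hq0 : (0 : ℤ) ≤ ((q.2 : ℕ) : ℤ) := Int.natCast_nonneg _
  have h1 : (p.1 : ℕ) = (q.1 : ℕ) := by
    rcases lt_trichotomy (p.1 : ℕ) (q.1 : ℕ) with hlt | heq | hlt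
    · exfalso
      have h2 : ((p.1 : ℕ) + 1) * m ≤ (q.1 : ℕ) * m := Nat.mul_le_mul_right _ hlt
      have h2' : (((p.1 : ℕ) : ℤ) + 1) * m ≤ ((q.1 : ℕ) : ℤ) * m := by exact_mod_cast h2
      nlinarith
    · exact heq
    · exfalso
      have h2 : ((q.1 : ℕ) + 1) * m ≤ (p.1 : ℕ) * m := Nat.mul_le_mul_right _ hlt
      have h2' : (((q.1 : ℕ) : ℤ) + 1) * m ≤ ((p.1 : ℕ) : ℤ) * m := by exact_mod_cast h2
      nlinarith
  have h3 : (p.2 : ℕ) = (q.2 : ℕ) := by
    rw [h1] at h
    have : ((p.2 : ℕ) : ℤ) = ((q.2 : ℕ) : ℤ) := by linarith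
    exact_mod_cast this
  exact Prod.ext (Fin.ext h1) (Fin.ext h3)

/-- at most `w` positions lie in a window of `w` rows -/
theorem prob_card_pos_le (K m : ℕ) (c lo : ℤ) (w : ℕ) :
    ((univ : Finset (Fin K × Fin m)).filter fun p =>
      lo ≤ 8 * ((p.1 : ℕ) : ℤ) * m + ((p.2 : ℕ) : ℤ) + c ∧
        8 * ((p.1 : ℕ) : ℤ) * m + ((p.2 : ℕ) : ℤ) + c < lo + w).card ≤ w := by
  have h := Finset.card_le_card_of_injOn
    (s := (univ : Finset (Fin K × Fin m)).filter fun p =>
      lo ≤ 8 * ((p.1 : ℕ) : ℤ) * m + ((p.2 : ℕ) : ℤ) + c ∧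
        8 * ((p.1 : ℕ) : ℤ) * m + ((p.2 : ℕ) : ℤ) + c < lo + w)
    (t := Finset.Ico lo (lo + w))
    (fun p => 8 * ((p.1 : ℕ) : ℤ) * m + ((p.2 : ℕ) : ℤ) + c)
    (by
      intro p hp
      rw [mem_coe, mem_filter] at hp
      rw [mem_coe, Finset.mem_Ico]
      exact hp.2)
    (by
      intro p _ q _ hpq
      apply prob_pos_inj
      simp only at hpq
      linarith)
  rw [Int.card_Ico] at h
  have : (lo + w - lo).toNat = w := by
    have : lo + w - lo = (w : ℤ) := by ring
    rw [this]
    exact Int.toNat_natCast w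
  rwa [this] at h

/-- a near position and a far position are never close to each other -/
theorem prob_pos_excl {K m D r0 qN qF : ℕ} (hsep : 100 * (D + r0 + 1) ≤ m) (hN : qN + 1 ≤ m)
    (hF : qF + 1 ≤ m) (a : ℤ) (p q : Fin K × Fin m)
    (h1 : a - D - 2 * r0 ≤ 8 * ((p.1 : ℕ) : ℤ) * m + ((p.2 : ℕ) : ℤ) + ((m : ℤ) + 1 + qN))
    (h2 : 8 * ((p.1 : ℕ) : ℤ) * m + ((p.2 : ℕ) : ℤ) + ((m : ℤ) + 1 + qN) <
      a - D - 2 * r0 + ((D + 3 * r0 + 1 : ℕ) : ℤ))
    (h3 : a - r0 ≤ 8 * ((q.1 : ℕ) : ℤ) * m + ((q.2 : ℕ) : ℤ) + (5 * (m : ℤ) - qF))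
    (h4 : 8 * ((q.1 : ℕ) : ℤ) * m + ((q.2 : ℕ) : ℤ) + (5 * (m : ℤ) - qF) <
      a - r0 + ((D + 3 * r0 + 1 : ℕ) : ℤ)) : False := by
  have hp' : ((p.2 : ℕ) : ℤ) < m := by exact_mod_cast p.2.2
  have hq' : ((q.2 : ℕ) : ℤ) < m := by exact_mod_cast q.2.2
  have hp0 : (0 : ℤ) ≤ ((p.2 : ℕ) : ℤ) := Int.natCast_nonneg _
  have hq0 : (0 : ℤ) ≤ ((q.2 : ℕ) : ℤ) := Int.natCast_nonneg _
  have hsep' : 100 * ((D : ℤ) + r0 + 1) ≤ m := by exact_mod_cast hsep
  have hN' : (qN : ℤ) + 1 ≤ m := by exact_mod_cast hN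
  have hF' : (qF : ℤ) + 1 ≤ m := by exact_mod_cast hF
  have hD0 : (0 : ℤ) ≤ (D : ℤ) := Int.natCast_nonneg _
  have hr0 : (0 : ℤ) ≤ (r0 : ℤ) := Int.natCast_nonneg _
  have hqN0 : (0 : ℤ) ≤ (qN : ℤ) := Int.natCast_nonneg _
  have hqF0 : (0 : ℤ) ≤ (qF : ℤ) := Int.natCast_nonneg _
  push_cast at h2 h4
  rcases le_or_gt (p.1 : ℕ) (q.1 : ℕ) with hle | hlt
  · have h5 : (p.1 : ℕ) * m ≤ (q.1 : ℕ) * m := Nat.mul_le_mul_right _ hle
    have h5' : ((p.1 : ℕ) : ℤ) * m ≤ ((q.1 : ℕ) : ℤ) * m := by exact_mod_cast h5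
    nlinarith
  · have h5 : ((q.1 : ℕ) + 1) * m ≤ (p.1 : ℕ) * m := Nat.mul_le_mul_right _ hlt
    have h5' : (((q.1 : ℕ) : ℤ) + 1) * m ≤ ((p.1 : ℕ) : ℤ) * m := by exact_mod_cast h5
    nlinarith

/-- in a history of time `ρ` the number of half double rounds is `(ρ + 1) / 2` -/
theorem prob_time_len {l : G.Lab} {ρ : ℕ} (hl : time l = ρ) :
    (if l.fl then l.cs.length + 1 else l.cs.length) = (ρ + 1) / 2 := by
  unfold time at hl
  split_ifs at hl ⊢ <;> omega

/-- Lemma 8.1 (3) for a history tree -/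
theorem dilution_HT (hW : G.WF) (d : G.Lab) {ρ : ℕ} (hρ : ρ ≤ 2 * (G.n * G.m)) (i : ι) :
    (G.HT d ρ).E (fun l => ind (G.Split l i)) ≤ ((G.D : ℝ) + 3 * G.r0 + 1) / G.m := by
  classical
  set a : ℤ := (G.dp (G.anc i) : ℤ) with ha
  set qN : ℕ := Side.nfill true ((ρ + 1) / 2) / G.n with hqN
  set qF : ℕ := Side.nfill false ((ρ + 1) / 2) / G.n with hqF
  have hqN1 : qN + 1 ≤ G.m := rows_le hW (by omega) true
  have hqF1 : qF + 1 ≤ G.m := rows_le hW (by omega) false
  let PN : Fin G.K × Fin G.m → Prop := fun p =>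
    a - G.D - 2 * G.r0 ≤ 8 * ((p.1 : ℕ) : ℤ) * G.m + ((p.2 : ℕ) : ℤ) + ((G.m : ℤ) + 1 + qN) ∧
      8 * ((p.1 : ℕ) : ℤ) * G.m + ((p.2 : ℕ) : ℤ) + ((G.m : ℤ) + 1 + qN) <
        a - G.D - 2 * G.r0 + ((G.D + 3 * G.r0 + 1 : ℕ) : ℤ)
  let PF : Fin G.K × Fin G.m → Prop := fun p =>
    a - G.r0 ≤ 8 * ((p.1 : ℕ) : ℤ) * G.m + ((p.2 : ℕ) : ℤ) + (5 * (G.m : ℤ) - qF) ∧
      8 * ((p.1 : ℕ) : ℤ) * G.m + ((p.2 : ℕ) : ℤ) + (5 * (G.m : ℤ) - qF) <
        a - G.r0 + ((G.D + 3 * G.r0 + 1 : ℕ) : ℤ)
  have hv := (svalid_HT d ρ).valid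
  have hm : (0 : ℝ) < G.m := by exact_mod_cast hW.m_pos
  -- pointwise bound
  have hpt : (G.HT d ρ).All fun l => ind (G.Split l i) ≤
      ∑ g, (ind (PN (g, l.off g)) + ind (PF (g, l.off g))) := by
    refine MTree.All.imp ?_ ((all_time_HT hW d ρ).and (all_reach_HT hW d hρ))
    rintro l ⟨hl, hr⟩
    have hterm : ∀ g, 0 ≤ ind (PN (g, l.off g)) + ind (PF (g, l.off g)) := fun g =>
      add_nonneg (prob_ind_nonneg _) (prob_ind_nonneg _)
    by_cases hs : G.Split l i
    · rw [prob_ind_true hs]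
      obtain ⟨g, hg⟩ := hs
      refine le_trans ?_ (Finset.single_le_sum (fun g _ => hterm g) (mem_univ g))
      have hlen := prob_time_len hl
      rcases hg with hg | hg
      · have hw := j2_windowN hW hr g hg
        have hj : G.jN l g = 8 * ((g : ℕ) : ℤ) * G.m + ((l.off g : ℕ) : ℤ) + ((G.m : ℤ) + 1 + qN) := by
          unfold jN Side.front Side.tfill j0N
          rw [hlen]
          simp only [nearSide]
          rw [← hqN]
          push_cast
          ring
        have : PN (g, l.off g) := by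
          simp only [PN]
          rw [← hj]
          push_cast
          constructor <;> omega
        rw [prob_ind_true this]
        linarith [prob_ind_nonneg (PF (g, l.off g))]
      · have hw := j2_windowF hW hr g hg
        have hj : G.jF l g =
            -(8 * ((g : ℕ) : ℤ) * G.m + ((l.off g : ℕ) : ℤ) + (5 * (G.m : ℤ) - qF)) := by
          unfold jF Side.front Side.tfill j0F
          rw [hlen]
          simp only [farSide]
          rw [← hqF]
          push_cast
          ring
        have : PF (g, l.off g) := by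
          simp only [PF]
          have hj' : 8 * ((g : ℕ) : ℤ) * G.m + ((l.off g : ℕ) : ℤ) + (5 * (G.m : ℤ) - qF) =
              -G.jF l g := by rw [hj]; ring
          rw [hj']
          push_cast
          constructor <;> omega
        rw [prob_ind_true this]
        linarith [prob_ind_nonneg (PN (g, l.off g))]
    · rw [prob_ind_false hs]
      exact Finset.sum_nonneg fun g _ => hterm g
  -- expectation of a function of one offset
  have hE : ∀ (P : Fin G.K × Fin G.m → Prop) (g : Fin G.K),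
      (G.HT d ρ).E (fun l => ind (P (g, l.off g))) = (∑ v, ind (P (g, v))) / G.m := by
    intro P g
    rw [E_HT_off hW d ρ (fun r => ind (P (g, r g))), MTree.sum_pi_coord g (fun v => ind (P (g, v)))]
    simp
  -- counting
  have hcount : ((univ.filter PN).card : ℝ) + ((univ.filter PF).card : ℝ) ≤
      (G.D : ℝ) + 3 * G.r0 + 1 := by
    have hcN : (univ.filter PN).card ≤ G.D + 3 * G.r0 + 1 := prob_card_pos_le _ _ _ _ _
    have hcF : (univ.filter PF).card ≤ G.D + 3 * G.r0 + 1 := prob_card_pos_le _ _ _ _ _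
    have hor : (univ.filter PN).card = 0 ∨ (univ.filter PF).card = 0 := by
      by_contra hcon
      push Not at hcon
      obtain ⟨p, hp⟩ := Finset.card_pos.1 (Nat.pos_of_ne_zero hcon.1)
      obtain ⟨q, hq⟩ := Finset.card_pos.1 (Nat.pos_of_ne_zero hcon.2)
      rw [mem_filter] at hp hq
      exact prob_pos_excl hW.sep hqN1 hqF1 a p q hp.2.1 hp.2.2 hq.2.1 hq.2.2
    have : (univ.filter PN).card + (univ.filter PF).card ≤ G.D + 3 * G.r0 + 1 := by
      rcases hor with h | h <;> omega
    exact_mod_cast this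
  calc (G.HT d ρ).E (fun l => ind (G.Split l i))
      ≤ (G.HT d ρ).E (fun l => ∑ g, (ind (PN (g, l.off g)) + ind (PF (g, l.off g)))) :=
        MTree.E_le_E_of_all hv hpt
    _ = ∑ g, ((∑ v, ind (PN (g, v))) / G.m + (∑ v, ind (PF (g, v))) / G.m) := by
        rw [MTree.E_finset_sum]
        apply Finset.sum_congr rfl
        intro g _
        rw [MTree.E_add, hE PN g, hE PF g]
    _ = ((∑ p, ind (PN p)) + ∑ p, ind (PF p)) / G.m := by
        rw [Fintype.sum_prod_type, Fintype.sum_prod_type, ← Finset.sum_add_distrib, Finset.sum_div]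
        apply Finset.sum_congr rfl
        intro g _
        rw [add_div]
    _ = (((univ.filter PN).card : ℝ) + ((univ.filter PF).card : ℝ)) / G.m := by
        rw [j2_sum_ind, j2_sum_ind]
    _ ≤ _ := by gcongr

/-- Lemma 8.1 (3): dilution by the initial offsets, for every common interpolation parameter -/
theorem dilution (hW : G.WF) (d : G.Lab) {ρ : ℕ} (hρ : ρ < 2 * (G.n * G.m)) {p : ℝ} (h0 : 0 ≤ p)
    (h1 : p ≤ 1) (i : ι) :
    (G.TT d ρ p).E (fun l => ind (G.Split l i)) ≤ ((G.D : ℝ) + 3 * G.r0 + 1) / G.m := by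
  unfold TT
  rw [MTree.E_interp]
  have a1 := dilution_HT hW d (ρ := ρ) hρ.le i
  have a2 : ((G.HT d ρ).bind G.Ch).E (fun l => ind (G.Split l i)) ≤
      ((G.D : ℝ) + 3 * G.r0 + 1) / G.m := dilution_HT hW d (ρ := ρ + 1) hρ i
  have h1' : 0 ≤ 1 - p := by linarith
  nlinarith [mul_le_mul_of_nonneg_left a1 h1', mul_le_mul_of_nonneg_left a2 h0]

/-- strengthened form of `Side.good_charge`: the slot is the list position of the term -/
theorem prob_good_charge {S : Side Λ ι} (hW : S.WF) (hr : 2 * S.r0 ≤ S.D) {j0 : ℤ} {par : Bool}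
    {cs : List (Option ℕ)} (hZ : S.InZone j0 par (cs.length + 1)) {i : ι}
    (hg : S.Good (S.front j0 (Side.nfill par (cs.length + 1))) (S.runF j0 par cs))
    (hs : S.Splits i (S.runF j0 par cs)) :
    ∃ a, a < S.Mn ∧ S.lst (S.front j0 (Side.nfill par (cs.length + 1))) a = some i ∧
      S.chargeStep j0 par cs.length (some a) (S.runF j0 par cs) = S.runF j0 par cs ∪ S.ball i := by
  have hw := Side.splits_window hW hZ true (i := i) (by simpa [Side.runB] using hs)
  simp only [Side.tfill, if_true] at hw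
  obtain ⟨⟨y, hy⟩, _⟩ := hs
  have hy' := mem_inter.1 hy
  have h1 := hg y hy'.2
  have h2 := hW.ball_lam i y hy'.1
  have hup : S.la i ≤ S.front j0 (Side.nfill par (cs.length + 1)) + S.D := by omega
  obtain ⟨a, ha, hl⟩ := hW.lst_surj _ i (hZ.lo_le _) (hZ.of_succ.front_le le_rfl) hw.1 hup
  refine ⟨a, ha, hl, ?_⟩
  unfold Side.chargeStep
  simp only [hl]
  rw [if_pos ⟨y, hy⟩]

/-- on a good state the split terms are sampled by pairwise different list slots -/
theorem prob_side_gain {S : Side Λ ι} (hW : S.WF) (hr : 2 * S.r0 ≤ S.D) {j0 : ℤ} {par : Bool}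
    {cs : List (Option ℕ)} (hZ : S.InZone j0 par (cs.length + 1))
    (hg : S.Good (S.front j0 (Side.nfill par (cs.length + 1))) (S.runF j0 par cs))
    (φ : Finset Λ → ℝ) (hφ : ∀ x, 0 ≤ φ x) :
    ∑ i, ind (S.Splits i (S.runF j0 par cs)) * φ (S.ball i \ S.runF j0 par cs) ≤
      ∑ a ∈ range S.Mn,
        φ (S.chargeStep j0 par cs.length (some a) (S.runF j0 par cs) \ S.runF j0 par cs) := by
  classical
  set A := S.runF j0 par cs with hA
  have h : ∀ i ∈ univ.filter (fun i => S.Splits i A), ∃ a, a < S.Mn ∧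
      S.lst (S.front j0 (Side.nfill par (cs.length + 1))) a = some i ∧
      S.chargeStep j0 par cs.length (some a) A = A ∪ S.ball i := fun i hi =>
    prob_good_charge hW hr hZ hg (mem_filter.1 hi).2
  choose! f hf using h
  calc ∑ i, ind (S.Splits i A) * φ (S.ball i \ A)
      = ∑ i ∈ univ.filter (fun i => S.Splits i A), φ (S.ball i \ A) := by
        rw [Finset.sum_filter]
        apply Finset.sum_congr rfl
        intro i _
        by_cases hs : S.Splits i A
        · rw [prob_ind_true hs, if_pos hs, one_mul]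
        · rw [prob_ind_false hs, if_neg hs, zero_mul]
    _ = ∑ i ∈ univ.filter (fun i => S.Splits i A),
          φ (S.chargeStep j0 par cs.length (some (f i)) A \ A) := by
        apply Finset.sum_congr rfl
        intro i hi
        rw [(hf i hi).2.2, union_sdiff_left]
    _ = ∑ a ∈ (univ.filter (fun i => S.Splits i A)).image f,
          φ (S.chargeStep j0 par cs.length (some a) A \ A) := by
        rw [Finset.sum_image]
        intro i hi i' hi' hii
        have a1 := (hf i hi).2.1
        have a2 := (hf i' hi').2.1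
        rw [hii, a2] at a1
        exact (Option.some.inj a1).symm
    _ ≤ _ := by
        apply Finset.sum_le_sum_of_subset_of_nonneg
        · intro a ha
          obtain ⟨i, hi, rfl⟩ := mem_image.1 ha
          exact mem_range.2 (hf i hi).1
        · exact fun _ _ _ => hφ _

/-- Lemma 8.1 (4), availability: at a charge round on a good old history every split term is sampled
on its splitting side with probability `1 / (2 Mn)`, and the move is the unassigned part of its
ball.  `φ` is an arbitrary nonnegative function of (band, side, moved set). -/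
theorem gain_good (hW : G.WF) {l : G.Lab} (hl : G.Reach l) (hfl : l.fl = true) (hg : G.GoodL l)
    (φ : Fin G.K → Bool → Finset Λ → ℝ) (hφ : ∀ g s x, 0 ≤ φ g s x) :
    (2 * (G.Mn : ℝ))⁻¹ * ∑ i, ∑ g, (ind (G.SplitN l g i) * φ g true (G.ball i \ G.near l g) +
        ind (G.SplitF l g i) * φ g false (G.ball i \ G.far l g)) ≤
      ∑ g, (G.Ch l).E fun l' =>
        φ g true (G.near l' g \ G.near l g) + φ g false (G.far l' g \ G.far l g) := by
  classical
  have : Nonempty (Fin G.Mn) := ⟨⟨0, hW.Mn_pos⟩⟩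
  have hM : (0 : ℝ) < G.Mn := by exact_mod_cast hW.Mn_pos
  rw [Finset.sum_comm, Finset.mul_sum]
  apply Finset.sum_le_sum
  intro g _
  -- the two sides
  have hnear : G.near l g = G.nearSide.runF (G.j0N g (l.off g)) true (G.sideCs g true l.cs) := by
    simp [near, Side.runB, hfl]
  have hfar : G.far l g = G.farSide.runF (G.j0F g (l.off g)) false (G.sideCs g false l.cs) := by
    simp [far, Side.runB, hfl]
  have hZN := inZoneN hW g (l.off g) (reach_len hl)
  have hZF := inZoneF hW g (l.off g) (reach_len hl)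
  rw [← sideCs_length G g true l.cs] at hZN
  rw [← sideCs_length G g false l.cs] at hZF
  have hgN : G.nearSide.Good (G.nearSide.front (G.j0N g (l.off g))
      (Side.nfill true ((G.sideCs g true l.cs).length + 1)))
      (G.nearSide.runF (G.j0N g (l.off g)) true (G.sideCs g true l.cs)) := by
    have := (hg g).1
    rw [hnear] at this
    simpa [jN, Side.tfill, hfl, sideCs_length] using this
  have hgF : G.farSide.Good (G.farSide.front (G.j0F g (l.off g))
      (Side.nfill false ((G.sideCs g false l.cs).length + 1)))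
      (G.farSide.runF (G.j0F g (l.off g)) false (G.sideCs g false l.cs)) := by
    have := (hg g).2
    rw [hfar] at this
    simpa [jF, Side.tfill, hfl, sideCs_length] using this
  have gN := prob_side_gain (nearSide_wf hW) hW.r0_le hZN hgN (φ g true) (hφ g true)
  have gF := prob_side_gain (farSide_wf hW) hW.r0_le hZF hgF (φ g false) (hφ g false)
  rw [sideCs_length, ← hnear] at gN
  rw [sideCs_length, ← hfar] at gF
  -- the expectation
  let Φ : Bool × Fin G.Mn → ℝ := fun v =>
    φ g true (G.nearSide.chargeStep (G.j0N g (l.off g)) true l.cs.length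
      (if v.1 = true then some (v.2 : ℕ) else none) (G.near l g) \ G.near l g) +
    φ g false (G.farSide.chargeStep (G.j0F g (l.off g)) false l.cs.length
      (if v.1 = false then some (v.2 : ℕ) else none) (G.far l g) \ G.far l g)
  have hE : ((G.Ch l).E fun l' =>
      φ g true (G.near l' g \ G.near l g) + φ g false (G.far l' g \ G.far l g)) =
      (∑ c : Fin G.K → Bool × Fin G.Mn, Φ (c g)) /
        (Fintype.card (Fin G.K → Bool × Fin G.Mn) : ℝ) := by
    unfold Ch
    rw [if_pos hfl, MTree.E_unifD]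
    congr 1
    apply Finset.sum_congr rfl
    intro c _
    have e1 : G.near ⟨l.off, c :: l.cs, false⟩ g =
        G.nearSide.chargeStep (G.j0N g (l.off g)) true l.cs.length
          (if (c g).1 = true then some ((c g).2 : ℕ) else none) (G.near l g) := by
      rw [hnear]
      simp only [near, Side.runB, sideCs, List.map_cons, Side.run, List.length_map, Side.runF]
      simp
    have e2 : G.far ⟨l.off, c :: l.cs, false⟩ g =
        G.farSide.chargeStep (G.j0F g (l.off g)) false l.cs.length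
          (if (c g).1 = false then some ((c g).2 : ℕ) else none) (G.far l g) := by
      rw [hfar]
      simp only [far, Side.runB, sideCs, List.map_cons, Side.run, List.length_map, Side.runF]
      simp
    rw [e1, e2]
  rw [hE, MTree.sum_pi_coord g Φ]
  have hcard : (Fintype.card (Bool × Fin G.Mn) : ℝ) = 2 * G.Mn := by simp
  rw [hcard, div_eq_inv_mul]
  apply mul_le_mul_of_nonneg_left _ (by positivity)
  rw [Finset.sum_add_distrib, Fintype.sum_prod_type, Fintype.sum_bool]
  have sN : ∑ a ∈ range G.Mn, φ g true (G.nearSide.chargeStep (G.j0N g (l.off g)) true l.cs.length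
      (some a) (G.near l g) \ G.near l g) ≤ ∑ a : Fin G.Mn, Φ (true, a) := by
    rw [← Fin.sum_univ_eq_sum_range (fun a => φ g true (G.nearSide.chargeStep (G.j0N g (l.off g))
      true l.cs.length (some a) (G.near l g) \ G.near l g)) G.Mn]
    apply Finset.sum_le_sum
    intro a _
    simp only [Φ, if_true]
    linarith [hφ g false (G.farSide.chargeStep (G.j0F g (l.off g)) false l.cs.length
      (if true = false then some (a : ℕ) else none) (G.far l g) \ G.far l g)]
  have sF : ∑ a ∈ range G.Mn, φ g false (G.farSide.chargeStep (G.j0F g (l.off g)) false l.cs.length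
      (some a) (G.far l g) \ G.far l g) ≤ ∑ a : Fin G.Mn, Φ (false, a) := by
    rw [← Fin.sum_univ_eq_sum_range (fun a => φ g false (G.farSide.chargeStep (G.j0F g (l.off g))
      false l.cs.length (some a) (G.far l g) \ G.far l g)) G.Mn]
    apply Finset.sum_le_sum
    intro a _
    simp only [Φ, if_true]
    linarith [hφ g true (G.nearSide.chargeStep (G.j0N g (l.off g)) true l.cs.length
      (if false = true then some (a : ℕ) else none) (G.near l g) \ G.near l g)]
  have gN' : ∑ i, ind (G.SplitN l g i) * φ g true (G.ball i \ G.near l g) ≤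
      ∑ a ∈ range G.Mn, φ g true (G.nearSide.chargeStep (G.j0N g (l.off g)) true l.cs.length
        (some a) (G.near l g) \ G.near l g) := gN
  have gF' : ∑ i, ind (G.SplitF l g i) * φ g false (G.ball i \ G.far l g) ≤
      ∑ a ∈ range G.Mn, φ g false (G.farSide.chargeStep (G.j0F g (l.off g)) false l.cs.length
        (some a) (G.far l g) \ G.far l g) := gF
  linarith

end Scan.Geom

end Claimed.Agent.R296
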