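import Claimed.Agent.R296.Scan.Defs

/-!
# Row 296, P1 Section 8: deterministic invariants of one side of the scan
(package S8-B: monotonicity, everything behind the front is assigned, the lead is at most `D + r0`,
window of the split terms, availability of the split terms on good states)
-/

set_option autoImplicit false

namespace Claimed.Agent.R296.Scan.Side

open Finset

variable {Λ ι : Type} [DecidableEq Λ]

theorem nfill_succ_of_eq {par : Bool} {f : ℕ} (h : (f % 2 == 0) = par) :
    nfill par (f + 1) = nfill par f + 1 := by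
  cases par <;> simp only [nfill, beq_iff_eq, beq_eq_false_iff_ne, ne_eq] at * <;> simp <;> omega

theorem nfill_succ_of_ne {par : Bool} {f : ℕ} (h : ¬ (f % 2 == 0) = par) :
    nfill par (f + 1) = nfill par f := by
  cases par <;> simp only [nfill, beq_iff_eq, beq_eq_false_iff_ne, ne_eq, not_not] at * <;> simp <;> omega

theorem nfill_mono (par : Bool) {f f' : ℕ} (h : f ≤ f') : nfill par f ≤ nfill par f' := by
  cases par <;> simp [nfill] <;> omega

theorem two_nfill_le (par : Bool) (f : ℕ) : 2 * nfill par f ≤ f + 1 := by
  cases par <;> simp [nfill] <;> omega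

theorem le_two_nfill (par : Bool) (f : ℕ) : f ≤ 2 * nfill par f + 1 := by
  cases par <;> simp [nfill] <;> omega

theorem front_mono (S : Side Λ ι) (j0 : ℤ) {t t' : ℕ} (h : t ≤ t') : S.front j0 t ≤ S.front j0 t' := by
  unfold front
  have : t / S.n ≤ t' / S.n := Nat.div_le_div_right h
  omega

theorem le_front (S : Side Λ ι) (j0 : ℤ) (t : ℕ) : j0 ≤ S.front j0 t := by
  unfold front
  have : (0:ℤ) ≤ ((t / S.n : ℕ) : ℤ) := Int.natCast_nonneg _
  omega

theorem subset_fillStep (S : Side Λ ι) (j0 : ℤ) (par : Bool) (f : ℕ) (A : Finset Λ) :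
    A ⊆ S.fillStep j0 par f A := by
  unfold fillStep
  split_ifs
  · split
    · exact subset_insert _ _
    · exact Subset.refl _
  · exact Subset.refl _

theorem subset_chargeStep (S : Side Λ ι) (j0 : ℤ) (par : Bool) (f : ℕ) (c : Option ℕ)
    (A : Finset Λ) : A ⊆ S.chargeStep j0 par f c A := by
  unfold chargeStep
  split
  · exact Subset.refl _
  · split
    · split_ifs
      · exact subset_union_left
      · exact Subset.refl _
    · exact Subset.refl _

variable [Fintype Λ]

theorem run_subset_runF (S : Side Λ ι) (j0 : ℤ) (par : Bool) (cs : List (Option ℕ)) :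
    S.run j0 par cs ⊆ S.runF j0 par cs := subset_fillStep _ _ _ _ _

theorem runF_subset_run_cons (S : Side Λ ι) (j0 : ℤ) (par : Bool) (c : Option ℕ)
    (cs : List (Option ℕ)) : S.runF j0 par cs ⊆ S.run j0 par (c :: cs) :=
  subset_chargeStep _ _ _ _ _ _

theorem InZone.of_succ {S : Side Λ ι} {j0 : ℤ} {par : Bool} {len : ℕ}
    (h : S.InZone j0 par (len + 1)) : S.InZone j0 par len :=
  ⟨h.1, le_trans (front_mono S j0 (nfill_mono par (by omega))) h.2⟩

theorem InZone.front_le {S : Side Λ ι} {j0 : ℤ} {par : Bool} {len : ℕ}
    (h : S.InZone j0 par len) {t : ℕ} (ht : t ≤ nfill par (len + 1)) : S.front j0 t ≤ S.hi :=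
  le_trans (front_mono S j0 ht) h.2

theorem InZone.lo_le {S : Side Λ ι} {j0 : ℤ} {par : Bool} {len : ℕ}
    (h : S.InZone j0 par len) (t : ℕ) : S.lo ≤ S.front j0 t := by
  have := h.1
  have := le_front S j0 t
  omega

/-- every slot already consumed by the schedule is assigned -/
theorem slot_mem_run (S : Side Λ ι) (j0 : ℤ) (par : Bool) (cs : List (Option ℕ)) {t : ℕ}
    (ht : t < nfill par cs.length) {x : Λ} (hx : S.slot (S.front j0 t) (t % S.n) = some x) :
    x ∈ S.run j0 par cs := by
  induction cs with
  | nil =>
    exfalso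
    cases par <;> simp [nfill] at ht
  | cons c cs ih =>
    apply runF_subset_run_cons
    by_cases hlt : t < nfill par cs.length
    · exact run_subset_runF _ _ _ _ (ih hlt)
    · simp only [List.length_cons] at ht
      by_cases hp : (cs.length % 2 == 0) = par
      · rw [nfill_succ_of_eq hp] at ht
        have hte : t = nfill par cs.length := by omega
        unfold runF fillStep
        rw [if_pos hp, ← hte, hx]
        exact mem_insert_self _ _
      · rw [nfill_succ_of_ne hp] at ht
        exact absurd ht hlt

theorem slot_mem_runF (S : Side Λ ι) (j0 : ℤ) (par : Bool) (cs : List (Option ℕ)) {t : ℕ}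
    (ht : t < nfill par (cs.length + 1)) {x : Λ}
    (hx : S.slot (S.front j0 t) (t % S.n) = some x) : x ∈ S.runF j0 par cs := by
  have h := slot_mem_run S j0 par (none :: cs) (t := t) (by simpa using ht) hx
  simpa [run, chargeStep, runF] using h

theorem start_subset_run (S : Side Λ ι) (j0 : ℤ) (par : Bool) (cs : List (Option ℕ)) :
    S.start j0 ⊆ S.run j0 par cs := by
  induction cs with
  | nil => exact Subset.refl _
  | cons c cs ih =>
    exact ih.trans ((run_subset_runF _ _ _ _).trans (runF_subset_run_cons _ _ _ _ _))

variable [Fintype ι]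

/-- everything strictly behind the nominal front is assigned -/
theorem behind_mem_run {S : Side Λ ι} (hW : S.WF) {j0 : ℤ} {par : Bool} {cs : List (Option ℕ)}
    (hZ : S.InZone j0 par cs.length) {x : Λ}
    (hx : S.lam x < S.front j0 (nfill par cs.length)) : x ∈ S.run j0 par cs := by
  by_cases h0 : S.lam x < j0
  · exact start_subset_run _ _ _ _ (by simp [start, h0])
  · push_neg at h0
    have hn := hW.n_pos
    obtain ⟨e, he⟩ : ∃ e : ℕ, S.lam x = j0 + e := ⟨(S.lam x - j0).toNat, by omega⟩
    have hlt : e < nfill par cs.length / S.n := by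
      unfold front at hx; omega
    have hhi : S.lam x ≤ S.hi := by
      have := hZ.front_le (t := nfill par cs.length) (nfill_mono par (by omega))
      omega
    have hlo : S.lo ≤ S.lam x := by have := hZ.1; omega
    obtain ⟨c, hc, hs⟩ := hW.slot_surj (S.lam x) x hlo hhi rfl
    have hdiv : (e * S.n + c) / S.n = e := by
      rw [Nat.add_comm, Nat.add_mul_div_right _ _ hn, Nat.div_eq_of_lt hc]; simp
    have hmod : (e * S.n + c) % S.n = c := by
      rw [Nat.add_comm, Nat.add_mul_mod_self_right, Nat.mod_eq_of_lt hc]
    apply slot_mem_run S j0 par cs (t := e * S.n + c)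
    · have h1 : (e + 1) * S.n ≤ nfill par cs.length :=
        (Nat.le_div_iff_mul_le hn).1 hlt
      nlinarith
    · rw [hmod]
      unfold front
      rw [hdiv, ← he]
      exact hs

theorem behind_mem_runF {S : Side Λ ι} (hW : S.WF) {j0 : ℤ} {par : Bool} {cs : List (Option ℕ)}
    (hZ : S.InZone j0 par (cs.length + 1)) {x : Λ}
    (hx : S.lam x < S.front j0 (nfill par (cs.length + 1))) : x ∈ S.runF j0 par cs := by
  have h := behind_mem_run hW (cs := none :: cs) (by simpa using hZ) (x := x) (by simpa using hx)
  simpa [run, chargeStep, runF] using h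

/-- the lead of the assigned set is at most `D + r0` -/
theorem lam_le_of_mem_run {S : Side Λ ι} (hW : S.WF) {j0 : ℤ} {par : Bool}
    {cs : List (Option ℕ)} (hZ : S.InZone j0 par cs.length) {x : Λ}
    (hx : x ∈ S.run j0 par cs) :
    S.lam x ≤ S.front j0 (nfill par cs.length) + S.D + S.r0 := by
  induction cs generalizing x with
  | nil =>
    simp only [run, start, mem_filter, mem_univ, true_and] at hx
    have := le_front S j0 (nfill par ([] : List (Option ℕ)).length)
    omega
  | cons c cs ih =>
    have hZ' : S.InZone j0 par cs.length := InZone.of_succ (by simpa using hZ)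
    have hmono : S.front j0 (nfill par cs.length) ≤ S.front j0 (nfill par (cs.length + 1)) :=
      front_mono S j0 (nfill_mono par (by omega))
    -- the fill step
    have hF : ∀ y ∈ S.runF j0 par cs,
        S.lam y ≤ S.front j0 (nfill par (cs.length + 1)) + S.D + S.r0 := by
      intro y hy
      unfold runF fillStep at hy
      split_ifs at hy with hp
      · split at hy
        · rename_i z hz
          rcases mem_insert.1 hy with rfl | hy
          · have := hW.slot_some _ _ _ (hZ'.lo_le _)
              (hZ'.front_le (nfill_mono par (by omega))) hz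
            omega
          · have := ih hZ' hy; omega
        · have := ih hZ' hy; omega
      · have := ih hZ' hy; omega
    simp only [List.length_cons]
    change x ∈ S.chargeStep j0 par cs.length c (S.runF j0 par cs) at hx
    unfold chargeStep at hx
    split at hx
    · exact hF x hx
    · split at hx
      · rename_i a i hi
        split_ifs at hx
        · rcases mem_union.1 hx with hx | hx
          · exact hF x hx
          · have h1 := hW.lst_some _ _ _ (hZ'.lo_le _) (hZ'.front_le le_rfl) hi
            have h2 := hW.ball_lam i x hx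
            omega
        · exact hF x hx
      · exact hF x hx

theorem lam_le_of_mem_runF {S : Side Λ ι} (hW : S.WF) {j0 : ℤ} {par : Bool}
    {cs : List (Option ℕ)} (hZ : S.InZone j0 par (cs.length + 1)) {x : Λ}
    (hx : x ∈ S.runF j0 par cs) :
    S.lam x ≤ S.front j0 (nfill par (cs.length + 1)) + S.D + S.r0 := by
  have h := lam_le_of_mem_run hW (cs := none :: cs) (by simpa using hZ) (x := x)
    (by simpa [run, chargeStep, runF] using hx)
  simpa using h

/-- unified form: everything behind the front is assigned -/
theorem behind_mem_runB {S : Side Λ ι} (hW : S.WF) {j0 : ℤ} {par : Bool} {cs : List (Option ℕ)}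
    (hZ : S.InZone j0 par (cs.length + 1)) (fl : Bool) {x : Λ}
    (hx : S.lam x < S.front j0 (tfill par cs.length fl)) : x ∈ S.runB j0 par cs fl := by
  cases fl
  · exact behind_mem_run hW hZ.of_succ (by simpa [tfill] using hx)
  · exact behind_mem_runF hW hZ (by simpa [tfill] using hx)

/-- unified form: the lead is at most `D + r0` -/
theorem lam_le_of_mem_runB {S : Side Λ ι} (hW : S.WF) {j0 : ℤ} {par : Bool}
    {cs : List (Option ℕ)} (hZ : S.InZone j0 par (cs.length + 1)) (fl : Bool) {x : Λ}
    (hx : x ∈ S.runB j0 par cs fl) :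
    S.lam x ≤ S.front j0 (tfill par cs.length fl) + S.D + S.r0 := by
  cases fl
  · simpa [tfill] using lam_le_of_mem_run hW hZ.of_succ (by simpa [runB] using hx)
  · simpa [tfill] using lam_le_of_mem_runF hW hZ (by simpa [runB] using hx)

/-- a split term has its anchor in a window of `D + 3 r0 + 1` rows around the front -/
theorem splits_window {S : Side Λ ι} (hW : S.WF) {j0 : ℤ} {par : Bool} {cs : List (Option ℕ)}
    (hZ : S.InZone j0 par (cs.length + 1)) (fl : Bool) {i : ι}
    (h : S.Splits i (S.runB j0 par cs fl)) :
    S.front j0 (tfill par cs.length fl) - S.r0 ≤ S.la i ∧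
      S.la i ≤ S.front j0 (tfill par cs.length fl) + S.D + 2 * S.r0 := by
  obtain ⟨⟨y, hy⟩, hns⟩ := h
  obtain ⟨x, hxb, hxA⟩ := not_subset.1 hns
  rw [mem_inter] at hy
  constructor
  · have h1 : ¬ S.lam x < S.front j0 (tfill par cs.length fl) :=
      fun hlt => hxA (behind_mem_runB hW hZ fl hlt)
    have h2 := hW.ball_lam i x hxb
    omega
  · have h1 := lam_le_of_mem_runB hW hZ fl hy.2
    have h2 := hW.ball_lam i y hy.1
    omega

/-- on a good state every split term is in the look-ahead list, and sampling it moves its ball -/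
theorem good_charge {S : Side Λ ι} (hW : S.WF) (hr : 2 * S.r0 ≤ S.D) {j0 : ℤ} {par : Bool}
    {cs : List (Option ℕ)} (hZ : S.InZone j0 par (cs.length + 1)) {i : ι}
    (hg : S.Good (S.front j0 (nfill par (cs.length + 1))) (S.runF j0 par cs))
    (hs : S.Splits i (S.runF j0 par cs)) :
    ∃ a, a < S.Mn ∧
      S.chargeStep j0 par cs.length (some a) (S.runF j0 par cs) = S.runF j0 par cs ∪ S.ball i := by
  have hw := splits_window hW hZ true (i := i) (by simpa [runB] using hs)
  simp only [tfill, if_true] at hw
  obtain ⟨⟨y, hy⟩, _⟩ := hs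
  have hy' := mem_inter.1 hy
  have h1 := hg y hy'.2
  have h2 := hW.ball_lam i y hy'.1
  have hup : S.la i ≤ S.front j0 (nfill par (cs.length + 1)) + S.D := by omega
  obtain ⟨a, ha, hl⟩ := hW.lst_surj _ i (hZ.lo_le _) (hZ.of_succ.front_le le_rfl) hw.1 hup
  refine ⟨a, ha, ?_⟩
  unfold chargeStep
  simp only [hl]
  rw [if_pos ⟨y, hy⟩]

end Claimed.Agent.R296.Scan.Side
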