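import Claimed.Agent.R296.Scan.TplPhys

/-!
# Row 296, paper 1, Section 8: entropy inputs of the scanner from safe boxes (Lemma 8.4 (b))

`σ P = S_Ω(A ∩ P)` is treated as an abstract submodular set function on finite subsets of `ℤ²`
(`BxSub σ` of `BoxAbs.lean`).  Since `σ ≥ 0`, submodularity gives subadditivity for *overlapping*
unions, so no dyadic covering is needed:

* `te_template_le` : `σ (T_j) ≤ Cb n^(1+e)` for a separated template, `j ≤ s0`;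
* `te_shell_le`    : `σ (Q^{+j} \ Q) ≤ 16 Cb size(Q) L^e` for a safe rectangle, `j ≤ L ≤ size(Q)/2`
  (four strips cut into pieces of length `L`).
Prefix `te_`.
-/

set_option autoImplicit false

namespace Claimed.Agent.R296.Scan

open Matrix Claims.C0473 Finset

/-- the safe-box bound for a fixed set function -/
def BoxHyp (σ : Finset (ℤ × ℤ) → ℝ) (D0 : ℕ) (Z : Finset (ℤ × ℤ)) (e Cb : ℝ) : Prop :=
  ∀ Q : BxRect, SafeRect D0 Z Q → 1 ≤ Q.size → σ Q.fs ≤ Cb * (Q.size : ℝ) ^ (1 + e)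

section Abstract

variable {σ : Finset (ℤ × ℤ) → ℝ} {Z T : Finset (ℤ × ℤ)} {D0 : ℕ} {e Cb : ℝ}

/-- a rectangle (possibly empty) of size at most `r` inside a safe zone -/
theorem te_box_le (hσ : BxSub σ) (hCb : 0 ≤ Cb) (he : 0 ≤ e) (hbox : BoxHyp σ D0 Z e Cb)
    (Q : BxRect) (r : ℕ) (hr : Q.size ≤ r)
    (hsafe : ∀ x ∈ Q.fs, ∀ z ∈ Z, (D0 : ℤ) * r < dInf x z) :
    σ Q.fs ≤ Cb * (r : ℝ) ^ (1 + e) := by
  by_cases hne : Q.a₁ < Q.b₁ ∧ Q.a₂ < Q.b₂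
  · obtain ⟨h1, h2⟩ := hne
    have hs1 : 1 ≤ Q.size := le_max_of_le_left (by omega)
    have hsafe' : SafeRect D0 Z Q := by
      intro x hx z hz
      have h3 := hsafe x hx z hz
      have hD : (0 : ℤ) ≤ D0 := Int.natCast_nonneg _
      have h4 := mul_le_mul_of_nonneg_left hr hD
      linarith
    refine (hbox Q hsafe' hs1).trans ?_
    apply mul_le_mul_of_nonneg_left _ hCb
    apply Real.rpow_le_rpow
    · exact_mod_cast (by omega : (0 : ℤ) ≤ Q.size)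
    · exact_mod_cast hr
    · linarith
  · have hemp : Q.fs = ∅ := by
      rw [Finset.eq_empty_iff_forall_notMem]
      intro x hx
      rw [BxRect.mem_fs] at hx
      apply hne
      constructor <;> omega
    rw [hemp, hσ.empty]
    positivity

/-- cutting an interval into `M` pieces of length `L` -/
theorem te_cut {a b t : ℤ} {L M : ℕ} (hL : 1 ≤ L) (hlen : b - a ≤ (M * L : ℕ)) :
    (a ≤ t ∧ t < b) ↔ ∃ i ∈ range M, a + (i : ℤ) * L ≤ t ∧ t < min (a + ((i : ℤ) + 1) * L) b := by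
  have hLz : (0 : ℤ) < L := by exact_mod_cast hL
  constructor
  · rintro ⟨h1, h2⟩
    have hq : 0 ≤ (t - a) / L := Int.ediv_nonneg (by omega) hLz.le
    obtain ⟨k1, k2⟩ := (bx_ediv_eq_iff (t := t - a) (i := (t - a) / L) hLz).mp rfl
    refine ⟨((t - a) / L).toNat, ?_, ?_, ?_⟩
    · rw [mem_range]
      have h3 : (t - a) / L < M := by
        rw [Int.ediv_lt_iff_lt_mul hLz]
        push_cast at hlen
        omega
      omega
    · rw [Int.toNat_of_nonneg hq]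
      linarith
    · rw [Int.toNat_of_nonneg hq]
      exact lt_min (by linarith) h2
  · rintro ⟨i, _, h1, h2⟩
    have h3 : (0 : ℤ) ≤ (i : ℤ) * L := by positivity
    exact ⟨by linarith, h2.trans_le (min_le_right _ _)⟩

/-- a strip `Q` of width at most `L` (in one of the two directions) and length at most `M L` -/
theorem te_strip_le (hσ : BxSub σ) (hCb : 0 ≤ Cb) (he : 0 ≤ e) (hbox : BoxHyp σ D0 Z e Cb)
    (Q : BxRect) (L M : ℕ) (hL : 1 ≤ L)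
    (hw : Q.b₁ - Q.a₁ ≤ L ∨ Q.b₂ - Q.a₂ ≤ L) (hlen : Q.size ≤ (M * L : ℕ))
    (hsafe : ∀ x ∈ Q.fs, ∀ z ∈ Z, (D0 : ℤ) * L < dInf x z) :
    σ Q.fs ≤ M * (Cb * (L : ℝ) ^ (1 + e)) := by
  have l1 : Q.b₁ - Q.a₁ ≤ (M * L : ℕ) := (le_max_left _ _).trans hlen
  have l2 : Q.b₂ - Q.a₂ ≤ (M * L : ℕ) := (le_max_right _ _).trans hlen
  have key : ∀ P : ℕ → BxRect, Q.fs = (range M).biUnion (fun i => (P i).fs) →
      (∀ i, (P i).size ≤ L) → σ Q.fs ≤ M * (Cb * (L : ℝ) ^ (1 + e)) := by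
    intro P hQ hP
    have h1 : σ Q.fs ≤ ∑ i ∈ range M, σ (P i).fs := by
      conv_lhs => rw [hQ]
      exact hσ.bx_subadd_biUnion _ _
    refine h1.trans ?_
    have h2 : ∑ i ∈ range M, σ (P i).fs ≤ ∑ _i ∈ range M, Cb * (L : ℝ) ^ (1 + e) := by
      apply sum_le_sum
      intro i hi
      apply te_box_le hσ hCb he hbox (P i) L (hP i)
      intro x hx z hz
      apply hsafe x _ z hz
      rw [hQ, mem_biUnion]
      exact ⟨i, hi, hx⟩
    refine h2.trans ?_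
    rw [sum_const, card_range, nsmul_eq_mul]
  rcases hw with hw | hw
  · apply key fun i => ⟨Q.a₁, Q.b₁, Q.a₂ + (i : ℤ) * L, min (Q.a₂ + ((i : ℤ) + 1) * L) Q.b₂⟩
    · ext x
      rw [BxRect.mem_fs, mem_biUnion]
      simp only [BxRect.mem_fs]
      constructor
      · rintro ⟨a, b, c, d⟩
        obtain ⟨i, hi, h1, h2⟩ := (te_cut hL l2).mp ⟨c, d⟩
        exact ⟨i, hi, a, b, h1, h2⟩
      · rintro ⟨i, hi, a, b, h1, h2⟩
        obtain ⟨c, d⟩ := (te_cut hL l2).mpr ⟨i, hi, h1, h2⟩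
        exact ⟨a, b, c, d⟩
    · intro i
      unfold BxRect.size
      simp only
      refine max_le hw ?_
      have := min_le_left (Q.a₂ + ((i : ℤ) + 1) * L) Q.b₂
      linarith
  · apply key fun i => ⟨Q.a₁ + (i : ℤ) * L, min (Q.a₁ + ((i : ℤ) + 1) * L) Q.b₁, Q.a₂, Q.b₂⟩
    · ext x
      rw [BxRect.mem_fs, mem_biUnion]
      simp only [BxRect.mem_fs]
      constructor
      · rintro ⟨a, b, c, d⟩
        obtain ⟨i, hi, h1, h2⟩ := (te_cut hL l1).mp ⟨a, b⟩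
        exact ⟨i, hi, h1, h2, c, d⟩
      · rintro ⟨i, hi, h1, h2, c, d⟩
        obtain ⟨a, b⟩ := (te_cut hL l1).mpr ⟨i, hi, h1, h2⟩
        exact ⟨a, b, c, d⟩
    · intro i
      unfold BxRect.size
      simp only
      refine max_le ?_ hw
      have := min_le_left (Q.a₁ + ((i : ℤ) + 1) * L) Q.b₁
      linarith

/-- the shell of a rectangle is the union of four strips -/
theorem te_shell_eq (Q : BxRect) (h1 : Q.a₁ < Q.b₁) (h2 : Q.a₂ < Q.b₂) (j : ℕ) :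
    (Q.pad j).fs \ Q.fs =
      (BxRect.mk (Q.a₁ - j) Q.a₁ (Q.a₂ - j) (Q.b₂ + j)).fs ∪
      (BxRect.mk Q.b₁ (Q.b₁ + j) (Q.a₂ - j) (Q.b₂ + j)).fs ∪
      (BxRect.mk Q.a₁ Q.b₁ (Q.a₂ - j) Q.a₂).fs ∪
      (BxRect.mk Q.a₁ Q.b₁ Q.b₂ (Q.b₂ + j)).fs := by
  ext x
  simp only [mem_sdiff, mem_union, BxRect.mem_fs, BxRect.pad]
  omega

/-- shell entropy of a safe rectangle (input of the bootstrap, Proposition 8.5) -/
theorem te_shell_le (hσ : BxSub σ) (hCb : 0 ≤ Cb) (he : 0 ≤ e) (hD0 : 1 ≤ D0)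
    (hbox : BoxHyp σ D0 Z e Cb) (Q : BxRect) (h1 : Q.a₁ < Q.b₁) (h2 : Q.a₂ < Q.b₂)
    (hsafe : SafeRect D0 Z Q) (L j : ℕ) (hL : 1 ≤ L) (hj : j ≤ L) (h2L : (2 * L : ℤ) ≤ Q.size) :
    σ ((Q.pad j).fs \ Q.fs) ≤ 16 * Cb * (Q.size : ℝ) * (L : ℝ) ^ e := by
  have hLz : (1 : ℤ) ≤ L := by exact_mod_cast hL
  have hjz : (j : ℤ) ≤ L := by exact_mod_cast hj
  have hj0 : (0 : ℤ) ≤ j := Int.natCast_nonneg j
  have s1 : Q.b₁ - Q.a₁ ≤ Q.size := le_max_left _ _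
  have s2 : Q.b₂ - Q.a₂ ≤ Q.size := le_max_right _ _
  obtain ⟨s, hs⟩ : ∃ s : ℕ, Q.size = s := ⟨Q.size.toNat, (Int.toNat_of_nonneg (by omega)).symm⟩
  set M := s / L + 3 with hM
  -- `s + 2 L ≤ M L ≤ s + 3 L`
  have hML1 : s + 2 * L ≤ M * L := by
    have := Nat.lt_succ_iff.mp (Nat.lt_succ_of_lt (Nat.lt_div_mul_add (a := s) (by omega : 0 < L)))
    rw [hM]
    nlinarith
  have hML2 : M * L ≤ s + 3 * L := by
    have := Nat.div_mul_le_self s L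
    rw [hM]
    nlinarith
  have hML1z : (s : ℤ) + 2 * L ≤ (M * L : ℕ) := by exact_mod_cast hML1
  -- safety of the padded rectangle
  have hsafeP : ∀ x ∈ (Q.pad j).fs, ∀ z ∈ Z, (D0 : ℤ) * L < dInf x z := by
    intro x hx z hz
    rw [← tpl_dilF_bx h1 h2, tpl_mem_dilF] at hx
    obtain ⟨t, ht, htx⟩ := hx
    have h3 := hsafe t ht z hz
    have h4 := ct_dInf_triangle t x z
    have hD : (1 : ℤ) ≤ D0 := by exact_mod_cast hD0
    have h5 : (D0 : ℤ) * (2 * L) ≤ D0 * Q.size := mul_le_mul_of_nonneg_left h2L (by omega)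
    have h6 : (L : ℤ) ≤ D0 * L := by nlinarith
    linarith
  have hstrip : ∀ P : BxRect, P.fs ⊆ (Q.pad j).fs → (P.b₁ - P.a₁ ≤ L ∨ P.b₂ - P.a₂ ≤ L) →
      P.size ≤ (M * L : ℕ) → σ P.fs ≤ M * (Cb * (L : ℝ) ^ (1 + e)) := by
    intro P hP hw hlen
    exact te_strip_le hσ hCb he hbox P L M hL hw hlen fun x hx => hsafeP x (hP hx)
  have hsubs : ∀ P : BxRect, P.fs ⊆ (Q.pad j).fs \ Q.fs → P.fs ⊆ (Q.pad j).fs :=
    fun P hP => hP.trans sdiff_subset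
  have heq := te_shell_eq Q h1 h2 j
  have b1 := hstrip (BxRect.mk (Q.a₁ - j) Q.a₁ (Q.a₂ - j) (Q.b₂ + j))
    (hsubs _ (by rw [heq]; intro x hx; simp only [mem_union]; tauto))
    (Or.inl (by simp only; omega))
    (by unfold BxRect.size; simp only; exact max_le (by omega) (by omega))
  have b2 := hstrip (BxRect.mk Q.b₁ (Q.b₁ + j) (Q.a₂ - j) (Q.b₂ + j))
    (hsubs _ (by rw [heq]; intro x hx; simp only [mem_union]; tauto))
    (Or.inl (by simp only; omega))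
    (by unfold BxRect.size; simp only; exact max_le (by omega) (by omega))
  have b3 := hstrip (BxRect.mk Q.a₁ Q.b₁ (Q.a₂ - j) Q.a₂)
    (hsubs _ (by rw [heq]; intro x hx; simp only [mem_union]; tauto))
    (Or.inr (by simp only; omega))
    (by unfold BxRect.size; simp only; exact max_le (by omega) (by omega))
  have b4 := hstrip (BxRect.mk Q.a₁ Q.b₁ Q.b₂ (Q.b₂ + j))
    (hsubs _ (by rw [heq]; intro x hx; simp only [mem_union]; tauto))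
    (Or.inr (by simp only; omega))
    (by unfold BxRect.size; simp only; exact max_le (by omega) (by omega))
  rw [heq]
  have u1 := hσ.bx_subadd
    ((BxRect.mk (Q.a₁ - j) Q.a₁ (Q.a₂ - j) (Q.b₂ + j)).fs ∪
      (BxRect.mk Q.b₁ (Q.b₁ + j) (Q.a₂ - j) (Q.b₂ + j)).fs ∪
      (BxRect.mk Q.a₁ Q.b₁ (Q.a₂ - j) Q.a₂).fs) (BxRect.mk Q.a₁ Q.b₁ Q.b₂ (Q.b₂ + j)).fs
  have u2 := hσ.bx_subadd
    ((BxRect.mk (Q.a₁ - j) Q.a₁ (Q.a₂ - j) (Q.b₂ + j)).fs ∪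
      (BxRect.mk Q.b₁ (Q.b₁ + j) (Q.a₂ - j) (Q.b₂ + j)).fs)
      (BxRect.mk Q.a₁ Q.b₁ (Q.a₂ - j) Q.a₂).fs
  have u3 := hσ.bx_subadd
    (BxRect.mk (Q.a₁ - j) Q.a₁ (Q.a₂ - j) (Q.b₂ + j)).fs
      (BxRect.mk Q.b₁ (Q.b₁ + j) (Q.a₂ - j) (Q.b₂ + j)).fs
  have hLpos : (0 : ℝ) < L := by exact_mod_cast hL
  have hpow : (L : ℝ) ^ (1 + e) = L * (L : ℝ) ^ e := by
    rw [Real.rpow_add hLpos, Real.rpow_one]
  have hLe : 0 ≤ (L : ℝ) ^ e := by positivity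
  have hsR : (Q.size : ℝ) = s := by rw [hs]; simp
  have hMLR : (M : ℝ) * L ≤ s + 3 * L := by exact_mod_cast hML2
  have h2LR : (2 : ℝ) * L ≤ s := by
    have : (2 * L : ℤ) ≤ s := hs ▸ h2L
    exact_mod_cast this
  have hfin : (M : ℝ) * (Cb * (L : ℝ) ^ (1 + e)) ≤ 4 * Cb * (s : ℝ) * (L : ℝ) ^ e := by
    rw [hpow]
    have h7 : (M : ℝ) * L ≤ 4 * s := by linarith
    have h8 : 0 ≤ Cb * (L : ℝ) ^ e := mul_nonneg hCb hLe
    calc (M : ℝ) * (Cb * (L * (L : ℝ) ^ e)) = ((M : ℝ) * L) * (Cb * (L : ℝ) ^ e) := by ring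
      _ ≤ (4 * s) * (Cb * (L : ℝ) ^ e) := mul_le_mul_of_nonneg_right h7 h8
      _ = 4 * Cb * (s : ℝ) * (L : ℝ) ^ e := by ring
  rw [hsR]
  linarith

/-- entropy of a dilated separated template (input of Proposition 8.6) -/
theorem te_template_le (hσ : BxSub σ) (hCb : 0 ≤ Cb) (he : 0 ≤ e) (he1 : e ≤ 1) (hD0 : 2 ≤ D0)
    (hbox : BoxHyp σ D0 Z e Cb) {Ctpl n s0 : ℕ} (hC : 12 ≤ Ctpl) (hs0 : 2 ≤ s0)
    (hT : IsTemplate Ctpl T n s0)
    (hclear : ∀ x ∈ T, ∀ z ∈ Z, (4 * D0 * s0 : ℤ) < dInf x z) {j : ℕ} (hj : j ≤ s0) :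
    σ (dilF T j) ≤ Cb * (n : ℝ) ^ (1 + e) := by
  have _ := he1
  obtain ⟨N0, P, hN0, hn, hs, hTeq⟩ := tpl_template_eq hT
  set V := univ.filter fun a => RValid (P a) with hV
  have hjz : (j : ℤ) ≤ s0 := by exact_mod_cast hj
  have hpiece : ∀ a ∈ V, σ (dilF (rbx (P a)).fs j) ≤ Cb * ((3 * s0 + 1 : ℕ) : ℝ) ^ (1 + e) := by
    intro a ha
    have hv := tpl_valid_lt (Finset.mem_filter.mp ha).2
    have hsub : (rbx (P a)).fs ⊆ T := by
      rw [hTeq]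
      exact subset_biUnion_of_mem (fun a => (rbx (P a)).fs) ha
    have hsafe : ∀ x ∈ dilF (rbx (P a)).fs j, ∀ z ∈ Z,
        (D0 : ℤ) * (3 * s0 + 1 : ℕ) < dInf x z := by
      intro x hx z hz
      obtain ⟨t, ht, htx⟩ := tpl_mem_dilF.mp hx
      have h3 := hclear t (hsub ht) z hz
      have h4 := ct_dInf_triangle t x z
      have hD : (2 : ℤ) ≤ D0 := by exact_mod_cast hD0
      have hS : (2 : ℤ) ≤ s0 := by exact_mod_cast hs0
      push_cast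
      nlinarith [mul_nonneg (by linarith : (0 : ℤ) ≤ (D0 : ℤ) - 2) (by linarith : (0 : ℤ) ≤ (s0 : ℤ) - 2)]
    rw [tpl_dilF_bx hv.1 hv.2] at hsafe ⊢
    apply te_box_le hσ hCb he hbox _ _ _ hsafe
    have h5 := hs a
    have s1 : (rbx (P a)).b₁ - (rbx (P a)).a₁ ≤ (s0 : ℤ) + 1 := (le_max_left _ _).trans h5
    have s2 : (rbx (P a)).b₂ - (rbx (P a)).a₂ ≤ (s0 : ℤ) + 1 := (le_max_right _ _).trans h5
    unfold BxRect.size BxRect.pad
    simp only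
    push_cast
    exact max_le (by linarith) (by linarith)
  have h1 : σ (dilF T j) ≤ ∑ a ∈ V, σ (dilF (rbx (P a)).fs j) := by
    conv_lhs => rw [hTeq, tpl_dilF_biUnion]
    exact hσ.bx_subadd_biUnion _ _
  have h2 : ∑ a ∈ V, σ (dilF (rbx (P a)).fs j) ≤
      ∑ _a ∈ V, Cb * ((3 * s0 + 1 : ℕ) : ℝ) ^ (1 + e) := sum_le_sum hpiece
  have hVc : (V.card : ℝ) ≤ N0 := by
    have : V.card ≤ N0 := by
      simpa using (card_filter_le (univ : Finset (Fin N0)) fun a => RValid (P a))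
    exact_mod_cast this
  have hpos : 0 ≤ Cb * ((3 * s0 + 1 : ℕ) : ℝ) ^ (1 + e) := by positivity
  have h3 : ∑ _a ∈ V, Cb * ((3 * s0 + 1 : ℕ) : ℝ) ^ (1 + e) ≤
      N0 * (Cb * ((3 * s0 + 1 : ℕ) : ℝ) ^ (1 + e)) := by
    rw [sum_const, nsmul_eq_mul]
    exact mul_le_mul_of_nonneg_right hVc hpos
  refine h1.trans (h2.trans (h3.trans ?_))
  -- `N0 (3 s0 + 1)^(1+e) ≤ (N0 (3 s0 + 1))^(1+e) ≤ n^(1+e)`
  have hN0R : (1 : ℝ) ≤ N0 := by exact_mod_cast hN0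
  have h4 : (N0 : ℝ) ≤ (N0 : ℝ) ^ (1 + e) := by
    calc (N0 : ℝ) = (N0 : ℝ) ^ (1 : ℝ) := (Real.rpow_one _).symm
      _ ≤ (N0 : ℝ) ^ (1 + e) := Real.rpow_le_rpow_of_exponent_le hN0R (by linarith)
  have h5 : (N0 : ℝ) * ((3 * s0 + 1 : ℕ) : ℝ) ≤ n := by
    have : N0 * (3 * s0 + 1) ≤ n := by
      refine le_trans ?_ hn
      nlinarith [Nat.mul_le_mul_right (N0 * (s0 + 1)) hC]
    exact_mod_cast this
  have h6 : ((N0 : ℝ) * ((3 * s0 + 1 : ℕ) : ℝ)) ^ (1 + e) ≤ (n : ℝ) ^ (1 + e) :=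
    Real.rpow_le_rpow (by positivity) h5 (by linarith)
  rw [Real.mul_rpow (by positivity) (by positivity)] at h6
  have h7 : 0 ≤ ((3 * s0 + 1 : ℕ) : ℝ) ^ (1 + e) := by positivity
  calc (N0 : ℝ) * (Cb * ((3 * s0 + 1 : ℕ) : ℝ) ^ (1 + e))
      = Cb * ((N0 : ℝ) * ((3 * s0 + 1 : ℕ) : ℝ) ^ (1 + e)) := by ring
    _ ≤ Cb * ((N0 : ℝ) ^ (1 + e) * ((3 * s0 + 1 : ℕ) : ℝ) ^ (1 + e)) :=
        mul_le_mul_of_nonneg_left (mul_le_mul_of_nonneg_right h4 h7) hCb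
    _ ≤ Cb * (n : ℝ) ^ (1 + e) := mul_le_mul_of_nonneg_left h6 hCb

end Abstract

section Physical

variable {Λ : Finset (ℤ × ℤ)} {q : ℕ} [NeZero q]

/-- the ambient entropy function `P ↦ S_Ω(A ∩ P)` -/
noncomputable def ambEnt (Ω : (Λ → Fin q) → ℂ) (A : Finset Λ) (P : Finset (ℤ × ℤ)) : ℝ :=
  ent (io := fun _ : Λ => Fin q) (pureOp Ω) (tplX A P)

theorem te_bxSub (hEnt : EntApiStmt) {Ω : (Λ → Fin q) → ℂ} (hΩ : star Ω ⬝ᵥ Ω = 1)
    (A : Finset Λ) : BxSub (ambEnt Ω A) := by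
  have hS := top_entLike hEnt Ω hΩ
  refine ⟨?_, fun P => hS.nonneg _, fun P Q => ?_⟩
  · unfold ambEnt
    rw [bx_tplX_empty]
    exact hS.empty
  · unfold ambEnt
    rw [bx_tplX_union, bx_tplX_inter]
    exact hS.submod _ _

/-- `S(B \ X) ≤ S(B) + S(X)` in a pure state -/
theorem te_ent_sdiff_le (hEnt : EntApiStmt) {Ω : (Λ → Fin q) → ℂ} (hΩ : star Ω ⬝ᵥ Ω = 1)
    (B X : Finset Λ) (h : X ⊆ B) :
    ent (io := fun _ : Λ => Fin q) (pureOp Ω) (B \ X) ≤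
      ent (io := fun _ : Λ => Fin q) (pureOp Ω) B + ent (io := fun _ : Λ => Fin q) (pureOp Ω) X := by
  have _ := h
  have hS := top_entLike hEnt Ω hΩ
  have h1 := hS.compl (B \ X)
  have h2 := hS.cn_subadd Bᶜ X
  have h3 := hS.compl B
  have e1 : (B \ X)ᶜ = Bᶜ ∪ X := by
    ext x
    simp only [mem_compl, mem_sdiff, mem_union]
    tauto
  rw [e1] at h1
  linarith

/-- volume bound -/
theorem te_ambEnt_le_card (hEnt : EntApiStmt) {Ω : (Λ → Fin q) → ℂ} (hΩ : star Ω ⬝ᵥ Ω = 1)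
    (A : Finset Λ) (P : Finset (ℤ × ℤ)) : ambEnt Ω A P ≤ P.card * Real.log q := by
  obtain ⟨_, _, h2, _, _⟩ := hEnt Λ q Ω hΩ
  refine (h2 (tplX A P)).trans ?_
  have hq : (1 : ℝ) ≤ q := by exact_mod_cast Nat.one_le_iff_ne_zero.mpr (NeZero.ne q)
  apply mul_le_mul_of_nonneg_right _ (Real.log_nonneg hq)
  exact_mod_cast bx_tplX_card A P

/-- the mutual information with an empty first system vanishes -/
theorem te_minfo_empty (hEnt : EntApiStmt) {Ω : (Λ → Fin q) → ℂ} (hΩ : star Ω ⬝ᵥ Ω = 1)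
    (Y : Finset Λ) : minfo (io := fun _ : Λ => Fin q) (pureOp Ω) ∅ Y = 0 := by
  have hS := top_entLike hEnt Ω hΩ
  unfold minfo
  rw [empty_union]
  have := hS.empty
  linarith

end Physical

end Claimed.Agent.R296.Scan
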