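import Claimed.Agent.R296.Scan.NumE
import Claimed.Agent.R296.Scan.TplEnt

/-!
# Row 296, paper 1, Proposition 8.5 (improved safe-box estimate)

`sb_step` : one step of the bootstrap, `BoxStmt e → BoxStmt ((1 - l) e)` for `e_* < e ≤ e₀`,
from the replica-free conclusion of the scanner (`ScanConclStmt`, rough comparison, `W = 4`).
`sb_smallBox` : the iteration.  Prefix `sb_`.
-/

set_option autoImplicit false

namespace Claimed.Agent.R296.Scan

open Matrix Claims.C0473 Finset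

/-- the exponent `e_* = 2·10⁻⁶` -/
noncomputable def expEstar : ℝ := 2 / 1000000

/-- `g₀ = (1 - e₀)/2` -/
noncomputable def sbG (e0 : ℝ) : ℝ := (1 - e0) / 2
/-- `μ = 1 - g₀` -/
noncomputable def sbMu (e0 : ℝ) : ℝ := 1 - sbG e0
/-- `ν = g₀/1000` -/
noncomputable def sbNu (e0 : ℝ) : ℝ := sbG e0 / 1000
/-- `ℓ = ν/100` -/
noncomputable def sbL (e0 : ℝ) : ℝ := sbG e0 / 100000
/-- `κ = min(ν/100, e_*/4)` -/
noncomputable def sbKap (e0 : ℝ) : ℝ := min (sbG e0 / 100000) (expEstar / 4)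

/-- `ω = ν/100`: only needed for `W = 4 ≤ n^ω` -/
noncomputable def sbOm (e0 : ℝ) : ℝ := sbG e0 / 100000

theorem sb_G_pos {e0 : ℝ} (h1 : e0 < 1) : 0 < sbG e0 := by unfold sbG; linarith

theorem sb_G_lt {e0 : ℝ} (h0 : 0 < e0) : sbG e0 < 1 / 2 := by unfold sbG; linarith

theorem sb_Kap_pos {e0 : ℝ} (h1 : e0 < 1) : 0 < sbKap e0 := by
  unfold sbKap
  have := sb_G_pos h1
  exact lt_min (by positivity) (by unfold expEstar; norm_num)

theorem sb_expOK {e0 e : ℝ} (h0 : 0 < e0) (h1 : e0 < 1) (he : expEstar < e) (he0 : e ≤ e0) :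
    ExpOK (sbL e0) (sbMu e0) (sbKap e0) (sbNu e0) (sbOm e0) e := by
  have hg := sb_G_pos h1
  have hg2 := sb_G_lt h0
  have hk1 : sbKap e0 ≤ sbG e0 / 100000 := min_le_left _ _
  have hk2 : sbKap e0 ≤ expEstar / 4 := min_le_right _ _
  have hes : 0 < expEstar := by unfold expEstar; norm_num
  refine ⟨?_, sb_Kap_pos h1, ?_, ?_, ?_, ?_, by linarith, by linarith, by linarith⟩
  · unfold sbL; positivity
  · unfold sbMu; linarith
  · unfold sbMu sbL sbOm; linarith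
  · unfold sbNu; positivity
  · unfold sbOm; positivity

theorem sb_audit {e0 e : ℝ} (h0 : 0 < e0) (h1 : e0 < 1) (he0 : e ≤ e0) :
    sbNu e0 ≤ 1 ∧ 9 * sbNu e0 + e < sbMu e0 ∧
      36 * sbNu e0 + sbOm e0 < 1 - sbL e0 - sbMu e0 ∧
      sbL e0 + 2 * sbKap e0 + 2 * sbOm e0 < sbNu e0 / 2 := by
  have hg := sb_G_pos h1
  have hg2 := sb_G_lt h0
  have hk1 : sbKap e0 ≤ sbG e0 / 100000 := min_le_left _ _
  have hge : e0 = 1 - 2 * sbG e0 := by unfold sbG; ring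
  refine ⟨?_, ?_, ?_, ?_⟩
  · unfold sbNu; linarith
  · unfold sbNu sbMu; linarith
  · unfold sbNu sbMu sbL sbOm; linarith
  · unfold sbNu sbL sbOm; linarith

/-- monotonicity of the safe-box estimate in the exponent -/
theorem sb_box_mono {q R : ℕ} [NeZero q] {J Δ : ℝ} {D0 : ℕ} {e e' : ℝ} (h : e ≤ e')
    (hb : BoxStmt q R J Δ D0 e) : BoxStmt q R J Δ D0 e' := by
  obtain ⟨C, hC⟩ := hb
  refine ⟨max C 0, fun Λ k hk E₀ Ω hG A Q hs h1 => ?_⟩
  have h2 := hC Λ k hk E₀ Ω hG A Q hs h1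
  have h3 : (1 : ℝ) ≤ (Q.size : ℝ) := by exact_mod_cast h1
  have h4 : (Q.size : ℝ) ^ (1 + e) ≤ (Q.size : ℝ) ^ (1 + e') :=
    Real.rpow_le_rpow_of_exponent_le h3 (by linarith)
  have h5 : 0 ≤ (Q.size : ℝ) ^ (1 + e) := by positivity
  calc _ ≤ C * (Q.size : ℝ) ^ (1 + e) := h2
    _ ≤ max C 0 * (Q.size : ℝ) ^ (1 + e) := mul_le_mul_of_nonneg_right (le_max_left _ _) h5
    _ ≤ max C 0 * (Q.size : ℝ) ^ (1 + e') := mul_le_mul_of_nonneg_left h4 (le_max_right _ _)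

/-- final arithmetic of one bootstrap step -/
theorem sb_final {n : ℕ} (hn : 1 ≤ n) {l μ κ e C Cb SX w inva Bs Dn : ℝ}
    (hl0 : 0 ≤ l) (hμ0 : 0 ≤ μ) (hκ : κ ≤ (1 - l) * e) (he' : 0 ≤ (1 - l) * e) (hC : 1 ≤ C)
    (hw : w ≤ (n : ℝ) ^ ((3 : ℝ) / 5) + 1) (hinva : inva ≤ (n : ℝ) ^ (1 - l - μ) / 4)
    (hBs : Bs ≤ Cb * (n : ℝ) ^ (1 + (1 - l) * e)) (hD : Dn ≤ 2 * (n : ℝ) ^ κ)
    (h : SX ≤ 7 * w + 2 * C * inva + 1 + 8 * (Bs + C * n) + 4 * (C * n * Dn)) :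
    SX ≤ (15 + 17 * C + 8 * Cb) * (n : ℝ) ^ (1 + (1 - l) * e) := by
  have hn1 : (1 : ℝ) ≤ (n : ℝ) := by exact_mod_cast hn
  have hn0 : (0 : ℝ) < (n : ℝ) := by linarith
  set P : ℝ := (n : ℝ) ^ (1 + (1 - l) * e) with hP
  have hP1 : 1 ≤ P := Real.one_le_rpow hn1 (by linarith)
  have hPn : (n : ℝ) ≤ P := by
    have := Real.rpow_le_rpow_of_exponent_le hn1 (show (1 : ℝ) ≤ 1 + (1 - l) * e by linarith)
    simpa using this
  have hP35 : (n : ℝ) ^ ((3 : ℝ) / 5) ≤ P :=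
    Real.rpow_le_rpow_of_exponent_le hn1 (by linarith)
  have hPb : (n : ℝ) ^ (1 - l - μ) ≤ P :=
    Real.rpow_le_rpow_of_exponent_le hn1 (by linarith)
  have hPk : (n : ℝ) * (n : ℝ) ^ κ ≤ P := by
    have h1 : (n : ℝ) * (n : ℝ) ^ κ = (n : ℝ) ^ (1 + κ) := by
      rw [Real.rpow_add hn0, Real.rpow_one]
    rw [h1]
    exact Real.rpow_le_rpow_of_exponent_le hn1 (by linarith)
  have hC0 : 0 ≤ C := by linarith
  have t1 : 2 * C * inva ≤ 2 * C * (P / 4) :=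
    mul_le_mul_of_nonneg_left (by linarith) (by linarith)
  have t2 : C * n * Dn ≤ C * (2 * P) := by
    have h1 : C * n * Dn ≤ C * n * (2 * (n : ℝ) ^ κ) :=
      mul_le_mul_of_nonneg_left hD (by positivity)
    have h2 : C * n * (2 * (n : ℝ) ^ κ) = C * (2 * ((n : ℝ) * (n : ℝ) ^ κ)) := by ring
    have h3 : C * (2 * ((n : ℝ) * (n : ℝ) ^ κ)) ≤ C * (2 * P) :=
      mul_le_mul_of_nonneg_left (by linarith) hC0
    linarith
  have t3 : C * n ≤ C * P := mul_le_mul_of_nonneg_left hPn hC0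
  have t4 : 0 ≤ C * P := by positivity
  nlinarith

/-- **One step of the bootstrap** (proof of Proposition 8.5). -/
theorem sb_step (hEnt : EntApiStmt) {q R : ℕ} [NeZero q] {J Δ : ℝ} {D0 : ℕ} (hD0 : 1 ≤ D0)
    (hScan : ScanConclStmt q R J Δ) {e0 e : ℝ} (h0 : 0 < e0) (h1 : e0 < 1)
    (he : expEstar < e) (he0 : e ≤ e0) (hbox : BoxStmt q R J Δ D0 e) :
    BoxStmt q R J Δ D0 ((1 - sbL e0) * e) := by
  classical
  obtain ⟨Cb0, hCb0⟩ := hbox
  set Cb : ℝ := max Cb0 0 with hCbdef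
  have hCb : 0 ≤ Cb := le_max_right _ _
  have hExp := sb_expOK h0 h1 he he0
  obtain ⟨hν1, ha1, ha2, ha3⟩ := sb_audit h0 h1 he0
  have hωpos : 0 < sbOm e0 := by unfold sbOm; have := sb_G_pos h1; positivity
  have hl34 : sbL e0 ≤ 3 / 4 := by unfold sbL; have := sb_G_lt h0; linarith
  have hκe : sbKap e0 ≤ expEstar / 4 := min_le_right _ _
  set l := sbL e0 with hl
  set μ := sbMu e0 with hμ
  set κ := sbKap e0 with hκ
  set ν := sbNu e0 with hν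
  set ω := sbOm e0 with hω
  have hes : 0 < expEstar := by unfold expEstar; norm_num
  have hepos : 0 < e := hExp.e_pos
  have hμ0 : 0 < μ := lt_trans hExp.κ_pos hExp.κ_lt
  have hμl : μ < 1 - l := by have := hExp.μ_lt; have := hExp.ω_nonneg; linarith
  have hlpos : 0 < l := hExp.l_pos
  have hνpos : 0 < ν := hExp.ν_pos
  have he'0 : 0 ≤ (1 - l) * e := by
    apply mul_nonneg <;> linarith
  have he'1 : (1 - l) * e ≤ e := by nlinarith
  have hκe' : κ ≤ (1 - l) * e := by nlinarith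
  obtain ⟨C, Cl, n0, hC1, hmain⟩ := hScan l μ κ ν ω e hExp 1 Cb
  obtain ⟨n1, hn1⟩ := num_scaleBds hlpos hExp.κ_pos hμ0 hμl
  obtain ⟨n2, hn2⟩ := num_Ebar_le hExp hν1 ha1 ha2 ha3 C hC1 Cl
  obtain ⟨n3, hn3⟩ := num_small C (α := ν / 4) (c := 1 / 4) (by positivity) (by norm_num)
  obtain ⟨n5, hn5⟩ := num_absorb_const 72 (α := 1 - l) (β := 1) (by linarith)
  obtain ⟨n6, hn6⟩ := num_absorb_const 4 (α := 0) (β := ω) hωpos
  set N : ℕ := max (max (max n0 n1) (max n2 n3)) (max (max n5 n6) 2) with hN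
  have hlogq : 0 ≤ Real.log q := Real.log_natCast_nonneg q
  set Cfin : ℝ := max ((16 + 17 * C + 8 * Cb) * 576) ((N : ℝ) ^ 2 * Real.log q) with hCfin
  have hCfin0 : 0 ≤ Cfin := le_trans (by positivity) (le_max_left _ _)
  refine ⟨Cfin, fun Λ k hk E₀ Ω hG A Q hs hsz => ?_⟩
  have hΩ := hG.1
  have hσ : BxSub (ambEnt Ω A) := te_bxSub hEnt hΩ A
  have hsz1 : (1 : ℝ) ≤ (Q.size : ℝ) := by exact_mod_cast hsz
  have hpow1 : (1 : ℝ) ≤ (Q.size : ℝ) ^ (1 + (1 - l) * e) :=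
    Real.one_le_rpow hsz1 (by linarith)
  change ambEnt Ω A Q.fs ≤ Cfin * (Q.size : ℝ) ^ (1 + (1 - l) * e)
  by_cases hne : (tplX A Q.fs).Nonempty
  swap
  · have h2 : tplX A Q.fs = ∅ := Finset.not_nonempty_iff_eq_empty.mp hne
    have h3 : ambEnt Ω A Q.fs = 0 := by
      have := hσ.empty
      unfold ambEnt at this ⊢
      rw [h2]
      simpa [bx_tplX_empty] using this
    rw [h3]
    positivity
  have hQ1 : Q.a₁ < Q.b₁ ∧ Q.a₂ < Q.b₂ := by
    obtain ⟨x, hx⟩ := hne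
    unfold tplX at hx
    have hx2 := (Finset.mem_filter.mp hx).2
    rw [BxRect.mem_fs] at hx2
    constructor <;> linarith [hx2.1, hx2.2.1, hx2.2.2.1, hx2.2.2.2]
  obtain ⟨s0, hs0⟩ : ∃ s0 : ℕ, Q.size = s0 :=
    ⟨Q.size.toNat, (Int.toNat_of_nonneg (by linarith)).symm⟩
  have hs01 : 1 ≤ s0 := by
    have : (1 : ℤ) ≤ (s0 : ℤ) := by rw [← hs0]; exact hsz
    exact_mod_cast this
  have hsR : (Q.size : ℝ) = (s0 : ℝ) := by rw [hs0]; simp
  set n : ℕ := 24 * s0 with hn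
  have hnR : (n : ℝ) = 24 * (s0 : ℝ) := by rw [hn]; push_cast; ring
  by_cases hnN : n < N
  · -- small scales: volume bound
    have h2 := te_ambEnt_le_card hEnt hΩ A Q.fs
    have h3 : Q.fs.card ≤ s0 * s0 := tpl_card_bx_le Q s0 (le_of_eq hs0)
    have h4 : s0 ≤ N := by omega
    have h5 : (Q.fs.card : ℝ) ≤ (N : ℝ) ^ 2 := by
      have : Q.fs.card ≤ N ^ 2 := by
        calc Q.fs.card ≤ s0 * s0 := h3
          _ ≤ N * N := Nat.mul_le_mul h4 h4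
          _ = N ^ 2 := by ring
      exact_mod_cast this
    calc ambEnt Ω A Q.fs ≤ (Q.fs.card : ℝ) * Real.log q := h2
      _ ≤ (N : ℝ) ^ 2 * Real.log q := mul_le_mul_of_nonneg_right h5 hlogq
      _ ≤ Cfin := le_max_right _ _
      _ ≤ Cfin * (Q.size : ℝ) ^ (1 + (1 - l) * e) := le_mul_of_one_le_right hCfin0 hpow1
  rw [not_lt] at hnN
  have hn0 : n0 ≤ n := by omega
  have hn1' : n1 ≤ n := by omega
  have hn2' : n2 ≤ n := by omega
  have hn3' : n3 ≤ n := by omega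
  have hn5' : n5 ≤ n := by omega
  have hn6' : n6 ≤ n := by omega
  have hn2le : 2 ≤ n := by omega
  have hn1R : (1 : ℝ) ≤ (n : ℝ) := by exact_mod_cast (by omega : 1 ≤ n)
  have hnpos : (0 : ℝ) < (n : ℝ) := by linarith
  set s : Scales := ⟨n, l, μ, κ, 4⟩ with hsdef
  have hSB : ScaleBds s := hn1 n hn1' 4
  have hLle : (s.L : ℝ) ≤ (n : ℝ) ^ (1 - l) := hSB.L_le
  have hL3 : 3 * s.L ≤ s0 := by
    have h2 := hn5 n hn5'
    rw [Real.rpow_one] at h2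
    have h3 : (3 : ℝ) * (s.L : ℝ) ≤ (s0 : ℝ) := by linarith
    exact_mod_cast h3
  have hL1 : 1 ≤ s.L := le_trans (by norm_num) hSB.L_two
  have hT : IsTemplate 12 Q.fs n s0 := tpl_bx_isTemplate hQ1.1 hQ1.2 s0 hs0
  have hclear : ∀ x ∈ Q.fs, ∀ z ∈ cutEnds Λ A, (3 * s.L : ℤ) < dInf x z := by
    intro x hx z hz
    have h2 := hs x hx z hz
    have h3 : (3 * s.L : ℤ) ≤ (s0 : ℤ) := by exact_mod_cast hL3
    have h4 : (1 : ℤ) ≤ (D0 : ℤ) := by exact_mod_cast hD0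
    rw [hs0] at h2
    have h5 : (0 : ℤ) ≤ (s0 : ℤ) := by positivity
    have h6 : (s0 : ℤ) ≤ (D0 : ℤ) * (s0 : ℤ) := le_mul_of_one_le_left h5 h4
    linarith
  obtain ⟨g1, g2, _, _, _⟩ := tpl_collar_geo (A := A) (le_refl 12) hT hclear (by omega)
  have hboxσ : BoxHyp (ambEnt Ω A) D0 (cutEnds Λ A) e Cb := by
    intro Q' hs' h1'
    have h2 := hCb0 Λ k hk E₀ Ω hG A Q' hs' h1'
    have h3 : (0 : ℝ) ≤ (Q'.size : ℝ) ^ (1 + e) := by
      have : (0 : ℝ) ≤ (Q'.size : ℝ) := by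
        have : (0 : ℤ) ≤ Q'.size := by linarith
        exact_mod_cast this
      positivity
    exact h2.trans (mul_le_mul_of_nonneg_right (le_max_left _ _) h3)
  set Bs : ℝ := 16 * Cb * (Q.size : ℝ) * (s.L : ℝ) ^ e with hBs
  have hBs0 : 0 ≤ Bs := by
    have : (0 : ℝ) ≤ (Q.size : ℝ) := by linarith
    positivity
  have hshell : ∀ j, j ≤ s.L →
      ent (io := fun _ : Λ => Fin q) (pureOp Ω) (tplS A Q.fs j \ tplX A Q.fs) ≤ Bs := by
    intro j hj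
    have e1 : tplS A Q.fs j \ tplX A Q.fs = tplX A ((Q.pad j).fs \ Q.fs) := by
      rw [tpl_tplS_eq, tpl_dilF_bx hQ1.1 hQ1.2, bx_tplX_sdiff]
    rw [e1]
    refine te_shell_le hσ hCb hepos.le hD0 hboxσ Q hQ1.1 hQ1.2 hs s.L j hL1 hj ?_
    rw [hs0]
    have : 2 * s.L ≤ s0 := by omega
    exact_mod_cast this
  -- `Bs ≤ Cb n^(1 + (1-l) e)`
  have hLe : (s.L : ℝ) ^ e ≤ (n : ℝ) ^ ((1 - l) * e) := by
    rw [Real.rpow_mul hnpos.le]
    exact Real.rpow_le_rpow (by positivity) hLle hepos.le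
  have hBsP : Bs ≤ Cb * (n : ℝ) ^ (1 + (1 - l) * e) := by
    rw [Real.rpow_add hnpos, Real.rpow_one, hBs, hsR]
    have h2 : (16 : ℝ) * (s0 : ℝ) ≤ (n : ℝ) := by
      rw [hnR]
      have : (0 : ℝ) ≤ (s0 : ℝ) := by positivity
      linarith
    have h3 : (16 : ℝ) * (s0 : ℝ) * (s.L : ℝ) ^ e ≤ (n : ℝ) * (n : ℝ) ^ ((1 - l) * e) :=
      mul_le_mul h2 hLe (by positivity) hnpos.le
    calc 16 * Cb * (s0 : ℝ) * (s.L : ℝ) ^ e = Cb * (16 * (s0 : ℝ) * (s.L : ℝ) ^ e) := by ring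
      _ ≤ Cb * ((n : ℝ) * (n : ℝ) ^ ((1 - l) * e)) := mul_le_mul_of_nonneg_left h3 hCb
  have hPmono : (n : ℝ) ^ (1 + (1 - l) * e) ≤ (n : ℝ) ^ (1 + e) :=
    Real.rpow_le_rpow_of_exponent_le hn1R (by linarith)
  have hBsE : Bs ≤ Cb * (n : ℝ) ^ (1 + e) :=
    hBsP.trans (mul_le_mul_of_nonneg_left hPmono hCb)
  have hXE : ent (io := fun _ : Λ => Fin q) (pureOp Ω) (tplX A Q.fs) ≤ Cb * (n : ℝ) ^ (1 + e) := by
    have h2 := hboxσ Q hs hsz
    have h3 : (Q.size : ℝ) ^ (1 + e) ≤ (n : ℝ) ^ (1 + e) := by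
      apply Real.rpow_le_rpow (by linarith) _ (by linarith)
      rw [hsR, hnR]
      have : (0 : ℝ) ≤ (s0 : ℝ) := by positivity
      linarith
    exact h2.trans (mul_le_mul_of_nonneg_left h3 hCb)
  have hW4 : (4 : ℝ) ≤ (n : ℝ) ^ ω := by
    have := hn6 n hn6'
    simpa using this
  have hcard : ((tplS A Q.fs s.L).card : ℝ) ≤ 1 * (n : ℝ) ^ 2 := by
    rw [one_mul]
    exact_mod_cast g1
  obtain ⟨Nn, c1, _, c3, c4, c5, c6, c7, _⟩ :=
    hmain Λ k hk E₀ Ω hG A Q.fs n 4 Bs hn0 (by norm_num) hW4 s rfl hne hcard g2 hclear hXE hshell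
      hBs0 hBsE
  -- the parameter `τ`
  set τ : ℝ := (n : ℝ) ^ (-(ν / 4)) with hτ
  have hτ0 : 0 < τ := Real.rpow_pos_of_pos hnpos _
  have hτC : C * τ ≤ 1 / 4 := hn3 n hn3'
  have hτ14 : τ ≤ 1 / 4 := le_trans (le_mul_of_one_le_left hτ0.le hC1) hτC
  obtain ⟨hEb0, hEb⟩ := hn2 n hn2' 4 (by norm_num) hW4
  have hττ : (n : ℝ) ^ (-(ν / 2)) = τ * τ := by
    rw [hτ, ← Real.rpow_add hnpos]
    congr 1
    ring
  have hEbτ : scEbar s C Cl e ν / τ ≤ τ := by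
    rw [div_le_iff₀ hτ0, ← hττ]
    exact hEb
  have hEbC : C * (scEbar s C Cl e ν / τ) ≤ 1 / 4 :=
    (mul_le_mul_of_nonneg_left hEbτ (by linarith)).trans hτC
  have hx100 : ((n : ℝ) ^ 100)⁻¹ ≤ 1 / 2 := by
    have h2 : (2 : ℝ) ≤ (n : ℝ) ^ 100 := by
      have h3 : (2 : ℝ) ≤ (n : ℝ) := by exact_mod_cast hn2le
      calc (2 : ℝ) ≤ (n : ℝ) := h3
        _ = (n : ℝ) ^ 1 := (pow_one _).symm
        _ ≤ (n : ℝ) ^ 100 := pow_le_pow_right₀ hn1R (by norm_num)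
    rw [inv_le_comm₀ (by positivity) (by norm_num)]
    simpa using h2
  have hz12 : 1 / 2 ≤ Nn.z := by linarith
  have hlogz : |Real.log Nn.z| ≤ 1 := by
    have := num_abs_log_le hx100 c3 c4
    linarith
  have ha : 0 < s.a := hSB.num_a_pos (by norm_num)
  have hN8 := num_rough_solve (s := s) (N := Nn) rfl ha hC1 hτ0 (by linarith) hτC hEb0 hEbC hz12
    c4 c5 c6 (by positivity) (by positivity) (c7 τ hτ0 (by linarith))
  have hfin := sb_final (n := n) (by omega) (l := l) (μ := μ) (κ := κ) (e := e) (C := C)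
    (Cb := Cb) hlpos.le hμ0.le hκe' he'0 hC1 (by linarith) (hSB.num_inv_a_le (by norm_num)) hBsP
    hSB.D_le hN8
  have hx200 : ((n : ℝ) ^ 200)⁻¹ ≤ 1 := by
    apply inv_le_one_of_one_le₀
    exact one_le_pow₀ hn1R
  have hP1 : 1 ≤ (n : ℝ) ^ (1 + (1 - l) * e) := Real.one_le_rpow hn1R (by linarith)
  have hX : ambEnt Ω A Q.fs ≤ (16 + 17 * C + 8 * Cb) * (n : ℝ) ^ (1 + (1 - l) * e) := by
    have h2 := (abs_le.mp c1).1
    have h3 : (16 + 17 * C + 8 * Cb) * (n : ℝ) ^ (1 + (1 - l) * e) =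
        (15 + 17 * C + 8 * Cb) * (n : ℝ) ^ (1 + (1 - l) * e) + (n : ℝ) ^ (1 + (1 - l) * e) := by
      ring
    unfold ambEnt
    linarith
  have hP24 : (n : ℝ) ^ (1 + (1 - l) * e) ≤ 576 * (Q.size : ℝ) ^ (1 + (1 - l) * e) := by
    rw [hnR, hsR, Real.mul_rpow (by norm_num) (by positivity)]
    apply mul_le_mul_of_nonneg_right _ (by positivity)
    calc (24 : ℝ) ^ (1 + (1 - l) * e) ≤ (24 : ℝ) ^ (2 : ℝ) :=
          Real.rpow_le_rpow_of_exponent_le (by norm_num) (by linarith)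
      _ = 576 := by norm_num
  calc ambEnt Ω A Q.fs ≤ (16 + 17 * C + 8 * Cb) * (n : ℝ) ^ (1 + (1 - l) * e) := hX
    _ ≤ (16 + 17 * C + 8 * Cb) * (576 * (Q.size : ℝ) ^ (1 + (1 - l) * e)) :=
        mul_le_mul_of_nonneg_left hP24 (by positivity)
    _ = ((16 + 17 * C + 8 * Cb) * 576) * (Q.size : ℝ) ^ (1 + (1 - l) * e) := by ring
    _ ≤ Cfin * (Q.size : ℝ) ^ (1 + (1 - l) * e) :=
        mul_le_mul_of_nonneg_right (le_max_left _ _) (by positivity)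

/-- **Proposition 8.5 of paper 1**: the safe-box estimate with exponent `1 + e_*`. -/
theorem sb_smallBox (hEnt : EntApiStmt) {q R : ℕ} [NeZero q] {J Δ : ℝ} {D0 : ℕ} (hD0 : 1 ≤ D0)
    (hScan : ScanConclStmt q R J Δ)
    (hInit : ∃ e0 : ℝ, 0 < e0 ∧ e0 < 1 ∧ BoxStmt q R J Δ D0 e0) :
    BoxStmt q R J Δ D0 expEstar := by
  obtain ⟨e0, h0, h1, hb⟩ := hInit
  have hes : 0 < expEstar := by unfold expEstar; norm_num
  set r : ℝ := 1 - sbL e0 with hr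
  have hr0 : 0 < r := by
    rw [hr]; unfold sbL; have := sb_G_lt h0; linarith
  have hr1 : r < 1 := by
    rw [hr]; unfold sbL; have := sb_G_pos h1; linarith
  have key : ∀ j : ℕ, BoxStmt q R J Δ D0 (max expEstar (r ^ j * e0)) := by
    intro j
    induction j with
    | zero => exact sb_box_mono (by simp) hb
    | succ j ih =>
      by_cases h : expEstar < r ^ j * e0
      · rw [max_eq_right h.le] at ih
        have hle : r ^ j * e0 ≤ e0 := by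
          have : r ^ j ≤ 1 := pow_le_one₀ hr0.le hr1.le
          nlinarith
        have h2 := sb_step hEnt hD0 hScan h0 h1 h hle ih
        refine sb_box_mono ?_ h2
        rw [pow_succ]
        have : (1 - sbL e0) * (r ^ j * e0) = r ^ j * r * e0 := by rw [← hr]; ring
        rw [this]
        exact le_max_right _ _
      · rw [not_lt] at h
        rw [max_eq_left h] at ih
        exact sb_box_mono (le_max_left _ _) ih
  obtain ⟨j, hj⟩ := exists_pow_lt_of_lt_one (show 0 < expEstar / e0 by positivity) hr1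
  have h2 := key j
  have h3 : r ^ j * e0 ≤ expEstar := by
    rw [lt_div_iff₀ h0] at hj
    exact hj.le
  rwa [max_eq_left h3] at h2

end Claimed.Agent.R296.Scan
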