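import Claimed.Agent.R296.Scan.Concl

/-!
# Row 296, paper 1, Section 8: geometry of rectangular templates (Lemma 8.4 (a), (c))

Ambient dilations `dilF T j`, rows, sizes and physical edge boundaries of the regions
`X = A ∩ T`, `S₀ = A ∩ T_L`, `S₀ \ X`.  Pieces of a template may overlap and may be empty.
Prefix `tpl_`.
-/

set_option autoImplicit false

namespace Claimed.Agent.R296.Scan

open Matrix Claims.C0473 Finset

/-- ambient sup-norm dilation `T_j = T + [-j,j]²` -/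
noncomputable def dilF (T : Finset (ℤ × ℤ)) (j : ℕ) : Finset (ℤ × ℤ) :=
  T.biUnion fun t => Icc (t.1 - j) (t.1 + j) ×ˢ Icc (t.2 - j) (t.2 + j)

/-- the half-open rectangle with the same lattice points as the closed rectangle `P` -/
def rbx (P : RectP) : BxRect := ⟨P.a1, P.b1 + 1, P.a2, P.b2 + 1⟩

/-- the closed rectangle is nonempty -/
def RValid (P : RectP) : Prop := P.a1 ≤ P.b1 ∧ P.a2 ≤ P.b2

instance tplDecRValid (P : RectP) : Decidable (RValid P) := by
  unfold RValid; infer_instance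

section Ambient

variable {T U : Finset (ℤ × ℤ)} {x : ℤ × ℤ} {i j : ℕ}

theorem tpl_dInf_le_iff {t x : ℤ × ℤ} {j : ℤ} :
    dInf t x ≤ j ↔ t.1 - j ≤ x.1 ∧ x.1 ≤ t.1 + j ∧ t.2 - j ≤ x.2 ∧ x.2 ≤ t.2 + j := by
  unfold dInf
  rw [max_le_iff, abs_le, abs_le]
  constructor
  · rintro ⟨⟨a, b⟩, c, d⟩
    exact ⟨by linarith, by linarith, by linarith, by linarith⟩
  · rintro ⟨a, b, c, d⟩
    exact ⟨⟨by linarith, by linarith⟩, by linarith, by linarith⟩

theorem tpl_mem_dilF : x ∈ dilF T j ↔ ∃ t ∈ T, dInf t x ≤ j := by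
  unfold dilF
  simp only [mem_biUnion, mem_product, mem_Icc, tpl_dInf_le_iff, and_assoc]

theorem tpl_dilF_zero : dilF T 0 = T := by
  ext x
  rw [tpl_mem_dilF]
  constructor
  · rintro ⟨t, ht, h⟩
    rw [tpl_dInf_le_iff] at h
    have : t = x := Prod.ext (by simp at h; omega) (by simp at h; omega)
    exact this ▸ ht
  · intro hx
    exact ⟨x, hx, by simp [ct_dInf_self]⟩

theorem tpl_dilF_mono (h : i ≤ j) : dilF T i ⊆ dilF T j := by
  intro x hx
  rw [tpl_mem_dilF] at hx ⊢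
  obtain ⟨t, ht, hd⟩ := hx
  exact ⟨t, ht, hd.trans (by exact_mod_cast h)⟩

theorem tpl_subset_dilF : T ⊆ dilF T j := by
  intro x hx
  rw [tpl_mem_dilF]
  exact ⟨x, hx, by rw [ct_dInf_self]; positivity⟩

theorem tpl_dilF_dilF : dilF (dilF T i) j = dilF T (i + j) := by
  ext x
  simp only [tpl_mem_dilF]
  constructor
  · rintro ⟨y, ⟨t, ht, h1⟩, h2⟩
    refine ⟨t, ht, (ct_dInf_triangle t y x).trans ?_⟩
    push_cast
    linarith
  · rintro ⟨t, ht, h⟩
    rw [tpl_dInf_le_iff] at h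
    push_cast at h
    obtain ⟨h1, h2, h3, h4⟩ := h
    refine ⟨(max (t.1 - i) (min (t.1 + i) x.1), max (t.2 - i) (min (t.2 + i) x.2)),
      ⟨t, ht, ?_⟩, ?_⟩
    · rw [tpl_dInf_le_iff]
      simp only
      refine ⟨le_max_left _ _, max_le (by linarith [Int.natCast_nonneg i]) (min_le_left _ _),
        le_max_left _ _, max_le (by linarith [Int.natCast_nonneg i]) (min_le_left _ _)⟩
    · rw [tpl_dInf_le_iff]
      simp only
      have hi : (0 : ℤ) ≤ i := Int.natCast_nonneg i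
      have hj : (0 : ℤ) ≤ j := Int.natCast_nonneg j
      refine ⟨?_, ?_, ?_, ?_⟩
      · have : max (t.1 - i) (min (t.1 + i) x.1) ≤ x.1 + j :=
          max_le (by linarith) ((min_le_right _ _).trans (by linarith))
        linarith
      · have : x.1 - j ≤ max (t.1 - i) (min (t.1 + i) x.1) :=
          le_max_of_le_right (le_min (by linarith) (by linarith))
        linarith
      · have : max (t.2 - i) (min (t.2 + i) x.2) ≤ x.2 + j :=
          max_le (by linarith) ((min_le_right _ _).trans (by linarith))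
        linarith
      · have : x.2 - j ≤ max (t.2 - i) (min (t.2 + i) x.2) :=
          le_max_of_le_right (le_min (by linarith) (by linarith))
        linarith

theorem tpl_dilF_biUnion {ι : Type} [DecidableEq ι] (t : Finset ι) (X : ι → Finset (ℤ × ℤ)) :
    dilF (t.biUnion X) j = t.biUnion fun a => dilF (X a) j := by
  ext x
  simp only [tpl_mem_dilF, mem_biUnion]
  constructor
  · rintro ⟨y, ⟨a, ha, hy⟩, h⟩
    exact ⟨a, ha, y, hy, h⟩
  · rintro ⟨a, ha, y, hy, h⟩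
    exact ⟨y, ⟨a, ha, hy⟩, h⟩

theorem tpl_mem_rbx {P : RectP} : x ∈ (rbx P).fs ↔ P.Mem x := by
  rw [BxRect.mem_fs]
  unfold RectP.Mem rbx
  simp only
  constructor
  · rintro ⟨a, b, c, d⟩
    exact ⟨a, by omega, c, by omega⟩
  · rintro ⟨a, b, c, d⟩
    exact ⟨a, by omega, c, by omega⟩

theorem tpl_rbx_empty {P : RectP} (h : ¬ RValid P) : (rbx P).fs = ∅ := by
  rw [Finset.eq_empty_iff_forall_notMem]
  intro x hx
  rw [tpl_mem_rbx] at hx
  obtain ⟨a, b, c, d⟩ := hx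
  exact h ⟨by linarith, by linarith⟩

/-- dilation of a nonempty rectangle -/
theorem tpl_dilF_bx {Q : BxRect} (h1 : Q.a₁ < Q.b₁) (h2 : Q.a₂ < Q.b₂) :
    dilF Q.fs j = (Q.pad j).fs := by
  ext x
  rw [tpl_mem_dilF, BxRect.mem_fs]
  simp only [BxRect.pad]
  constructor
  · rintro ⟨t, ht, h⟩
    rw [BxRect.mem_fs] at ht
    rw [tpl_dInf_le_iff] at h
    obtain ⟨t1, t2, t3, t4⟩ := ht
    obtain ⟨a, b, c, d⟩ := h
    exact ⟨by linarith, by linarith, by linarith, by linarith⟩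
  · rintro ⟨a, b, c, d⟩
    refine ⟨(max Q.a₁ (min (Q.b₁ - 1) x.1), max Q.a₂ (min (Q.b₂ - 1) x.2)), ?_, ?_⟩
    · rw [BxRect.mem_fs]
      simp only
      refine ⟨le_max_left _ _, ?_, le_max_left _ _, ?_⟩
      · have : max Q.a₁ (min (Q.b₁ - 1) x.1) ≤ Q.b₁ - 1 := max_le (by omega) (min_le_left _ _)
        omega
      · have : max Q.a₂ (min (Q.b₂ - 1) x.2) ≤ Q.b₂ - 1 := max_le (by omega) (min_le_left _ _)
        omega
    · rw [tpl_dInf_le_iff]
      simp only
      have hj : (0 : ℤ) ≤ j := Int.natCast_nonneg j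
      refine ⟨?_, ?_, ?_, ?_⟩
      · have : max Q.a₁ (min (Q.b₁ - 1) x.1) ≤ x.1 + j :=
          max_le (by linarith) ((min_le_right _ _).trans (by linarith))
        linarith
      · have : x.1 - j ≤ max Q.a₁ (min (Q.b₁ - 1) x.1) :=
          le_max_of_le_right (le_min (by omega) (by linarith))
        linarith
      · have : max Q.a₂ (min (Q.b₂ - 1) x.2) ≤ x.2 + j :=
          max_le (by linarith) ((min_le_right _ _).trans (by linarith))
        linarith
      · have : x.2 - j ≤ max Q.a₂ (min (Q.b₂ - 1) x.2) :=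
          le_max_of_le_right (le_min (by omega) (by linarith))
        linarith

/-- number of points of a rectangle -/
theorem tpl_card_bx_le (Q : BxRect) (s : ℕ) (h : Q.size ≤ s) : Q.fs.card ≤ s * s := by
  have s1 : Q.b₁ - Q.a₁ ≤ s := (le_max_left _ _).trans h
  have s2 : Q.b₂ - Q.a₂ ≤ s := (le_max_right _ _).trans h
  unfold BxRect.fs
  rw [card_product, Int.card_Ico, Int.card_Ico]
  exact Nat.mul_le_mul (by omega) (by omega)

/-- one layer of a rectangle -/
theorem tpl_ring_card {Q : BxRect} (s : ℕ) (h : Q.size ≤ s) (hj : 1 ≤ j) :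
    ((Q.pad j).fs \ (Q.pad ((j : ℤ) - 1)).fs).card ≤ 4 * s + 8 * j := by
  have s1 : Q.b₁ - Q.a₁ ≤ s := (le_max_left _ _).trans h
  have s2 : Q.b₂ - Q.a₂ ≤ s := (le_max_right _ _).trans h
  have hsub : (Q.pad j).fs \ (Q.pad ((j : ℤ) - 1)).fs ⊆
      (({Q.a₁ - j} : Finset ℤ) ×ˢ Ico (Q.a₂ - j) (Q.b₂ + j)) ∪
      (({Q.b₁ + j - 1} : Finset ℤ) ×ˢ Ico (Q.a₂ - j) (Q.b₂ + j)) ∪
      (Ico (Q.a₁ - j) (Q.b₁ + j) ×ˢ ({Q.a₂ - j} : Finset ℤ)) ∪
      (Ico (Q.a₁ - j) (Q.b₁ + j) ×ˢ ({Q.b₂ + j - 1} : Finset ℤ)) := by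
    intro x hx
    rw [mem_sdiff, BxRect.mem_fs, BxRect.mem_fs] at hx
    simp only [BxRect.pad] at hx
    obtain ⟨⟨a, b, c, d⟩, hn⟩ := hx
    simp only [mem_union, mem_product, mem_singleton, mem_Ico]
    by_contra hcon
    apply hn
    refine ⟨?_, ?_, ?_, ?_⟩
    · by_contra hh
      exact hcon (Or.inl (Or.inl (Or.inl ⟨by omega, c, d⟩)))
    · by_contra hh
      exact hcon (Or.inl (Or.inl (Or.inr ⟨by omega, c, d⟩)))
    · by_contra hh
      exact hcon (Or.inl (Or.inr ⟨⟨a, b⟩, by omega⟩))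
    · by_contra hh
      exact hcon (Or.inr ⟨⟨a, b⟩, by omega⟩)
  refine (card_le_card hsub).trans ?_
  have k1 : (Ico (Q.a₂ - j) (Q.b₂ + j)).card ≤ s + 2 * j := by
    rw [Int.card_Ico]; omega
  have k2 : (Ico (Q.a₁ - j) (Q.b₁ + j)).card ≤ s + 2 * j := by
    rw [Int.card_Ico]; omega
  refine (card_union_le _ _).trans ?_
  refine (Nat.add_le_add_right ((card_union_le _ _).trans
    (Nat.add_le_add_right (card_union_le _ _) _)) _).trans ?_
  simp only [card_product, card_singleton, one_mul, mul_one]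
  omega

/-- a template is the union of its valid pieces -/
theorem tpl_template_eq {Ctpl n s0 : ℕ} (hT : IsTemplate Ctpl T n s0) :
    ∃ (N0 : ℕ) (P : Fin N0 → RectP), 1 ≤ N0 ∧ Ctpl * N0 * (s0 + 1) ≤ n ∧
      (∀ a, (rbx (P a)).size ≤ s0 + 1) ∧
      T = (univ.filter fun a => RValid (P a)).biUnion fun a => (rbx (P a)).fs := by
  obtain ⟨_, _, N0, P, hN, hs, hmem, hn, _⟩ := hT
  refine ⟨N0, P, hN, hn, fun a => ?_, ?_⟩
  · unfold BxRect.size rbx
    simp only
    have := hs a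
    exact max_le (by linarith [this.1]) (by linarith [this.2])
  · ext x
    rw [hmem, mem_biUnion]
    constructor
    · rintro ⟨a, ha⟩
      refine ⟨a, ?_, tpl_mem_rbx.mpr ha⟩
      simp only [mem_filter, mem_univ, true_and]
      obtain ⟨h1, h2, h3, h4⟩ := ha
      exact ⟨by linarith, by linarith⟩
    · rintro ⟨a, _, ha⟩
      exact ⟨a, tpl_mem_rbx.mp ha⟩

theorem tpl_valid_lt {P : RectP} (h : RValid P) :
    (rbx P).a₁ < (rbx P).b₁ ∧ (rbx P).a₂ < (rbx P).b₂ := by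
  unfold rbx
  simp only
  exact ⟨by linarith [h.1], by linarith [h.2]⟩

/-- Lemma 8.4 (a): rows of a template -/
theorem tpl_row_card {Ctpl n s0 : ℕ} (hC : 12 ≤ Ctpl) (hT : IsTemplate Ctpl T n s0)
    (h1 : 1 ≤ j) (hj : j ≤ s0 + 1) : (dilF T j \ dilF T (j - 1)).card ≤ n := by
  obtain ⟨N0, P, _, hn, hs, hTeq⟩ := tpl_template_eq hT
  set V := univ.filter fun a => RValid (P a) with hV
  have hsub : dilF T j \ dilF T (j - 1) ⊆
      V.biUnion fun a => ((rbx (P a)).pad j).fs \ ((rbx (P a)).pad ((j : ℤ) - 1)).fs := by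
    rw [hTeq, tpl_dilF_biUnion, tpl_dilF_biUnion]
    intro x hx
    rw [mem_sdiff, mem_biUnion, mem_biUnion] at hx
    obtain ⟨⟨a, ha, hxa⟩, hn'⟩ := hx
    rw [mem_biUnion]
    refine ⟨a, ha, ?_⟩
    have hv := tpl_valid_lt (Finset.mem_filter.mp ha).2
    rw [tpl_dilF_bx hv.1 hv.2] at hxa
    rw [mem_sdiff]
    refine ⟨hxa, fun hcon => hn' ⟨a, ha, ?_⟩⟩
    rw [tpl_dilF_bx hv.1 hv.2]
    have e : ((j - 1 : ℕ) : ℤ) = (j : ℤ) - 1 := by omega
    rw [e]
    exact hcon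
  refine (card_le_card hsub).trans ?_
  refine (card_biUnion_le_card_mul V _ (12 * (s0 + 1)) fun a _ => ?_).trans ?_
  · have := tpl_ring_card (Q := rbx (P a)) (j := j) (s0 + 1) (by exact_mod_cast hs a) h1
    omega
  · have hVc : V.card ≤ N0 := by
      have := Finset.card_filter_le (univ : Finset (Fin N0)) fun a => RValid (P a)
      simpa using this
    calc V.card * (12 * (s0 + 1)) ≤ N0 * (12 * (s0 + 1)) := Nat.mul_le_mul_right _ hVc
      _ = 12 * N0 * (s0 + 1) := by ring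
      _ ≤ Ctpl * N0 * (s0 + 1) := by gcongr
      _ ≤ n := hn

/-- Lemma 8.4 (a): size of a dilated template -/
theorem tpl_dil_card {Ctpl n s0 : ℕ} (hC : 12 ≤ Ctpl) (hT : IsTemplate Ctpl T n s0)
    (hj : j ≤ s0) : (dilF T j).card ≤ n ^ 2 := by
  obtain ⟨N0, P, hN0, hn, hs, hTeq⟩ := tpl_template_eq hT
  set V := univ.filter fun a => RValid (P a) with hV
  rw [hTeq, tpl_dilF_biUnion]
  refine (card_biUnion_le_card_mul V _ ((3 * (s0 + 1)) * (3 * (s0 + 1))) fun a ha => ?_).trans ?_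
  · have hv := tpl_valid_lt (Finset.mem_filter.mp ha).2
    rw [tpl_dilF_bx hv.1 hv.2]
    apply tpl_card_bx_le
    have h1 := hs a
    unfold BxRect.size at h1 ⊢
    simp only [BxRect.pad]
    have a1 := (le_max_left _ _).trans h1
    have a2 := (le_max_right _ _).trans h1
    have hj' : (j : ℤ) ≤ s0 := by exact_mod_cast hj
    push_cast
    exact max_le (by linarith) (by linarith)
  · have hVc : V.card ≤ N0 := by
      have := Finset.card_filter_le (univ : Finset (Fin N0)) fun a => RValid (P a)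
      simpa using this
    have h12 : 12 * N0 * (s0 + 1) ≤ n := le_trans (by gcongr) hn
    calc V.card * ((3 * (s0 + 1)) * (3 * (s0 + 1)))
        ≤ N0 * ((3 * (s0 + 1)) * (3 * (s0 + 1))) := Nat.mul_le_mul_right _ hVc
      _ ≤ (12 * N0 * (s0 + 1)) ^ 2 := by nlinarith [Nat.zero_le (N0 * (s0 + 1) * (s0 + 1))]
      _ ≤ n ^ 2 := Nat.pow_le_pow_left h12 2

/-- a nonempty rectangle is a template with one piece -/
theorem tpl_bx_isTemplate {Q : BxRect} (h1 : Q.a₁ < Q.b₁) (h2 : Q.a₂ < Q.b₂) (s0 : ℕ)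
    (hs : Q.size = s0) : IsTemplate 12 Q.fs (24 * s0) s0 := by
  have s1 : Q.b₁ - Q.a₁ ≤ s0 := (le_max_left _ _).trans hs.le
  have s2 : Q.b₂ - Q.a₂ ≤ s0 := (le_max_right _ _).trans hs.le
  have hs0 : 1 ≤ s0 := by omega
  refine ⟨⟨(Q.a₁, Q.a₂), ?_⟩, hs0, 1, fun _ => ⟨Q.a₁, Q.b₁ - 1, Q.a₂, Q.b₂ - 1⟩, le_rfl, ?_, ?_,
    by omega, ?_⟩
  · rw [BxRect.mem_fs]
    exact ⟨le_rfl, h1, le_rfl, h2⟩
  · intro _
    simp only
    exact ⟨by omega, by omega⟩
  · intro p
    rw [BxRect.mem_fs]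
    unfold RectP.Mem
    simp only
    constructor
    · rintro ⟨a, b, c, d⟩
      exact ⟨0, a, by omega, c, by omega⟩
    · rintro ⟨_, a, b, c, d⟩
      exact ⟨a, by omega, c, by omega⟩
  · intro x hx y hy
    rw [BxRect.mem_fs] at hx hy
    rw [tpl_dInf_le_iff]
    obtain ⟨x1, x2, x3, x4⟩ := hx
    obtain ⟨y1, y2, y3, y4⟩ := hy
    push_cast
    exact ⟨by omega, by omega, by omega, by omega⟩

end Ambient

end Claimed.Agent.R296.Scan
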